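import Vale.Agent.P230.Defs

/-!
P230: volumes of caps of the ball of slots (section 1 of notes/P230/PROOF.md).
-/

namespace Vale.Agent.P230

open MeasureTheory Finset Module
open scoped RealInnerProductSpace

variable {n : ℕ}

lemma A_pos : 0 < A := by norm_num [A]

lemma rho_sq : rho ^ 2 = 1 + 1 / A := Real.sq_sqrt (by have := A_pos; positivity)

lemma one_lt_rho : 1 < rho := by
  rw [rho, Real.lt_sqrt zero_le_one]
  norm_num [A]

lemma rho_pos : 0 < rho := zero_lt_one.trans one_lt_rho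

lemma capSet_subset (e : E n) (h : ℝ) : capSet e h ⊆ {v | ‖v‖ ≤ rho} := fun _ hv => hv.1

theorem measurableSet_capSet (e : E n) (h : ℝ) : MeasurableSet (capSet e h) :=
  (isClosed_le continuous_norm continuous_const).measurableSet.inter
    (isOpen_lt (f := fun _ : E n => h) (g := fun v : E n => ⟪v, e⟫) continuous_const
      (continuous_id.inner continuous_const)).measurableSet

theorem measurableSet_excl (y : E n) : MeasurableSet (excl y) := measurableSet_capSet y 1

lemma volume_lt_top {S : Set (E n)} (hS : S ⊆ {v | ‖v‖ ≤ rho}) : volume S < ⊤ :=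
  lt_of_le_of_lt (measure_mono fun v hv => mem_closedBall_zero_iff.2 (hS hv))
    (isCompact_closedBall (0 : E n) rho).measure_lt_top

theorem lam_nonneg (S : Set (E n)) : 0 ≤ lam S :=
  div_nonneg ENNReal.toReal_nonneg ENNReal.toReal_nonneg

theorem lam_mono {S T : Set (E n)} (hS : S ⊆ T) (hT : T ⊆ {v | ‖v‖ ≤ rho}) : lam S ≤ lam T :=
  div_le_div_of_nonneg_right (ENNReal.toReal_mono (volume_lt_top hT).ne (measure_mono hS))
    ENNReal.toReal_nonneg

theorem lam_empty : lam (∅ : Set (E n)) = 0 := by simp [lam]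

/-- The first coordinate vector. -/
noncomputable def axis (hn : 0 < n) : E n := EuclideanSpace.single ⟨0, hn⟩ 1

lemma norm_axis (hn : 0 < n) : ‖axis hn‖ = 1 := by simp [axis]

lemma inner_axis (hn : 0 < n) (v : E n) : ⟪v, axis hn⟫ = v ⟨0, hn⟩ := by
  simp [axis, EuclideanSpace.inner_single_right]

/-- The normalising set of `lam` is the cap at height one about the first axis. -/
lemma normSet_eq (hn : 0 < n) :
    {v : E n | ‖v‖ ≤ rho ∧ ∃ h : 0 < n, 1 < v ⟨0, h⟩} = capSet (axis hn) 1 := by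
  ext v
  simp [capSet, inner_axis, hn]

/-- Rotation invariance. -/
lemma volume_capSet_eq {e e' : E n} (he : ‖e‖ = 1) (he' : ‖e'‖ = 1) (h : ℝ) :
    volume (capSet e h) = volume (capSet e' h) := by
  set L := (ℝ ∙ (e - e'))ᗮ.reflection with hL
  have hLe : L e = e' := Submodule.reflection_sub (he.trans he'.symm)
  have hset : L ⁻¹' capSet e' h = capSet e h := by
    ext v
    simp only [Set.mem_preimage, capSet, Set.mem_ofPred_eq, LinearIsometryEquiv.norm_map]
    rw [← hLe, LinearIsometryEquiv.inner_map_map]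
  rw [← hset, L.measurePreserving.measure_preimage (measurableSet_capSet e' h).nullMeasurableSet]

/-- The normaliser is positive. -/
theorem cap_one_pos (hn : 2 ≤ n) :
    0 < (volume {v : E n | ‖v‖ ≤ rho ∧ ∃ h : 0 < n, 1 < v ⟨0, h⟩}).toReal := by
  have hn0 : 0 < n := by omega
  rw [normSet_eq hn0]
  refine ENNReal.toReal_pos (ne_of_gt (lt_of_lt_of_le
    (Metric.measure_ball_pos volume (((1 + rho) / 2) • axis hn0)
      (by linarith [one_lt_rho] : 0 < (rho - 1) / 2)) (measure_mono fun v hv => ?_)))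
    (volume_lt_top (capSet_subset _ _)).ne
  rw [mem_ball_iff_norm] at hv
  have hc : ‖((1 + rho) / 2) • axis hn0‖ = (1 + rho) / 2 := by
    rw [norm_smul, norm_axis, mul_one, Real.norm_eq_abs, abs_of_pos (by linarith [one_lt_rho])]
  refine ⟨?_, ?_⟩
  · have := norm_le_norm_add_norm_sub' v (((1 + rho) / 2) • axis hn0)
    linarith
  · have h1 := abs_real_inner_le_norm (v - ((1 + rho) / 2) • axis hn0) (axis hn0)
    rw [norm_axis, mul_one, inner_sub_left, real_inner_smul_left, real_inner_self_eq_norm_sq,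
      norm_axis, one_pow, mul_one, abs_le] at h1
    linarith [h1.1]

/-- `lam` is the volume relative to the cap at height one in any direction. -/
lemma lam_eq_div (hn : 2 ≤ n) {e : E n} (he : ‖e‖ = 1) (S : Set (E n)) :
    lam S = (volume S).toReal / (volume (capSet e 1)).toReal := by
  rw [lam, normSet_eq (by omega : 0 < n), volume_capSet_eq he (norm_axis _) 1]

theorem lam_capSet_eq {e e' : E n} (he : ‖e‖ = 1) (he' : ‖e'‖ = 1) (h : ℝ) :
    lam (capSet e h) = lam (capSet e' h) := by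
  rw [lam, lam, volume_capSet_eq he he' h]

theorem lam_capSet_one (hn : 2 ≤ n) {e : E n} (he : ‖e‖ = 1) : lam (capSet e 1) = 1 := by
  have h := cap_one_pos hn
  rw [normSet_eq (by omega : 0 < n), ← volume_capSet_eq he (norm_axis _) 1] at h
  rw [lam_eq_div hn he, div_self h.ne']

/-- Raising a cap. -/
theorem lam_cap_ratio (hn : 2 ≤ n) {e : E n} (he : ‖e‖ = 1) {h h' : ℝ} (h1 : 1 ≤ h) (hh : h ≤ h') :
    lam (capSet e h') ≤
      Real.exp (-(A * ((n : ℝ) - 1) * (h' ^ 2 - h ^ 2) / 2)) * lam (capSet e h) := by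
  have hn0 : 0 < n := by omega
  rw [lam_capSet_eq he (norm_axis hn0), lam_capSet_eq he (norm_axis hn0)]
  set β := Real.exp (A * (h' ^ 2 - h ^ 2) / 2) with hβ
  have hsq : h ^ 2 ≤ h' ^ 2 := pow_le_pow_left₀ (by linarith) hh 2
  have hβ2 : β ^ 2 = Real.exp (A * (h' ^ 2 - h ^ 2)) := by
    rw [hβ, ← Real.exp_nat_mul]; congr 1; push_cast; ring
  have hβ1 : 1 ≤ β ^ 2 := by
    rw [hβ2]; exact Real.one_le_exp (mul_nonneg A_pos.le (sub_nonneg.2 hsq))
  set i₀ : Fin n := ⟨0, hn0⟩
  set d : Fin n → ℝ := fun i => if i = i₀ then 1 else β with hd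
  set b := (EuclideanSpace.basisFun (Fin n) ℝ).toBasis
  set f : E n →ₗ[ℝ] E n := Matrix.toLin b b (Matrix.diagonal d) with hf
  have hfv : ∀ (v : E n) i, f v i = d i * v i := fun v i => by
    simp [hf, b, Matrix.toLin_apply, Matrix.mulVec_diagonal, Pi.single_apply]
  have hdet : LinearMap.det f = β ^ (n - 1) := by
    rw [hf, LinearMap.det_toLin, Matrix.det_diagonal, ← Finset.mul_prod_erase univ d (mem_univ i₀),
      show d i₀ = 1 by simp [hd], one_mul,
      Finset.prod_congr rfl fun i hi => show d i = β by simp [hd, Finset.ne_of_mem_erase hi],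
      Finset.prod_const, Finset.card_erase_of_mem (mem_univ _), Finset.card_univ, Fintype.card_fin]
  have himg : f '' capSet (axis hn0) h' ⊆
      (fun v => -((h' - h) • axis hn0) + v) ⁻¹' capSet (axis hn0) h := by
    rintro _ ⟨v, ⟨hv, hvx⟩, rfl⟩
    rw [inner_axis] at hvx
    set x := v i₀ with hxdef
    have hx : x ≤ rho := le_trans (le_trans (le_abs_self _) (PiLp.norm_apply_le v i₀)) hv
    set w := -((h' - h) • axis hn0) + f v with hw
    have hw0 : ∀ i, w i = d i * v i - if i = i₀ then h' - h else 0 := fun i => by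
      simp only [hw, axis, PiLp.add_apply, PiLp.neg_apply, PiLp.smul_apply, hfv,
        PiLp.single_apply, smul_eq_mul, mul_ite, mul_one, mul_zero]
      rw [neg_add_eq_sub]
    have hwx : w i₀ = x - (h' - h) := by simp [hw0, hd, hxdef]
    refine ⟨?_, by rw [inner_axis]; change h < w i₀; rw [hwx]; linarith⟩
    have hnw : ‖w‖ ^ 2 = (x - (h' - h)) ^ 2 + β ^ 2 * (‖v‖ ^ 2 - x ^ 2) := by
      rw [EuclideanSpace.norm_sq_eq, EuclideanSpace.norm_sq_eq]
      simp only [Real.norm_eq_abs, sq_abs]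
      rw [← Finset.add_sum_erase univ (fun i => w i ^ 2) (mem_univ i₀), hwx,
        ← Finset.add_sum_erase univ (fun i => v i ^ 2) (mem_univ i₀), add_sub_cancel_left,
        Finset.mul_sum]
      congr 1
      refine sum_congr rfl fun i hi => ?_
      simp [hw0, hd, Finset.ne_of_mem_erase hi, mul_pow]
    have hv2 : ‖v‖ ^ 2 ≤ rho ^ 2 := pow_le_pow_left₀ (norm_nonneg _) hv 2
    have key : (rho ^ 2 - h' ^ 2) * β ^ 2 ≤ rho ^ 2 - h ^ 2 := by
      have e1 : (rho ^ 2 - h ^ 2) * (A * (h' ^ 2 - h ^ 2)) ≤ h' ^ 2 - h ^ 2 := by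
        have : (rho ^ 2 - h ^ 2) * A ≤ 1 := by
          rw [← le_div_iff₀ A_pos, rho_sq]; linarith [one_le_pow₀ h1 (n := 2)]
        calc _ = (rho ^ 2 - h ^ 2) * A * (h' ^ 2 - h ^ 2) := by ring
          _ ≤ _ := mul_le_of_le_one_left (sub_nonneg.2 hsq) this
      have hpos : 0 ≤ rho ^ 2 - h ^ 2 :=
        sub_nonneg.2 (pow_le_pow_left₀ (by linarith) (by linarith) 2)
      have e2 := Real.add_one_le_exp (-(A * (h' ^ 2 - h ^ 2)))
      have e3 : rho ^ 2 - h' ^ 2 ≤
          (rho ^ 2 - h ^ 2) * Real.exp (-(A * (h' ^ 2 - h ^ 2))) := by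
        nlinarith [mul_le_mul_of_nonneg_left e2 hpos]
      rw [hβ2]
      calc _ ≤ (rho ^ 2 - h ^ 2) * Real.exp (-(A * (h' ^ 2 - h ^ 2))) *
            Real.exp (A * (h' ^ 2 - h ^ 2)) := mul_le_mul_of_nonneg_right e3 (Real.exp_pos _).le
        _ = _ := by rw [mul_assoc, ← Real.exp_add, neg_add_cancel, Real.exp_zero, mul_one]
    refine pow_le_pow_iff_left₀ (norm_nonneg _) rho_pos.le two_ne_zero |>.1 ?_
    rw [hnw]
    have a1 : 0 ≤ (x - h') * (β ^ 2 * (x + h') - (x - h' + 2 * h)) :=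
      mul_nonneg (by linarith) (by nlinarith)
    have a2 := mul_le_mul_of_nonneg_left hv2 (sq_nonneg β)
    nlinarith
  have hvol : β ^ (n - 1) * (volume (capSet (axis hn0) h')).toReal ≤
      (volume (capSet (axis hn0) h)).toReal := by
    have := measure_mono (μ := volume) himg
    rw [Measure.addHaar_image_linearMap, hdet, measure_preimage_add] at this
    have hr := ENNReal.toReal_mono (volume_lt_top (capSet_subset _ _)).ne this
    rwa [ENNReal.toReal_mul, ENNReal.toReal_ofReal (abs_nonneg _),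
      abs_of_pos (pow_pos (Real.exp_pos _) _)] at hr
  have hpow : β ^ (n - 1) = Real.exp (A * ((n : ℝ) - 1) * (h' ^ 2 - h ^ 2) / 2) := by
    rw [hβ, ← Real.exp_nat_mul, Nat.cast_sub (by omega : 1 ≤ n)]
    congr 1
    push_cast
    ring
  rw [hpow] at hvol
  simp only [lam]
  rw [mul_div_assoc']
  refine div_le_div_of_nonneg_right ?_ ENNReal.toReal_nonneg
  rw [Real.exp_neg, ← div_eq_inv_mul, le_div_iff₀ (Real.exp_pos _), mul_comm]
  exact hvol

/-- A lower bound for caps slightly above height one. -/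
theorem lam_cap_lower (hn : 2 ≤ n) {e : E n} {h : ℝ} (he : ‖e‖ = 1) (h1 : 1 ≤ h)
    (h2 : h ≤ 1 + 1 / (6 * A)) :
    Real.exp (-(6 * A * n * (h - 1))) ≤ lam (capSet e h) := by
  have hρ : 1 / (3 * A) ≤ rho - 1 := by
    have : 1 + 1 / (3 * A) ≤ rho := by
      rw [rho]; exact Real.le_sqrt_of_sq_le (by norm_num [A])
    linarith
  have hρ1 : 0 < rho - 1 := by linarith [one_lt_rho]
  set s := (h - 1) / (rho - 1) with hs
  have hs0 : 0 ≤ s := div_nonneg (by linarith) hρ1.le
  have hsA : s ≤ 3 * A * (h - 1) := by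
    rw [hs, div_le_iff₀ hρ1]
    have h3 : 1 ≤ 3 * A * (rho - 1) := by
      rw [div_le_iff₀ (by linarith [A_pos])] at hρ; linarith
    calc h - 1 ≤ (h - 1) * (3 * A * (rho - 1)) := le_mul_of_one_le_right (by linarith) h3
      _ = _ := by ring
  have hs2 : s ≤ 1 / 2 := hsA.trans (by
    have := mul_le_mul_of_nonneg_left (show h - 1 ≤ 1 / (6 * A) by linarith)
      (by linarith [A_pos] : 0 ≤ 3 * A)
    have e : 3 * A * (1 / (6 * A)) = 1 / 2 := by norm_num [A]
    linarith)
  have himg : AffineMap.homothety (rho • e) (1 - s) '' capSet e 1 ⊆ capSet e h := by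
    rintro _ ⟨v, ⟨hv, hvx⟩, rfl⟩
    have hform : AffineMap.homothety (rho • e) (1 - s) v = (1 - s) • v + (s * rho) • e := by
      rw [AffineMap.homothety_apply, vsub_eq_sub, vadd_eq_add, mul_smul]
      module
    rw [hform]
    refine ⟨?_, ?_⟩
    · refine (norm_add_le _ _).trans ?_
      rw [norm_smul, norm_smul, he, mul_one, Real.norm_eq_abs, Real.norm_eq_abs,
        abs_of_nonneg (by linarith : 0 ≤ 1 - s), abs_of_nonneg (mul_nonneg hs0 rho_pos.le)]
      nlinarith [mul_le_mul_of_nonneg_left hv (by linarith : 0 ≤ 1 - s)]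
    · rw [inner_add_left, real_inner_smul_left, real_inner_smul_left, real_inner_self_eq_norm_sq,
        he, one_pow, mul_one]
      have : h = (1 - s) + s * rho := by rw [hs]; field_simp; ring
      nlinarith [mul_lt_mul_of_pos_left hvx (by linarith : 0 < 1 - s)]
  have hvol : (1 - s) ^ n * (volume (capSet e 1)).toReal ≤ (volume (capSet e h)).toReal := by
    have hr := ENNReal.toReal_mono (volume_lt_top (capSet_subset _ _)).ne
      (measure_mono (μ := volume) himg)
    rwa [Measure.addHaar_image_homothety, finrank_euclideanSpace, Fintype.card_fin,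
      ENNReal.toReal_mul, ENNReal.toReal_ofReal (abs_nonneg _),
      abs_of_nonneg (pow_nonneg (by linarith) _)] at hr
  have hpos : 0 < (volume (capSet e 1)).toReal := by
    have h := cap_one_pos hn
    rwa [normSet_eq (by omega : 0 < n), ← volume_capSet_eq he (norm_axis _) 1] at h
  have hexp : Real.exp (-(6 * A * n * (h - 1))) ≤ (1 - s) ^ n := by
    have e1 : Real.exp (-(2 * s)) ≤ 1 - s := by
      rw [Real.exp_neg, inv_le_iff_one_le_mul₀ (Real.exp_pos _)]
      calc 1 ≤ (1 - s) * (2 * s + 1) := by nlinarith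
        _ ≤ (1 - s) * Real.exp (2 * s) :=
          mul_le_mul_of_nonneg_left (Real.add_one_le_exp _) (by linarith)
    refine le_trans ?_ (pow_le_pow_left₀ (Real.exp_pos _).le e1 n)
    rw [← Real.exp_nat_mul]
    refine Real.exp_le_exp.2 ?_
    linarith [mul_le_mul_of_nonneg_left hsA (Nat.cast_nonneg (α := ℝ) n)]
  rw [lam_eq_div hn he, le_div_iff₀ hpos]
  exact (mul_le_mul_of_nonneg_right hexp hpos.le).trans hvol

/-- The slots excluding a short vector. -/
theorem lam_excl_sq (hn : 2 ≤ n) {m : E n} (hm : ‖m‖ ≤ 1) :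
    lam (excl m) ≤ Real.exp (-(A * ((n : ℝ) - 1) * (1 - ‖m‖ ^ 2) / 2)) ∧
      lam (excl m) ≤ Real.exp (-(A * ((n : ℝ) - 1) * (1 - ‖m‖))) := by
  have hn1 : (1 : ℝ) ≤ (n : ℝ) - 1 := by
    have : (2 : ℝ) ≤ n := by exact_mod_cast hn
    linarith
  rcases eq_or_ne m 0 with rfl | hne
  · have : excl (0 : E n) = ∅ := by
      ext v; simp [excl, capSet]
    rw [this, lam_empty]
    exact ⟨(Real.exp_pos _).le, (Real.exp_pos _).le⟩
  set t := ‖m‖ with ht
  have ht0 : 0 < t := norm_pos_iff.2 hne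
  set e := t⁻¹ • m with hedef
  have he : ‖e‖ = 1 := norm_smul_inv_norm (𝕜 := ℝ) hne
  have hset : excl m = capSet e t⁻¹ := by
    ext v
    simp only [excl, capSet, Set.mem_ofPred_eq, hedef, real_inner_smul_right]
    refine and_congr_right fun _ => ?_
    rw [inv_eq_one_div, div_mul_eq_mul_div, one_mul, div_lt_div_iff_of_pos_right ht0]
  have key := lam_cap_ratio hn he (h := 1) (h' := t⁻¹) le_rfl ((one_le_inv₀ ht0).2 hm)
  rw [lam_capSet_one hn he, mul_one, ← hset] at key
  have hA : 0 ≤ A * ((n : ℝ) - 1) := mul_nonneg A_pos.le (by linarith)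
  have ht2 : t ^ 2 ≤ 1 := pow_le_one₀ ht0.le hm
  have hinv : 1 - t ^ 2 ≤ t⁻¹ ^ 2 - 1 := by
    rw [inv_pow, le_sub_iff_add_le, ← one_div, le_div_iff₀ (pow_pos ht0 2)]
    nlinarith [sq_nonneg (1 - t ^ 2)]
  have hinv' : 2 * (1 - t) ≤ t⁻¹ ^ 2 - 1 := by
    rw [inv_pow, le_sub_iff_add_le, ← one_div, le_div_iff₀ (pow_pos ht0 2)]
    nlinarith [mul_nonneg (sub_nonneg.2 hm) (mul_nonneg ht0.le (sub_nonneg.2 hm)),
      mul_nonneg (sub_nonneg.2 hm) (sub_nonneg.2 hm)]
  constructor <;> refine key.trans (Real.exp_le_exp.2 ?_)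
  · linarith [mul_le_mul_of_nonneg_left hinv hA]
  · linarith [mul_le_mul_of_nonneg_left hinv' hA]

/-- (C4). -/
theorem lam_excl (hn : 2 ≤ n) {y : E n} (hy : ‖y‖ ≤ 1) :
    lam (excl y) ≤ Real.exp (-(A * ((n : ℝ) - 1) * (1 - ‖y‖))) :=
  (lam_excl_sq hn hy).2

/-- (C3). -/
theorem lam_pair (hn : 2 ≤ n) {y y' : E n} (hy : ‖y‖ ≤ 1) (hy' : ‖y'‖ ≤ 1) :
    lam (excl y ∩ excl y') ≤ Real.exp (-(A * ((n : ℝ) - 1) * ‖y - y'‖ ^ 2 / 8)) := by
  set m := (1 / 2 : ℝ) • (y + y') with hm
  have hm2 : ‖m‖ ^ 2 ≤ 1 - ‖y - y'‖ ^ 2 / 4 := by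
    rw [hm, norm_smul, mul_pow, Real.norm_eq_abs, sq_abs]
    have := parallelogram_law_with_norm ℝ y y'
    nlinarith [pow_le_one₀ (norm_nonneg y) hy (n := 2), pow_le_one₀ (norm_nonneg y') hy' (n := 2)]
  have hm1 : ‖m‖ ≤ 1 := (sq_le_one_iff₀ (norm_nonneg m)).1 (by nlinarith [sq_nonneg ‖y - y'‖])
  have hsub : excl y ∩ excl y' ⊆ excl m := by
    rintro v ⟨⟨hv, h1⟩, -, h2⟩
    refine ⟨hv, ?_⟩
    rw [hm, real_inner_smul_right, inner_add_right]
    linarith
  refine (lam_mono hsub (capSet_subset _ _)).trans ((lam_excl_sq hn hm1).1.trans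
    (Real.exp_le_exp.2 ?_))
  have hA : 0 ≤ A * ((n : ℝ) - 1) := mul_nonneg A_pos.le (by
    have : (2 : ℝ) ≤ n := by exact_mod_cast hn
    linarith)
  linarith [mul_le_mul_of_nonneg_left hm2 hA]

/-- (C5). -/
theorem lam_cap_two (hn : 2 ≤ n) {e f : E n} {h b : ℝ} (he : ‖e‖ = 1) (hf : ‖f‖ = 1)
    (hef : ⟪e, f⟫ = 0) (h1 : 1 ≤ h) (hb : 0 ≤ b) :
    lam (capSet e h ∩ {v | ⟪v, f⟫ < -b}) ≤
      Real.exp (-(A * ((n : ℝ) - 1) * b ^ 2 / 2)) * lam (capSet e h) := by
  set s := √(h ^ 2 + b ^ 2) with hs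
  have hs0 : 0 < s := Real.sqrt_pos.2 (by positivity)
  have hs2 : s ^ 2 = h ^ 2 + b ^ 2 := Real.sq_sqrt (by positivity)
  have hhs : h ≤ s := Real.le_sqrt_of_sq_le (le_add_of_nonneg_right (sq_nonneg b))
  set g := s⁻¹ • (h • e - b • f) with hgdef
  have hg : ‖g‖ = 1 := by
    have : ‖h • e - b • f‖ ^ 2 = s ^ 2 := by
      rw [norm_sub_sq_real, norm_smul, norm_smul, he, hf, real_inner_smul_left,
        real_inner_smul_right, hef, hs2]
      simp
    rw [hgdef, norm_smul, (pow_left_inj₀ (norm_nonneg _) hs0.le two_ne_zero).1 this,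
      Real.norm_eq_abs, abs_of_pos (inv_pos.2 hs0), inv_mul_cancel₀ hs0.ne']
  have hsub : capSet e h ∩ {v | ⟪v, f⟫ < -b} ⊆ capSet g s := by
    rintro v ⟨⟨hv, hx⟩, hy⟩
    refine ⟨hv, ?_⟩
    have hy' : ⟪v, f⟫ < -b := hy
    rw [hgdef, real_inner_smul_right, inner_sub_right, real_inner_smul_right,
      real_inner_smul_right, ← div_eq_inv_mul, lt_div_iff₀ hs0]
    nlinarith [mul_lt_mul_of_pos_left hx (by linarith : 0 < h),
      mul_le_mul_of_nonneg_left hy'.le hb]
  refine (lam_mono hsub (capSet_subset _ _)).trans ?_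
  have key := lam_cap_ratio hn hg h1 hhs
  rw [lam_capSet_eq hg he h] at key
  rwa [hs2, add_sub_cancel_left] at key

end Vale.Agent.P230
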