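import Vale.Agent.P230.Defs

/-!
P230, section 6: splitting a finite set into clusters with bounded interaction.
-/

namespace Vale.Agent.P230

open Finset

variable {n : ℕ}

/-- Points at geometric distances from a centre have bounded total weight. -/
lemma cluster_row_le {U : Finset (E n)} {u : E n} {g : ℝ → ℝ} (hn : 0 < n)
    (gl : ∀ (l : ℕ) (d : ℝ), √((l : ℝ) / n) < d → g d ≤ (1 / 4 : ℝ) ^ l)
    (hpos : ∀ v ∈ U, 0 < ‖v - u‖)
    (hcnt : ∀ l : ℕ, ((U.filter fun v => ‖v - u‖ ≤ √((l : ℝ) / n)).card : ℝ) ≤ 2 ^ l) :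
    ∑ v ∈ U, g ‖v - u‖ ≤ 4 := by
  classical
  have hn' : (0 : ℝ) < n := by exact_mod_cast hn
  have hex : ∀ v : E n, ∃ l : ℕ, ‖v - u‖ ≤ √((l : ℝ) / n) := fun v => by
    obtain ⟨l, hl⟩ := exists_nat_ge ((n : ℝ) * ‖v - u‖ ^ 2)
    refine ⟨l, Real.le_sqrt_of_sq_le ?_⟩
    rw [le_div_iff₀ hn', mul_comm]
    exact hl
  let k : E n → ℕ := fun v => Nat.find (hex v) - 1
  have hk : ∀ v ∈ U, √((k v : ℝ) / n) < ‖v - u‖ ∧ ‖v - u‖ ≤ √(((k v + 1 : ℕ) : ℝ) / n) := by
    intro v hv
    have h0 : Nat.find (hex v) ≠ 0 := by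
      intro h0
      have h1 := Nat.find_spec (hex v)
      rw [h0] at h1
      simp only [Nat.cast_zero, zero_div, Real.sqrt_zero] at h1
      exact absurd (hpos v hv) (not_lt.2 h1)
    refine ⟨not_le.1 (Nat.find_min (hex v) (by simp only [k]; omega)), ?_⟩
    rw [show k v + 1 = Nat.find (hex v) by simp only [k]; omega]
    exact Nat.find_spec (hex v)
  obtain ⟨L, hL⟩ : ∃ L, ∀ v ∈ U, k v ∈ range L :=
    ⟨U.sup k + 1, fun v hv => mem_range.2 (Nat.lt_succ_of_le (le_sup (f := k) hv))⟩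
  calc ∑ v ∈ U, g ‖v - u‖ ≤ ∑ v ∈ U, (1 / 4 : ℝ) ^ k v :=
        sum_le_sum fun v hv => gl _ _ (hk v hv).1
    _ = ∑ j ∈ range L, ∑ v ∈ U.filter (fun v => k v = j), (1 / 4 : ℝ) ^ k v :=
        (sum_fiberwise_of_maps_to hL _).symm
    _ ≤ ∑ j ∈ range L, 2 * (1 / 2 : ℝ) ^ j := by
        refine sum_le_sum fun j _ => ?_
        rw [sum_congr rfl fun v hv => by rw [(mem_filter.1 hv).2], sum_const, nsmul_eq_mul]
        have h1 : ((U.filter fun v => k v = j).card : ℝ) ≤ 2 ^ (j + 1) := by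
          refine le_trans ?_ (hcnt (j + 1))
          refine Nat.cast_le.2 (card_le_card fun v hv => mem_filter.2
            ⟨(mem_filter.1 hv).1, (mem_filter.1 hv).2 ▸ (hk v (mem_filter.1 hv).1).2⟩)
        calc ((U.filter fun v => k v = j).card : ℝ) * (1 / 4) ^ j
            ≤ 2 ^ (j + 1) * (1 / 4) ^ j := by gcongr
          _ = 2 * (1 / 2 : ℝ) ^ j := by
            rw [pow_succ', mul_assoc, ← mul_pow]; norm_num
    _ ≤ 2 * 2 := by
        rw [← mul_sum]
        exact mul_le_mul_of_nonneg_left (sum_geometric_two_le L) two_pos.le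
    _ = 4 := by norm_num

/-- Every finite set splits into clusters whose representatives interact little. -/
theorem exists_clusters (hn : 0 < n) (Y : Finset (E n)) (g : ℝ → ℝ) (_g0 : ∀ d, 0 ≤ g d)
    (g1 : ∀ d, g d ≤ 1)
    (gl : ∀ (l : ℕ) (d : ℝ), √((l : ℝ) / n) < d → g d ≤ (1 / 4 : ℝ) ^ l) :
    ∃ (U : Finset (E n)) (mem : E n → Finset (E n)) (lev : E n → ℕ),
      (∀ u ∈ U, u ∈ mem u ∧ 2 ^ lev u ≤ (mem u).card ∧ (mem u).card < 2 ^ (lev u + 1) ∧
        ∀ y ∈ mem u, ‖y - u‖ ≤ √((lev u : ℝ) / n)) ∧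
      (∀ u ∈ U, ∀ v ∈ U, u ≠ v → Disjoint (mem u) (mem v)) ∧ U.biUnion mem = Y ∧
      ∑ u ∈ U, ∑ v ∈ U, g ‖u - v‖ ≤ 12 * U.card := by
  classical
  induction Y using Finset.strongInduction with
  | _ Y ih =>
    rcases Y.eq_empty_or_nonempty with rfl | ⟨y₀, hy₀⟩
    · exact ⟨∅, fun _ => ∅, fun _ => 0, by simp, by simp, by simp, by simp⟩
    let ball : E n → ℕ → Finset (E n) := fun u l => Y.filter fun v => ‖v - u‖ ≤ √((l : ℝ) / n)
    let Q : ℕ → Prop := fun l => ∃ u ∈ Y, 2 ^ l ≤ (ball u l).card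
    have hQ0 : Q 0 := ⟨y₀, hy₀, by
      simp only [pow_zero, one_le_card]
      exact ⟨y₀, mem_filter.2 ⟨hy₀, by simp⟩⟩⟩
    have hQb : ∀ l, Q l → l ≤ Y.card := by
      rintro l ⟨u, -, hu⟩
      exact ((Nat.lt_two_pow_self).le.trans hu).trans (card_filter_le _ _)
    set i := Nat.findGreatest Q Y.card with hi
    obtain ⟨u, huY, hu⟩ : Q i := Nat.findGreatest_spec (Nat.zero_le _) hQ0
    have hsmall : ∀ l, i < l → ∀ v ∈ Y, (ball v l).card < 2 ^ l := by
      intro l hl v hv
      by_contra h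
      have hQl : Q l := ⟨v, hv, not_lt.1 h⟩
      exact absurd (Nat.le_findGreatest (hQb l hQl) hQl) (not_le.2 hl)
    have humem : u ∈ ball u i := mem_filter.2 ⟨huY, by rw [sub_self, norm_zero]; positivity⟩
    have hmono : ∀ l l' : ℕ, l ≤ l' → ball u l ⊆ ball u l' := fun l l' h v hv => by
      refine mem_filter.2 ⟨(mem_filter.1 hv).1, (mem_filter.1 hv).2.trans ?_⟩
      exact Real.sqrt_le_sqrt (by gcongr)
    have hlt : (ball u i).card < 2 ^ (i + 1) :=
      (card_le_card (hmono i (i + 1) (by omega))).trans_lt (hsmall _ (by omega) u huY)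
    obtain ⟨U, mem, lev, hU, hdisj, hcov, hw⟩ := ih (Y \ ball u i)
      ((ssubset_iff_of_subset sdiff_subset).2 ⟨u, huY, fun h => (mem_sdiff.1 h).2 humem⟩)
    have hmem : ∀ v ∈ U, mem v ⊆ Y \ ball u i := fun v hv x hx =>
      hcov ▸ mem_biUnion.2 ⟨v, hv, hx⟩
    have huU : u ∉ U := fun h => (mem_sdiff.1 (hmem u h (hU u h).1)).2 humem
    have hne : ∀ v ∈ U, v ≠ u := fun v hv h => huU (h ▸ hv)
    refine ⟨insert u U, Function.update mem u (ball u i), Function.update lev u i, ?_, ?_, ?_, ?_⟩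
    · intro v hv
      rcases mem_insert.1 hv with rfl | hv
      · simp only [Function.update_self]
        exact ⟨humem, hu, hlt, fun x hx => (mem_filter.1 hx).2⟩
      · simp only [Function.update_of_ne (hne v hv)]
        exact hU v hv
    · intro v hv v' hv' hvv
      rcases mem_insert.1 hv with e | h1 <;> rcases mem_insert.1 hv' with e' | h1'
      · exact absurd (e.trans e'.symm) hvv
      · rw [e, Function.update_self, Function.update_of_ne (hne v' h1')]
        exact disjoint_of_subset_right (hmem v' h1') disjoint_sdiff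
      · rw [e', Function.update_self, Function.update_of_ne (hne v h1)]
        exact disjoint_of_subset_left (hmem v h1) sdiff_disjoint
      · rw [Function.update_of_ne (hne v h1), Function.update_of_ne (hne v' h1')]
        exact hdisj v h1 v' h1' hvv
    · rw [biUnion_insert, Function.update_self,
        biUnion_congr rfl (t₂ := mem) fun v hv => Function.update_of_ne (hne v hv) _ _, hcov,
        union_sdiff_of_subset (filter_subset _ _)]
    · have hrow : ∑ v ∈ U, g ‖v - u‖ ≤ 4 := by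
        have hout : ∀ v ∈ U, √((i : ℝ) / n) < ‖v - u‖ ∧ v ∈ Y := fun v hv => by
          have h := mem_sdiff.1 (hmem v hv (hU v hv).1)
          exact ⟨not_le.1 fun hle => h.2 (mem_filter.2 ⟨h.1, hle⟩), h.1⟩
        refine cluster_row_le hn gl (fun v hv => (Real.sqrt_nonneg _).trans_lt (hout v hv).1)
          fun l => ?_
        rcases le_or_gt l i with hl | hl
        · have : U.filter (fun v => ‖v - u‖ ≤ √((l : ℝ) / n)) = ∅ := by
            refine filter_eq_empty_iff.2 fun v hv => not_le.2 (lt_of_le_of_lt ?_ (hout v hv).1)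
            exact Real.sqrt_le_sqrt (by gcongr)
          rw [this]; simp
        · refine le_trans (Nat.cast_le.2 (card_le_card
            fun v hv => mem_filter.2 ⟨(hout v (mem_filter.1 hv).1).2, (mem_filter.1 hv).2⟩ :
              (U.filter fun v => ‖v - u‖ ≤ √((l : ℝ) / n)).card ≤ (ball u l).card)) ?_
          exact_mod_cast (hsmall l hl u huY).le
      rw [sum_insert huU, sum_insert huU, sum_congr rfl fun v (_ : v ∈ U) => sum_insert huU,
        sum_add_distrib, card_insert_of_notMem huU, sub_self, norm_zero]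
      simp only [norm_sub_rev u] at hrow ⊢
      push_cast
      linarith [g1 0]

end Vale.Agent.P230
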