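import Mathlib

/-!
P230: definitions for the lower bound of order n log n on the translative covering density.
See notes/P230/PROOF.md.
-/

namespace Vale.Agent.P230

open MeasureTheory Finset
open scoped RealInnerProductSpace

/-- Euclidean space of dimension `n`. -/
abbrev E (n : ℕ) := EuclideanSpace ℝ (Fin n)

/-- The sharpness parameter of the caps. -/
def A : ℝ := 65536

/-- Radius of the ball of slots. -/
noncomputable def rho : ℝ := √(1 + 1 / A)

variable {n : ℕ}

/-- The open halfspace cap of the ball of slots cut off at height `h` in direction `e`. -/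
def capSet (e : E n) (h : ℝ) : Set (E n) :=
  {v | ‖v‖ ≤ rho ∧ h < ⟪v, e⟫}

/-- Volume relative to the cap at height one in any unit direction (the first one is used). -/
noncomputable def lam (S : Set (E n)) : ℝ :=
  (volume S).toReal /
    (volume {v : E n | ‖v‖ ≤ rho ∧ ∃ h : 0 < n, 1 < v ⟨0, h⟩}).toReal

/-- The slots excluding a point. -/
def excl (y : E n) : Set (E n) := capSet y 1

/-- Grid spacing. -/
noncomputable def eta (n : ℕ) : ℝ := ((n : ℝ) ^ 3)⁻¹

/-- The grid. -/
def grid (n : ℕ) : Set (E n) := {x | ∀ i, ∃ m : ℤ, x i = m * eta n}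

/-- The dilation used for rounding. -/
noncomputable def delta (n : ℕ) : ℝ := 4 * eta n * √n

/-- Depth of a point of the unit ball. -/
noncomputable def depth (y : E n) : ℝ := n * (1 - ‖y‖)

/-- The constant of the final theorem. -/
noncomputable def eps : ℝ := 1 / (4000000 * A)

/-- The density to be refuted. -/
noncomputable def tlevel (n : ℕ) : ℝ := eps * n * Real.log n

/-- Budget for the depth sum of a probe. -/
noncomputable def S0 (n : ℕ) : ℝ := 3840 * tlevel n

/-- Budget for the centres of a window. -/
noncomputable def T0 (n : ℕ) : ℝ := 384 * tlevel n * 2 ^ n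

/-- The radius below which two translated probes count as near. -/
noncomputable def r0 (n : ℕ) : ℝ := (√(√(n : ℝ)))⁻¹

/-- The weight of a pair of representatives at a given distance. -/
noncomputable def pairWeight (n : ℕ) (d : ℝ) : ℝ :=
  Real.exp (-(A * ((n : ℝ) - 1) * d ^ 2 / 16))

/-- `P` is the grid in the unit ball. -/
def IsProbeSet (P : Finset (E n)) : Prop :=
  ∀ y, y ∈ P ↔ y ∈ grid n ∧ ‖y‖ ≤ 1

/-- The translates covering a probe, seen from it. -/
noncomputable def near (Xw : Finset (E n)) (z : E n) : Finset (E n) := by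
  classical exact (Xw.image fun c => z - c).filter fun y => ‖y‖ ≤ 1

/-- Depth sum of a probe. -/
noncomputable def depthSum (Xw : Finset (E n)) (z : E n) : ℝ :=
  ∑ y ∈ near Xw z, (1 + depth y)

/-- A probe that has small depth sum and no deep translate. -/
def GoodProbe (Xw : Finset (E n)) (z : E n) : Prop :=
  depthSum Xw z ≤ S0 n ∧ ∀ y ∈ near Xw z, depth y ≤ 3 * Real.log n

/-- The random body, as a function of the present slots. -/
def body0 {Slot : Type*} (rep : Slot → E n) (w : Finset Slot) : Set (E n) :=
  {y | ‖y‖ ≤ 1 ∧ ∀ s ∈ w, ⟪rep s, y⟫ ≤ 1}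

/-- Bernoulli expectation on subsets of a finite type. -/
noncomputable def expect {Slot : Type*} [Fintype Slot] (p : ℝ) (f : Finset Slot → ℝ) : ℝ :=
  ∑ w : Finset Slot, p ^ w.card * (1 - p) ^ (Fintype.card Slot - w.card) * f w

/-- Weighted count of the slots in a set. -/
noncomputable def cnt {Slot : Type*} [Fintype Slot] (rep : Slot → E n) (p : ℝ)
    (S : Set (E n)) : ℝ := by
  classical exact p * (univ.filter fun s => rep s ∈ S).card

end Vale.Agent.P230
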