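import Vale.Agent.P230.Defs

/-!
P230, section 3: the fine grid and its counts in balls.
-/

namespace Vale.Agent.P230

open MeasureTheory Finset
open scoped Classical ENNReal

variable {n : ℕ}

lemma eta_nonneg (n : ℕ) : 0 ≤ eta n := inv_nonneg.2 (by positivity)

lemma eta_pos (hn : 0 < n) : 0 < eta n := inv_pos.2 (by positivity)

lemma eta_sqrt_nonneg (n : ℕ) : 0 ≤ eta n * √n := mul_nonneg (eta_nonneg n) (Real.sqrt_nonneg _)

lemma eta_sqrt_le (n : ℕ) : eta n * √n ≤ ((n : ℝ) ^ 2)⁻¹ := by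
  rcases Nat.eq_zero_or_pos n with rfl | hn
  · simp [eta]
  have hn' : (1 : ℝ) ≤ n := Nat.one_le_cast.2 hn
  have h1 : √(n : ℝ) ≤ n := Real.sqrt_le_self_iff.2 (Or.inr hn')
  calc eta n * √n ≤ ((n : ℝ) ^ 3)⁻¹ * n := mul_le_mul_of_nonneg_left h1 (eta_nonneg n)
    _ = ((n : ℝ) ^ 2)⁻¹ := by field_simp

lemma grid_zero : (0 : E n) ∈ grid n := fun i => ⟨0, by simp⟩

lemma grid_add {a b : E n} (ha : a ∈ grid n) (hb : b ∈ grid n) : a + b ∈ grid n := fun i => by
  obtain ⟨k, hk⟩ := ha i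
  obtain ⟨m, hm⟩ := hb i
  exact ⟨k + m, by rw [PiLp.add_apply, hk, hm]; push_cast; ring⟩

lemma grid_sub {a b : E n} (ha : a ∈ grid n) (hb : b ∈ grid n) : a - b ∈ grid n := fun i => by
  obtain ⟨k, hk⟩ := ha i
  obtain ⟨m, hm⟩ := hb i
  exact ⟨k - m, by rw [PiLp.sub_apply, hk, hm]; push_cast; ring⟩

/-- The half-open grid cell with lowest corner `g`. -/
def cell (g : E n) : Set (E n) := {x | ∀ i, g i ≤ x i ∧ x i < g i + eta n}

lemma cell_eq_preimage (g : E n) : cell g =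
    (WithLp.ofLp : E n → Fin n → ℝ) ⁻¹'
      (Set.univ.pi fun i => Set.Ico (g i) (g i + eta n)) := by
  ext x; simp [cell]

lemma measurableSet_cell (g : E n) : MeasurableSet (cell g) := by
  rw [cell_eq_preimage]
  exact (MeasurableSet.univ_pi fun i => measurableSet_Ico).preimage
    (PiLp.volume_preserving_ofLp (Fin n)).measurable

lemma volume_cell (g : E n) : volume (cell g) = ENNReal.ofReal (eta n ^ n) := by
  rw [cell_eq_preimage, (PiLp.volume_preserving_ofLp (Fin n)).measure_preimage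
    (MeasurableSet.univ_pi fun i => measurableSet_Ico).nullMeasurableSet, Real.volume_pi_Ico]
  simp [← ENNReal.ofReal_pow (eta_nonneg n)]

lemma disjoint_cell {g g' : E n} (hg : g ∈ grid n) (hg' : g' ∈ grid n) (hne : g ≠ g') :
    Disjoint (cell g) (cell g') := by
  rw [Set.disjoint_left]
  intro x hx hx'
  refine hne (PiLp.ext fun i => ?_)
  obtain ⟨m, hm⟩ := hg i
  obtain ⟨m', hm'⟩ := hg' i
  obtain ⟨h1, h2⟩ := hx i
  obtain ⟨h1', h2'⟩ := hx' i
  rw [hm] at h1 h2 ⊢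
  rw [hm'] at h1' h2' ⊢
  have he := eta_nonneg n
  have ha : (m : ℝ) < m' + 1 := lt_of_mul_lt_mul_right (by linarith) he
  have hb : (m' : ℝ) < m + 1 := lt_of_mul_lt_mul_right (by linarith) he
  have : m = m' := le_antisymm (Int.lt_add_one_iff.1 (by exact_mod_cast ha))
    (Int.lt_add_one_iff.1 (by exact_mod_cast hb))
  rw [this]

lemma norm_sub_le_of_mem_cell {g x : E n} (hx : x ∈ cell g) : ‖x - g‖ ≤ eta n * √n := by
  rw [EuclideanSpace.norm_eq]
  calc √(∑ i, ‖(x - g) i‖ ^ 2) ≤ √(∑ _i : Fin n, eta n ^ 2) := by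
        refine Real.sqrt_le_sqrt (sum_le_sum fun i _ => ?_)
        obtain ⟨h1, h2⟩ := hx i
        rw [PiLp.sub_apply, Real.norm_eq_abs, sq_abs]
        exact pow_le_pow_left₀ (by linarith) (by linarith) 2
    _ = eta n * √n := by
        rw [sum_const, card_univ, Fintype.card_fin, nsmul_eq_mul,
          Real.sqrt_mul (Nat.cast_nonneg n), Real.sqrt_sq (eta_nonneg n), mul_comm]

/-- Every point lies in a cell of the grid. -/
lemma exists_mem_cell (x : E n) : ∃ g ∈ grid n, x ∈ cell g := by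
  refine ⟨WithLp.toLp 2 fun i => (⌊x i / eta n⌋ : ℝ) * eta n, fun i => ⟨⌊x i / eta n⌋, rfl⟩,
    fun i => ?_⟩
  have he : 0 < eta n := eta_pos i.pos
  refine ⟨(le_div_iff₀ he).1 (Int.floor_le _), ?_⟩
  have := (div_lt_iff₀ he).1 (Int.lt_floor_add_one (x i / eta n))
  show x i < _ * eta n + eta n
  linarith

theorem exists_round (x : E n) : ∃ g ∈ grid n, ‖x - g‖ ≤ eta n * √n := by
  obtain ⟨g, hg, hx⟩ := exists_mem_cell x
  exact ⟨g, hg, norm_sub_le_of_mem_cell hx⟩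

lemma gridBall_subset_box (r : ℝ) (k : ℕ) (hk : r ≤ k * eta n) :
    grid n ∩ {y : E n | ‖y‖ ≤ r} ⊆ (fun m : Fin n → ℤ => WithLp.toLp 2 fun i => m i * eta n) ''
      ↑(Fintype.piFinset fun _ : Fin n => Finset.Icc (-(k : ℤ)) k) := by
  rintro y ⟨hy, hyr⟩
  choose m hm using hy
  refine ⟨m, ?_, PiLp.ext fun i => (hm i).symm⟩
  simp only [Fintype.coe_piFinset, Set.mem_pi, Set.mem_univ, coe_Icc, Set.mem_Icc, forall_const]
  intro i
  have he : 0 < eta n := eta_pos i.pos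
  have h1 : |y i| ≤ k * eta n := ((PiLp.norm_apply_le y i).trans hyr).trans hk
  rw [hm i, abs_mul, abs_of_pos he] at h1
  have h3 : -(k : ℝ) ≤ (m i : ℝ) ∧ (m i : ℝ) ≤ (k : ℝ) := abs_le.1 (le_of_mul_le_mul_right h1 he)
  exact ⟨by exact_mod_cast h3.1, by exact_mod_cast h3.2⟩

theorem exists_gridBall (r : ℝ) :
    ∃ G : Finset (E n), ∀ y, y ∈ G ↔ y ∈ grid n ∧ ‖y‖ ≤ r := by
  rcases Nat.eq_zero_or_pos n with rfl | hn
  · have hsub : Subsingleton (E 0) := ⟨fun a b => PiLp.ext fun i => i.elim0⟩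
    exact ⟨(Set.toFinite (grid 0 ∩ {y | ‖y‖ ≤ r})).toFinset, fun y =>
      Set.Finite.mem_toFinset _⟩
  have hfin : (grid n ∩ {y : E n | ‖y‖ ≤ r}).Finite :=
    ((Finset.finite_toSet _).image _).subset (gridBall_subset_box r ⌈r / eta n⌉₊
      ((div_le_iff₀ (eta_pos hn)).1 (Nat.le_ceil _)))
  exact ⟨hfin.toFinset, fun y => by simp⟩

theorem exists_probeSet : ∃ P : Finset (E n), IsProbeSet P := exists_gridBall 1

lemma volume_cells (G : Finset (E n)) (hG : ∀ g ∈ G, g ∈ grid n) :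
    volume (⋃ g ∈ G, cell g) = ENNReal.ofReal (eta n ^ n * G.card) := by
  rw [measure_biUnion_finset (fun g hg g' hg' hne => disjoint_cell (hG g hg) (hG g' hg') hne)
    (fun g _ => measurableSet_cell g)]
  simp [volume_cell, ENNReal.ofReal_mul (pow_nonneg (eta_nonneg n) n), mul_comm]

/-- The volume of the unit ball, as a real number. -/
noncomputable def unitVol (n : ℕ) : ℝ := (volume (Metric.ball (0 : E n) 1)).toReal

lemma unitVol_pos (n : ℕ) : 0 < unitVol n :=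
  ENNReal.toReal_pos (Metric.measure_ball_pos volume _ one_pos).ne' measure_ball_lt_top.ne

lemma volume_closedBall_eq {r : ℝ} (hr : 0 ≤ r) :
    volume (Metric.closedBall (0 : E n) r) = ENNReal.ofReal (r ^ n * unitVol n) := by
  rw [Measure.addHaar_closedBall volume _ hr, finrank_euclideanSpace_fin,
    ENNReal.ofReal_mul (pow_nonneg hr n), unitVol, ENNReal.ofReal_toReal measure_ball_lt_top.ne]

lemma card_mul_le {G : Finset (E n)} {r : ℝ} (hr : 0 ≤ r)
    (hG : ∀ g ∈ G, g ∈ grid n ∧ ‖g‖ ≤ r) :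
    eta n ^ n * G.card ≤ (r + eta n * √n) ^ n * unitVol n := by
  have hs := add_nonneg hr (eta_sqrt_nonneg n)
  have h : volume (⋃ g ∈ G, cell g) ≤ volume (Metric.closedBall (0 : E n) (r + eta n * √n)) := by
    refine measure_mono (Set.iUnion₂_subset fun g hg x hx => ?_)
    rw [mem_closedBall_zero_iff]
    linarith [norm_sub_le_of_mem_cell hx, (hG g hg).2, norm_le_norm_sub_add x g]
  rwa [volume_cells G fun g hg => (hG g hg).1, volume_closedBall_eq hs,
    ENNReal.ofReal_le_ofReal_iff (mul_nonneg (pow_nonneg hs n) (unitVol_pos n).le)] at h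

lemma le_card_mul {G : Finset (E n)} {r : ℝ} (hr : eta n * √n ≤ r)
    (hG : ∀ g, g ∈ G ↔ g ∈ grid n ∧ ‖g‖ ≤ r) :
    (r - eta n * √n) ^ n * unitVol n ≤ eta n ^ n * G.card := by
  have h : volume (Metric.closedBall (0 : E n) (r - eta n * √n)) ≤ volume (⋃ g ∈ G, cell g) := by
    refine measure_mono fun x hx => ?_
    rw [mem_closedBall_zero_iff] at hx
    obtain ⟨g, hg, hxg⟩ := exists_mem_cell x
    have hn := norm_sub_le_of_mem_cell hxg
    rw [norm_sub_rev] at hn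
    exact Set.mem_biUnion ((hG g).2 ⟨hg, by linarith [norm_le_norm_sub_add g x]⟩) hxg
  rwa [volume_cells G fun g hg => ((hG g).1 hg).1, volume_closedBall_eq (sub_nonneg.2 hr),
    ENNReal.ofReal_le_ofReal_iff (mul_nonneg (pow_nonneg (eta_nonneg n) n) (Nat.cast_nonneg _))]
      at h

/-- Comparison of the count in a ball with the probe set. -/
lemma card_le_pow_mul (hn : 2 ≤ n) {P : Finset (E n)} (hP : IsProbeSet P) {G : Finset (E n)}
    {r b : ℝ} (hr : 0 ≤ r) (hG : ∀ g ∈ G, g ∈ grid n ∧ ‖g‖ ≤ r)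
    (hb : r + eta n * √n ≤ b * (1 - eta n * √n)) :
    (G.card : ℝ) ≤ b ^ n * P.card := by
  have hn' : (2 : ℝ) ≤ n := Nat.ofNat_le_cast.2 hn
  have hs := eta_sqrt_nonneg n
  have hs1 : eta n * √n < 1 := (eta_sqrt_le n).trans_lt (inv_lt_one_of_one_lt₀ (by nlinarith))
  have hb0 : 0 ≤ b := by
    by_contra hb0
    nlinarith [not_le.1 hb0]
  have he : 0 < eta n ^ n := pow_pos (eta_pos (by omega)) n
  refine le_of_mul_le_mul_left ?_ he
  calc eta n ^ n * (G.card : ℝ) ≤ (r + eta n * √n) ^ n * unitVol n := card_mul_le hr hG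
    _ ≤ (b * (1 - eta n * √n)) ^ n * unitVol n :=
        mul_le_mul_of_nonneg_right (pow_le_pow_left₀ (by linarith) hb n) (unitVol_pos n).le
    _ = b ^ n * ((1 - eta n * √n) ^ n * unitVol n) := by rw [mul_pow]; ring
    _ ≤ b ^ n * (eta n ^ n * P.card) :=
        mul_le_mul_of_nonneg_left (le_card_mul hs1.le hP) (pow_nonneg hb0 n)
    _ = eta n ^ n * (b ^ n * P.card) := by ring

lemma n_eta_sqrt_le (hn : 0 < n) : (n : ℝ) * (eta n * √n) ≤ 1 / n := by
  refine (mul_le_mul_of_nonneg_left (eta_sqrt_le n) (Nat.cast_nonneg n)).trans_eq ?_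
  have : (n : ℝ) ≠ 0 := Nat.cast_ne_zero.2 hn.ne'
  field_simp

lemma one_add_pow_le_two (hn : 6 ≤ n) : (1 + 3 * (eta n * √n)) ^ n ≤ 2 := by
  have hn' : (6 : ℝ) ≤ n := Nat.ofNat_le_cast.2 hn
  calc (1 + 3 * (eta n * √n)) ^ n ≤ Real.exp (3 * (eta n * √n)) ^ n :=
        pow_le_pow_left₀ (by linarith [eta_sqrt_nonneg n])
          (by linarith [Real.add_one_le_exp (3 * (eta n * √n))]) n
    _ = Real.exp (3 * ((n : ℝ) * (eta n * √n))) := by rw [← Real.exp_nat_mul]; ring_nf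
    _ ≤ Real.exp (Real.log 2) := by
        refine Real.exp_le_exp.2 ?_
        have h : (1 : ℝ) / n ≤ 1 / 6 := one_div_le_one_div_of_le (by norm_num) hn'
        linarith [n_eta_sqrt_le (n := n) (by omega), Real.log_two_gt_d9]
    _ = 2 := Real.exp_log two_pos

lemma eta_sqrt_le_small (hn : 6 ≤ n) : eta n * √n ≤ 1 / 36 := by
  have hn' : (6 : ℝ) ≤ n := Nat.ofNat_le_cast.2 hn
  refine (eta_sqrt_le n).trans ?_
  rw [one_div]
  exact inv_anti₀ (by norm_num) (by nlinarith)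

lemma card_depth_ge_le (hn : 6 ≤ n) {P : Finset (E n)} (hP : IsProbeSet P) (j : ℝ) (hj : 0 ≤ j) :
    ((P.filter fun y => j ≤ depth y).card : ℝ) ≤ 2 * Real.exp (-j) * P.card := by
  have hn' : (6 : ℝ) ≤ n := Nat.ofNat_le_cast.2 hn
  have hpos : 0 < 2 * Real.exp (-j) := mul_pos two_pos (Real.exp_pos _)
  rcases lt_or_ge (n : ℝ) j with hlt | hjn
  · have : P.filter (fun y => j ≤ depth y) = ∅ := by
      refine filter_eq_empty_iff.2 fun y _ h => ?_
      have : depth y ≤ n := by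
        unfold depth
        nlinarith [norm_nonneg y]
      linarith
    rw [this, card_empty, Nat.cast_zero]
    positivity
  set s := eta n * √n with hs
  have hs0 : 0 ≤ s := eta_sqrt_nonneg n
  have hs1 : s ≤ 1 / 36 := eta_sqrt_le_small hn
  have hr : 0 ≤ 1 - j / n := sub_nonneg.2 ((div_le_one (by linarith)).2 hjn)
  have hjn0 : 0 ≤ j / (n : ℝ) := div_nonneg hj (by linarith)
  refine (card_le_pow_mul (b := (1 + 3 * s) * Real.exp (-(j / n))) (by omega) hP hr
    (fun g hg => ?_) ?_).trans (mul_le_mul_of_nonneg_right ?_ (Nat.cast_nonneg _))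
  · obtain ⟨hgP, hgd⟩ := mem_filter.1 hg
    refine ⟨((hP g).1 hgP).1, ?_⟩
    unfold depth at hgd
    have := (div_le_iff₀' (by linarith : (0 : ℝ) < n)).2 hgd
    linarith
  · -- `1 - x + s` is at most `(1 + 3 s) exp (-x) (1 - s)`
    set x := j / (n : ℝ) with hx
    have hexp : 1 - x + x ^ 2 / 4 ≤ Real.exp (-x) := by
      have h := Real.add_one_le_exp (-(x / 2))
      have h' := mul_le_mul h h (by linarith) (Real.exp_pos _).le
      rw [← Real.exp_add, show -(x / 2) + -(x / 2) = -x by ring] at h'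
      nlinarith
    have hq : 1 + 23 / 12 * s ≤ (1 + 3 * s) * (1 - s) := by nlinarith
    have hpoly : 1 - x + s ≤ (1 - x + x ^ 2 / 4) * (1 + 23 / 12 * s) := by
      nlinarith [sq_nonneg (x - 4 * s), mul_le_mul_of_nonneg_left hs1 hs0,
        mul_nonneg (sq_nonneg x) hs0]
    calc 1 - x + eta n * √n ≤ (1 - x + x ^ 2 / 4) * (1 + 23 / 12 * s) := hpoly
      _ ≤ Real.exp (-x) * ((1 + 3 * s) * (1 - s)) :=
          mul_le_mul hexp hq (by linarith) (Real.exp_pos _).le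
      _ = (1 + 3 * s) * Real.exp (-x) * (1 - eta n * √n) := by rw [← hs]; ring
  · calc ((1 + 3 * s) * Real.exp (-(j / n))) ^ n = (1 + 3 * s) ^ n * Real.exp (-j) := by
          rw [mul_pow, ← Real.exp_nat_mul]
          congr 2
          field_simp
      _ ≤ 2 * Real.exp (-j) :=
          mul_le_mul_of_nonneg_right (one_add_pow_le_two hn) (Real.exp_pos _).le

theorem probe_nonempty : ∃ n₀ : ℕ, ∀ n, n₀ ≤ n → ∀ P : Finset (E n), IsProbeSet P →
    P.Nonempty :=
  ⟨0, fun _ _ P hP => ⟨0, (hP 0).2 ⟨grid_zero, by simp⟩⟩⟩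

theorem card_near_le : ∃ n₀ : ℕ, ∀ n, n₀ ≤ n → ∀ P : Finset (E n), IsProbeSet P →
    ∀ (g : E n) (r : ℝ), g ∈ grid n → 1 / (n : ℝ) ≤ r → r ≤ 1 →
      ((P.filter fun z => ‖z - g‖ ≤ r).card : ℝ) ≤ (2 * r) ^ n * P.card := by
  refine ⟨6, fun n hn P hP g r hg hr hr1 => ?_⟩
  have hn' : (6 : ℝ) ≤ n := Nat.ofNat_le_cast.2 hn
  have hr0 : 0 ≤ r := le_trans (by positivity) hr
  rw [← card_image_of_injective (P.filter fun z => ‖z - g‖ ≤ r) (sub_left_injective (b := g))]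
  refine card_le_pow_mul (by omega) hP hr0 (fun x hx => ?_) ?_
  · obtain ⟨z, hz, rfl⟩ := mem_image.1 hx
    exact ⟨grid_sub ((hP z).1 (mem_filter.1 hz).1).1 hg, (mem_filter.1 hz).2⟩
  · have h1 : eta n * √n * 3 ≤ r := by
      refine le_trans ?_ hr
      rw [le_div_iff₀ (by linarith)]
      have := n_eta_sqrt_le (n := n) (by omega)
      have : (1 : ℝ) / n ≤ 1 / 6 := one_div_le_one_div_of_le (by norm_num) hn'
      linarith
    nlinarith [eta_sqrt_nonneg n]

theorem card_deep_le : ∃ n₀ : ℕ, ∀ n, n₀ ≤ n → ∀ P : Finset (E n), IsProbeSet P →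
    ((P.filter fun y => 3 * Real.log n < depth y).card : ℝ) ≤ 2 / (n : ℝ) ^ 3 * P.card := by
  refine ⟨6, fun n hn P hP => ?_⟩
  have hn' : (6 : ℝ) ≤ n := Nat.ofNat_le_cast.2 hn
  have hlog : 0 ≤ 3 * Real.log n := mul_nonneg (by norm_num) (Real.log_nonneg (by linarith))
  refine le_trans (Nat.cast_le.2 (card_le_card (monotone_filter_right P fun _ _ h => le_of_lt h)))
    ((card_depth_ge_le hn hP _ hlog).trans_eq ?_)
  rw [Real.exp_neg, show (3 : ℝ) * Real.log n = ((3 : ℕ) : ℝ) * Real.log n by norm_num,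
    Real.exp_nat_mul, Real.exp_log (by linarith)]
  ring

theorem sum_depth_le : ∃ n₀ : ℕ, ∀ n, n₀ ≤ n → ∀ P : Finset (E n), IsProbeSet P →
    ∑ y ∈ P, (1 + depth y) ≤ 5 * (P.card : ℝ) := by
  refine ⟨6, fun n hn P hP => ?_⟩
  have h1 : ∀ y ∈ P, depth y ≤ ∑ k ∈ range (n + 1), if (k : ℝ) ≤ depth y then (1 : ℝ) else 0 := by
    intro y hy
    have hy1 := ((hP y).1 hy).2
    have hd0 : 0 ≤ depth y := mul_nonneg (Nat.cast_nonneg n) (by linarith)
    have hdn : ⌊depth y⌋₊ ≤ n := Nat.floor_le_of_le (by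
      unfold depth
      nlinarith [norm_nonneg y, (Nat.cast_nonneg n : (0 : ℝ) ≤ n)])
    rw [sum_boole]
    have hsub : range (⌊depth y⌋₊ + 1) ⊆ (range (n + 1)).filter fun k : ℕ => (k : ℝ) ≤ depth y :=
      fun k hk => by
        rw [mem_range] at hk
        exact mem_filter.2 ⟨mem_range.2 (by omega), (Nat.le_floor_iff hd0).1 (by omega)⟩
    have hc : ((⌊depth y⌋₊ + 1 : ℕ) : ℝ) ≤
        ((range (n + 1)).filter fun k : ℕ => (k : ℝ) ≤ depth y).card :=
      Nat.cast_le.2 (by simpa using card_le_card hsub)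
    push_cast at hc
    linarith [Nat.lt_floor_add_one (depth y)]
  have hgeo : ∑ k ∈ range (n + 1), Real.exp (-(k : ℝ)) ≤ 2 := by
    refine le_trans (sum_le_sum fun k _ => ?_) (sum_geometric_two_le (n + 1))
    rw [show -(k : ℝ) = (k : ℝ) * (-1) by ring, Real.exp_nat_mul]
    refine pow_le_pow_left₀ (Real.exp_pos _).le ?_ k
    rw [Real.exp_neg, one_div]
    exact inv_anti₀ two_pos (by linarith [Real.add_one_le_exp (1 : ℝ)])
  have h2 : ∑ y ∈ P, depth y ≤ 4 * (P.card : ℝ) := by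
    calc ∑ y ∈ P, depth y
        ≤ ∑ y ∈ P, ∑ k ∈ range (n + 1), if (k : ℝ) ≤ depth y then (1 : ℝ) else 0 := sum_le_sum h1
      _ = ∑ k ∈ range (n + 1), ((P.filter fun y => (k : ℝ) ≤ depth y).card : ℝ) := by
          rw [sum_comm]; simp only [sum_boole]
      _ ≤ ∑ k ∈ range (n + 1), 2 * Real.exp (-(k : ℝ)) * P.card :=
          sum_le_sum fun k _ => card_depth_ge_le hn hP _ (Nat.cast_nonneg k)
      _ ≤ 4 * (P.card : ℝ) := by
          rw [← sum_mul, ← mul_sum]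
          exact mul_le_mul_of_nonneg_right (by linarith) (Nat.cast_nonneg _)
  rw [sum_add_distrib, sum_const, nsmul_eq_mul, mul_one]
  linarith

theorem card_shell_le : ∃ n₀ : ℕ, ∀ n, n₀ ≤ n → ∀ P : Finset (E n), IsProbeSet P →
    ((P.filter fun y => depth y < 1 / 32).card : ℝ) ≤ (P.card : ℝ) / 16 := by
  refine ⟨128, fun n hn P hP => ?_⟩
  have hn' : (128 : ℝ) ≤ n := Nat.ofNat_le_cast.2 hn
  have hn0 : 0 < n := by omega
  set r := 1 - 1 / (32 * (n : ℝ)) with hrdef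
  set s := eta n * √n with hsdef
  obtain ⟨G, hG⟩ := exists_gridBall (n := n) r
  have hs0 : 0 ≤ s := eta_sqrt_nonneg n
  have hs1 : s ≤ 1 / 36 := eta_sqrt_le_small (by omega)
  have hns : (n : ℝ) * s ≤ 1 / 128 :=
    (n_eta_sqrt_le hn0).trans (one_div_le_one_div_of_le (by norm_num) hn')
  have hr : 1 / 2 ≤ r := by
    have : 1 / (32 * (n : ℝ)) ≤ 1 / 2 := one_div_le_one_div_of_le two_pos (by linarith)
    linarith
  have hr1 : r ≤ 1 := sub_le_self 1 (by positivity)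
  have hsub : G ⊆ P.filter fun y => ¬depth y < 1 / 32 := fun y hy => by
    obtain ⟨hyg, hyr⟩ := (hG y).1 hy
    refine mem_filter.2 ⟨(hP y).2 ⟨hyg, hyr.trans hr1⟩, not_lt.2 ?_⟩
    calc (1 / 32 : ℝ) = n * (1 / (32 * (n : ℝ))) := by field_simp
      _ ≤ depth y := mul_le_mul_of_nonneg_left (by linarith) (Nat.cast_nonneg n)
  have hlow : (r - s) ^ n * unitVol n ≤ eta n ^ n * G.card := le_card_mul (by linarith) hG
  have hup : eta n ^ n * P.card ≤ (1 + s) ^ n * unitVol n :=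
    card_mul_le zero_le_one fun g hg => (hP g).1 hg
  have hbase : (15 / 16 : ℝ) * (1 + s) ^ n ≤ (r - s) ^ n := by
    have hb := one_add_mul_le_pow (a := -(1 / (32 * (n : ℝ))) - 2 * s) (by linarith) n
    have e : (n : ℝ) * (-(1 / (32 * (n : ℝ))) - 2 * s) = -(1 / 32) - 2 * (n * s) := by
      field_simp
    have hq : (r - 2 * s) * (1 + s) ≤ r - s := by nlinarith
    calc (15 / 16 : ℝ) * (1 + s) ^ n ≤ (r - 2 * s) ^ n * (1 + s) ^ n := by
          refine mul_le_mul_of_nonneg_right (le_trans ?_ (hb.trans_eq ?_)) (by positivity)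
          · linarith
          · rw [hrdef]; congr 1; ring
      _ = ((r - 2 * s) * (1 + s)) ^ n := (mul_pow _ _ _).symm
      _ ≤ (r - s) ^ n := pow_le_pow_left₀ (mul_nonneg (by linarith) (by linarith)) hq n
  have hGP : (15 / 16 : ℝ) * P.card ≤ G.card := by
    refine le_of_mul_le_mul_left ?_ (pow_pos (eta_pos hn0) n)
    have h := mul_le_mul_of_nonneg_right hbase (unitVol_pos n).le
    linarith
  have hc : (G.card : ℝ) ≤ (P.filter fun y => ¬depth y < 1 / 32).card :=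
    Nat.cast_le.2 (card_le_card hsub)
  have hsplit : ((P.filter fun y => depth y < 1 / 32).card : ℝ) +
      (P.filter fun y => ¬depth y < 1 / 32).card = P.card := by
    exact_mod_cast card_filter_add_card_filter_not (s := P) fun y => depth y < 1 / 32
  linarith

theorem card_ball_two_le : ∃ n₀ : ℕ, ∀ n, n₀ ≤ n → ∀ P : Finset (E n), IsProbeSet P →
    ∀ G : Finset (E n), (∀ y, y ∈ G ↔ y ∈ grid n ∧ ‖y‖ ≤ 2) →
      (G.card : ℝ) ≤ (5 * (n : ℝ) ^ 3) ^ n ∧ (G.card : ℝ) ≤ 2 ^ (n + 1) * P.card := by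
  refine ⟨6, fun n hn P hP G hG => ⟨?_, ?_⟩⟩
  · have hk : (2 : ℝ) ≤ ((2 * n ^ 3 : ℕ) : ℝ) * eta n := by
      have : (n : ℝ) ≠ 0 := Nat.cast_ne_zero.2 (by omega)
      rw [eta]; push_cast; field_simp; rfl
    set B := Fintype.piFinset fun _ : Fin n => Finset.Icc (-((2 * n ^ 3 : ℕ) : ℤ)) (2 * n ^ 3 : ℕ)
    have hsub : G ⊆ B.image fun m : Fin n → ℤ => WithLp.toLp 2 fun i => m i * eta n := by
      intro y hy
      obtain ⟨hyg, hyr⟩ := (hG y).1 hy
      obtain ⟨m, hm, rfl⟩ := gridBall_subset_box (n := n) 2 (2 * n ^ 3) hk ⟨hyg, hyr⟩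
      exact mem_image_of_mem _ hm
    have hB : B.card = (4 * n ^ 3 + 1) ^ n := by
      rw [Fintype.card_piFinset, prod_const, card_univ, Fintype.card_fin, Int.card_Icc]
      congr 1
      omega
    have h : G.card ≤ (5 * n ^ 3) ^ n := by
      refine ((card_le_card hsub).trans card_image_le).trans (hB.le.trans ?_)
      refine Nat.pow_le_pow_left ?_ n
      have : 1 ≤ n ^ 3 := Nat.one_le_pow _ _ (by omega)
      omega
    exact_mod_cast h
  · have hs0 := eta_sqrt_nonneg n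
    have hs1 := eta_sqrt_le_small hn
    refine (card_le_pow_mul (b := 2 * (1 + 3 * (eta n * √n))) (by omega) hP zero_le_two
      (fun g hg => (hG g).1 hg) (by nlinarith)).trans ?_
    rw [mul_pow, pow_succ]
    gcongr
    exact one_add_pow_le_two hn

theorem vol_grid_le : ∃ n₀ : ℕ, ∀ n, n₀ ≤ n → ∀ P : Finset (E n), IsProbeSet P →
    volume (Metric.ball (0 : E n) 1) ≤ ENNReal.ofReal (2 * eta n ^ n * P.card) := by
  refine ⟨6, fun n hn P hP => ?_⟩
  have hn' : (6 : ℝ) ≤ n := Nat.ofNat_le_cast.2 hn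
  have hs1 := eta_sqrt_le_small hn
  have hlow := le_card_mul (G := P) (r := 1) (by linarith) hP
  have hb := one_add_mul_le_pow (a := -(eta n * √n)) (by linarith) n
  have hh : (1 / 2 : ℝ) ≤ (1 - eta n * √n) ^ n := by
    rw [sub_eq_add_neg]
    refine le_trans ?_ hb
    have : (1 : ℝ) / n ≤ 1 / 6 := one_div_le_one_div_of_le (by norm_num) hn'
    linarith [n_eta_sqrt_le (n := n) (by omega)]
  rw [← ENNReal.ofReal_toReal (measure_ball_lt_top (μ := volume) (x := (0 : E n)) (r := 1)).ne]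
  refine ENNReal.ofReal_le_ofReal ?_
  have := mul_le_mul_of_nonneg_right hh (unitVol_pos n).le
  show unitVol n ≤ _
  linarith

theorem grid_vol_le : ∃ n₀ : ℕ, ∀ n, n₀ ≤ n → ∀ P : Finset (E n), IsProbeSet P →
    ENNReal.ofReal (eta n ^ n * P.card) ≤ 2 * volume (Metric.ball (0 : E n) 1) := by
  refine ⟨6, fun n hn P hP => ?_⟩
  have hup := card_mul_le (G := P) zero_le_one fun g hg => (hP g).1 hg
  have h2 : (1 + eta n * √n) ^ n ≤ 2 :=
    (pow_le_pow_left₀ (by linarith [eta_sqrt_nonneg n]) (by linarith [eta_sqrt_nonneg n]) n).trans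
      (one_add_pow_le_two hn)
  calc ENNReal.ofReal (eta n ^ n * P.card) ≤ ENNReal.ofReal (2 * unitVol n) :=
        ENNReal.ofReal_le_ofReal
          (hup.trans (mul_le_mul_of_nonneg_right h2 (unitVol_pos n).le))
    _ = 2 * volume (Metric.ball (0 : E n) 1) := by
        rw [ENNReal.ofReal_mul zero_le_two, unitVol,
          ENNReal.ofReal_toReal measure_ball_lt_top.ne, ENNReal.ofReal_ofNat]

end Vale.Agent.P230
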