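import Vale.Agent.P230.Defs

/-!
P230, section 8: the second moment of two independent systems of slot choices is bounded by a sum
over partial matchings of the coordinates.
-/

namespace Vale.Agent.P230

open Finset

variable {Slot α β : Type*} [DecidableEq Slot]

omit [DecidableEq Slot] in
/-- Normalised sum over one side: a matching constrains each coordinate at most once. -/
lemma sum_pi_matched [Fintype α] [DecidableEq α] (S : α → Finset Slot) (hS : ∀ u, (S u).Nonempty)
    {γ : Type*} (M : Finset γ) (c : γ → α) (hc : Set.InjOn c M) (F : γ → Slot → ℝ) :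
    (∏ u, ((S u).card : ℝ))⁻¹ * ∑ σ ∈ Fintype.piFinset S, ∏ m ∈ M, F m (σ (c m))
      = ∏ m ∈ M, (∑ t ∈ S (c m), F m t) / (S (c m)).card := by
  have hcard : ∀ u, ((S u).card : ℝ) ≠ 0 := fun u => Nat.cast_ne_zero.mpr (hS u).card_pos.ne'
  set G : α → Slot → ℝ := fun u t => ∏ m ∈ M.filter (fun m => c m = u), F m t with hG
  have hprod : ∀ σ : α → Slot, ∏ m ∈ M, F m (σ (c m)) = ∏ u, G u (σ u) := fun σ => by
    rw [← prod_fiberwise_of_maps_to (g := c) (t := univ) (fun _ _ => mem_univ _)]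
    refine prod_congr rfl fun u _ => prod_congr rfl fun m hm => ?_
    rw [(mem_filter.mp hm).2]
  simp only [hprod]
  rw [← prod_univ_sum, ← prod_inv_distrib, ← prod_mul_distrib,
    ← prod_subset (subset_univ (M.image c)), prod_image hc]
  · refine prod_congr rfl fun m hm => ?_
    rw [inv_mul_eq_div]
    refine congrArg (· / _) (sum_congr rfl fun t _ => ?_)
    simp only [hG]
    rw [show M.filter (fun m' => c m' = c m) = {m} from ?_, prod_singleton]
    exact Finset.ext fun m' => by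
      rw [mem_filter, mem_singleton]
      exact ⟨fun h => hc h.1 hm h.2, fun h => ⟨h ▸ hm, h ▸ rfl⟩⟩
  · intro u _ hu
    have he : M.filter (fun m => c m = u) = ∅ :=
      filter_eq_empty_iff.mpr fun m hm h => hu (mem_image.mpr ⟨m, hm, h⟩)
    simp [hG, he, hcard]

variable [Fintype α] [Fintype β] [DecidableEq α] [DecidableEq β]

/-- The expected weight of one matching. -/
lemma sum_matching (S : α → Finset Slot) (T : β → Finset Slot) (hS : ∀ u, (S u).Nonempty)
    (hT : ∀ v, (T v).Nonempty) (q : ℝ) (M : Finset (α × β)) (hfst : Set.InjOn Prod.fst (M : Set (α × β)))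
    (hsnd : Set.InjOn Prod.snd (M : Set (α × β))) :
    ∑ σ ∈ Fintype.piFinset S, ∑ τ ∈ Fintype.piFinset T,
      (∏ u, ((S u).card : ℝ))⁻¹ * (∏ v, ((T v).card : ℝ))⁻¹ *
        ∏ m ∈ M, (if τ m.2 = σ m.1 then q else 0)
      = ∏ m ∈ M, q * (S m.1 ∩ T m.2).card / ((S m.1).card * (T m.2).card) := by
  simp only [mul_assoc, ← mul_sum]
  have inner : ∀ σ : α → Slot, (∏ v, ((T v).card : ℝ))⁻¹ *
      ∑ τ ∈ Fintype.piFinset T, ∏ m ∈ M, (if τ m.2 = σ m.1 then q else 0) =
      ∏ m ∈ M, (if σ m.1 ∈ T m.2 then q else 0) / (T m.2).card := fun σ =>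
    (sum_pi_matched T hT M Prod.snd hsnd fun m t => if t = σ m.1 then q else 0).trans
      (prod_congr rfl fun m _ => by rw [Finset.sum_ite_eq'])
  rw [mul_sum (Fintype.piFinset S)]
  simp only [inner]
  rw [sum_pi_matched S hS M Prod.fst hfst fun m s => (if s ∈ T m.2 then q else 0) / (T m.2).card]
  refine prod_congr rfl fun m _ => ?_
  rw [← sum_div, sum_ite_mem, sum_const, nsmul_eq_mul, div_div]
  ring

/-- One matching accounts for the common slots of two systems. -/
lemma exists_matching (σ : α → Slot) (τ : β → Slot) :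
    ∃ M : Finset (α × β), Set.InjOn Prod.fst (M : Set (α × β)) ∧
      Set.InjOn Prod.snd (M : Set (α × β)) ∧ (∀ m ∈ M, τ m.2 = σ m.1) ∧
      M.card = (univ.image σ ∩ univ.image τ).card := by
  classical
  set C := univ.image σ ∩ univ.image τ
  have hC : ∀ s : C, ∃ m : α × β, σ m.1 = s ∧ τ m.2 = s := by
    rintro ⟨s, hs⟩
    obtain ⟨⟨u, -, hu⟩, v, -, hv⟩ := (mem_inter.mp hs).imp mem_image.mp mem_image.mp
    exact ⟨(u, v), hu, hv⟩
  choose f hf using hC
  have hinj : ∀ s t, σ (f s).1 = σ (f t).1 → s = t := fun s t h =>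
    Subtype.ext ((hf s).1.symm.trans (h.trans (hf t).1))
  have hinj' : ∀ s t, τ (f s).2 = τ (f t).2 → s = t := fun s t h =>
    Subtype.ext ((hf s).2.symm.trans (h.trans (hf t).2))
  refine ⟨univ.image f, ?_, ?_, ?_, ?_⟩
  · intro x hx y hy h
    simp only [coe_image, Set.mem_image, coe_univ, Set.mem_univ, true_and] at hx hy
    obtain ⟨s, rfl⟩ := hx
    obtain ⟨t, rfl⟩ := hy
    rw [hinj s t (congrArg σ h)]
  · intro x hx y hy h
    simp only [coe_image, Set.mem_image, coe_univ, Set.mem_univ, true_and] at hx hy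
    obtain ⟨s, rfl⟩ := hx
    obtain ⟨t, rfl⟩ := hy
    rw [hinj' s t (congrArg τ h)]
  · intro m hm
    obtain ⟨s, -, rfl⟩ := mem_image.mp hm
    exact (hf s).2.trans (hf s).1.symm
  · rw [card_image_of_injective _ fun s t h => hinj s t (by rw [h]), card_univ, Fintype.card_coe]

/-- The partial matchings of two index types. -/
noncomputable def matchings (α β : Type*) [Fintype α] [Fintype β] : Finset (Finset (α × β)) := by
  classical
  exact univ.filter fun M => Set.InjOn Prod.fst (M : Set (α × β)) ∧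
    Set.InjOn Prod.snd (M : Set (α × β))

omit [DecidableEq α] [DecidableEq β] in
lemma mem_matchings {M : Finset (α × β)} :
    M ∈ matchings α β ↔ Set.InjOn Prod.fst (M : Set (α × β)) ∧
      Set.InjOn Prod.snd (M : Set (α × β)) := by
  simp [matchings]

variable {p : ℝ}

/-- A family of matchings that contains the matching of every pair of systems controls the moment. -/
lemma moment_le (hp : 0 < p) (S : α → Finset Slot) (T : β → Finset Slot)
    (hS : ∀ u, (S u).Nonempty) (hT : ∀ v, (T v).Nonempty) (Ms : Finset (Finset (α × β)))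
    (hMs : Ms ⊆ matchings α β) (keep : (α → Slot) → (β → Slot) → Prop)
    [∀ σ τ, Decidable (keep σ τ)]
    (hkeep : ∀ σ τ M, keep σ τ → M ∈ matchings α β →
      M.card = (univ.image σ ∩ univ.image τ).card → M ∈ Ms) :
    ∑ σ ∈ Fintype.piFinset S, ∑ τ ∈ Fintype.piFinset T,
      (if keep σ τ then
        (∏ u, ((S u).card : ℝ))⁻¹ * (∏ v, ((T v).card : ℝ))⁻¹ *
          (p⁻¹) ^ (univ.image σ ∩ univ.image τ).card else 0)
      ≤ ∑ M ∈ Ms, ∏ m ∈ M,
          ((S m.1 ∩ T m.2).card : ℝ) / (p * (S m.1).card * (T m.2).card) := by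
  have hN : 0 ≤ (∏ u, ((S u).card : ℝ))⁻¹ * (∏ v, ((T v).card : ℝ))⁻¹ :=
    mul_nonneg (inv_nonneg.mpr (prod_nonneg fun _ _ => Nat.cast_nonneg _))
      (inv_nonneg.mpr (prod_nonneg fun _ _ => Nat.cast_nonneg _))
  have hq : 0 ≤ p⁻¹ := inv_nonneg.mpr hp.le
  calc _ ≤ ∑ σ ∈ Fintype.piFinset S, ∑ τ ∈ Fintype.piFinset T, ∑ M ∈ Ms,
        (∏ u, ((S u).card : ℝ))⁻¹ * (∏ v, ((T v).card : ℝ))⁻¹ *
          ∏ m ∈ M, (if τ m.2 = σ m.1 then p⁻¹ else 0) := by
        refine sum_le_sum fun σ _ => sum_le_sum fun τ _ => ?_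
        have hnn : ∀ M ∈ Ms, 0 ≤ (∏ u, ((S u).card : ℝ))⁻¹ * (∏ v, ((T v).card : ℝ))⁻¹ *
            ∏ m ∈ M, (if τ m.2 = σ m.1 then p⁻¹ else 0) := fun M _ =>
          mul_nonneg hN (prod_nonneg fun m _ => by split_ifs <;> simp [hq])
        split_ifs with hk
        · obtain ⟨M, h1, h2, h3, h4⟩ := exists_matching σ τ
          refine le_of_eq_of_le ?_
            (single_le_sum hnn (hkeep σ τ M hk (mem_matchings.mpr ⟨h1, h2⟩) h4))
          rw [prod_congr rfl fun m hm => if_pos (h3 m hm), prod_const, h4]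
        · exact sum_nonneg hnn
    _ = ∑ M ∈ Ms, ∑ σ ∈ Fintype.piFinset S, ∑ τ ∈ Fintype.piFinset T,
        (∏ u, ((S u).card : ℝ))⁻¹ * (∏ v, ((T v).card : ℝ))⁻¹ *
          ∏ m ∈ M, (if τ m.2 = σ m.1 then p⁻¹ else 0) := by
        rw [sum_congr rfl fun σ _ => sum_comm, sum_comm]
    _ = _ := sum_congr rfl fun M hM => by
        obtain ⟨h1, h2⟩ := mem_matchings.mp (hMs hM)
        rw [sum_matching S T hS hT _ M h1 h2]
        exact prod_congr rfl fun m _ => by rw [mul_assoc p]; field_simp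

/-- Second moment bound with factorised weights. -/
theorem meet_le (hp : 0 < p) (S : α → Finset Slot) (T : β → Finset Slot)
    (hS : ∀ u, (S u).Nonempty) (hT : ∀ v, (T v).Nonempty) (a : α → ℝ) (b : β → ℝ) (x : α → β → ℝ)
    (ha : ∀ u, 1 ≤ a u) (hb : ∀ v, 1 ≤ b v) (hx : ∀ u v, 0 ≤ x u v)
    (hW : ∀ u v, ((S u ∩ T v).card : ℝ) / (p * (S u).card * (T v).card) ≤ a u * b v * x u v) :
    ∑ σ ∈ Fintype.piFinset S, ∑ τ ∈ Fintype.piFinset T,
      (∏ u, ((S u).card : ℝ))⁻¹ * (∏ v, ((T v).card : ℝ))⁻¹ *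
        (p⁻¹) ^ (univ.image σ ∩ univ.image τ).card
      ≤ (∏ u, a u) * (∏ v, b v) * ∏ u, ∏ v, (1 + x u v) := by
  have h := moment_le hp S T hS hT (matchings α β) (Finset.Subset.refl _) (fun _ _ => True)
    fun _ _ _ _ hM _ => hM
  simp only [if_true] at h
  refine h.trans ((sum_le_sum (g := fun M : Finset (α × β) =>
    (∏ u, a u) * (∏ v, b v) * ∏ m ∈ M, x m.1 m.2) fun M hM => ?_).trans ?_)
  · obtain ⟨h1, h2⟩ := mem_matchings.mp hM
    refine (prod_le_prod (fun m _ => ?_) fun m _ => hW m.1 m.2).trans ?_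
    · exact div_nonneg (Nat.cast_nonneg _)
        (mul_nonneg (mul_nonneg hp.le (Nat.cast_nonneg _)) (Nat.cast_nonneg _))
    rw [prod_mul_distrib, prod_mul_distrib, ← prod_image h1, ← prod_image h2]
    refine mul_le_mul_of_nonneg_right (mul_le_mul ?_ ?_ ?_ ?_) (prod_nonneg fun m _ => hx _ _)
    · exact prod_le_prod_of_subset_of_one_le (subset_univ _)
        (fun u _ => zero_le_one.trans (ha u)) fun u _ _ => ha u
    · exact prod_le_prod_of_subset_of_one_le (subset_univ _)
        (fun v _ => zero_le_one.trans (hb v)) fun v _ _ => hb v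
    · exact prod_nonneg fun v _ => zero_le_one.trans (hb v)
    · exact prod_nonneg fun u _ => zero_le_one.trans (ha u)
  · rw [← mul_sum]
    refine mul_le_mul_of_nonneg_left ?_ (mul_nonneg (prod_nonneg fun u _ => zero_le_one.trans (ha u))
      (prod_nonneg fun v _ => zero_le_one.trans (hb v)))
    rw [← Fintype.prod_prod_type', prod_one_add, powerset_univ]
    exact sum_le_sum_of_subset_of_nonneg (subset_univ _)
      fun M _ _ => prod_nonneg fun m _ => hx _ _

/-- Second moment bound restricted to systems that share a slot. -/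
theorem meet_nonempty_le (hp : 0 < p) (S : α → Finset Slot) (T : β → Finset Slot)
    (hS : ∀ u, (S u).Nonempty) (hT : ∀ v, (T v).Nonempty) (w : α → β → ℝ)
    (hw : ∀ u v, 0 ≤ w u v)
    (hW : ∀ u v, ((S u ∩ T v).card : ℝ) / (p * (S u).card * (T v).card) ≤ w u v) :
    ∑ σ ∈ Fintype.piFinset S, ∑ τ ∈ Fintype.piFinset T,
      (if Disjoint (univ.image σ) (univ.image τ) then 0 else
        (∏ u, ((S u).card : ℝ))⁻¹ * (∏ v, ((T v).card : ℝ))⁻¹ *
          (p⁻¹) ^ (univ.image σ ∩ univ.image τ).card)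
      ≤ (∏ u, ∏ v, (1 + w u v)) - 1 := by
  have h := moment_le hp S T hS hT ((matchings α β).erase ∅) (erase_subset _ _)
    (fun σ τ => ¬ Disjoint (univ.image σ) (univ.image τ)) fun σ τ M hk hM hcard =>
      mem_erase.mpr ⟨fun hM0 => hk (disjoint_iff_inter_eq_empty.mpr
        (card_eq_zero.mp (by rw [← hcard, hM0, card_empty]))), hM⟩
  simp only [ite_not] at h
  refine h.trans ((sum_le_sum (g := fun M : Finset (α × β) => ∏ m ∈ M, w m.1 m.2)
    fun M _ => prod_le_prod (fun m _ => ?_) fun m _ => hW m.1 m.2).trans ?_)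
  · exact div_nonneg (Nat.cast_nonneg _)
      (mul_nonneg (mul_nonneg hp.le (Nat.cast_nonneg _)) (Nat.cast_nonneg _))
  · rw [← Fintype.prod_prod_type', prod_one_add, powerset_univ,
      ← sum_erase_add _ _ (mem_univ ∅), prod_empty, add_sub_cancel_right]
    exact sum_le_sum_of_subset_of_nonneg (erase_subset_erase _ (subset_univ _))
      fun M _ _ => prod_nonneg fun m _ => hw _ _

end Vale.Agent.P230
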