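import Vale.Agent.P230.Cluster
import Vale.Agent.P230.Cap

/-!
P230, section 7: the units of a probe, their slot sets and costs.
-/

namespace Vale.Agent.P230

open MeasureTheory Finset Filter
open scoped RealInnerProductSpace

variable {n : ℕ}

/-- The slot system is valid for the points of `P`. -/
def SlotsOK {Slot : Type*} [Fintype Slot] (rep : Slot → E n) (p : ℝ) (P : Finset (E n)) : Prop :=
  0 < p ∧ p ≤ 1 ∧ (∀ s, ‖rep s‖ ≤ rho) ∧
    ∀ I ⊆ P, I.Nonempty → lam (⋂ y ∈ I, excl y) / 2 ≤ cnt rep p (⋂ y ∈ I, excl y) ∧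
      cnt rep p (⋂ y ∈ I, excl y) ≤ 2 * lam (⋂ y ∈ I, excl y)

/-- Units of a set of covering translates. -/
structure UnitData {Slot : Type*} [Fintype Slot] (rep : Slot → E n) (p : ℝ) (Y : Finset (E n)) where
  U : Finset (E n)
  S : E n → Finset Slot
  cost : E n → ℝ
  sub : U ⊆ Y
  rep_excl : ∀ u ∈ U, ∀ s ∈ S u, rep s ∈ excl u
  cover : ∀ y ∈ Y, ∃ u ∈ U, ∀ s ∈ S u, rep s ∈ excl y
  nonempty : ∀ u ∈ U, (S u).Nonempty
  cost_nonneg : ∀ u ∈ U, 0 ≤ cost u
  cost_le : ∀ u ∈ U, cost u ≤ 300 * A * Real.log n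
  count : ∀ u ∈ U, Real.exp (-cost u) ≤ p * (S u).card
  cost_sum : ∑ u ∈ U, cost u ≤ 52 * A * ∑ y ∈ Y, (1 + depth y)
  weight_sum : ∑ u ∈ U, ∑ v ∈ U, pairWeight n ‖u - v‖ ≤ 12 * U.card

lemma one_le_log_of_le (hn : 3 ≤ n) : 1 ≤ Real.log n := by
  rw [Real.le_log_iff_exp_le (by positivity)]
  have : (3 : ℝ) ≤ n := by exact_mod_cast hn
  linarith [Real.exp_one_lt_d9]

lemma S0_le_pow (hn : 1 ≤ n) : S0 n ≤ (n : ℝ) ^ 2 := by
  have h1 : (1 : ℝ) ≤ n := by exact_mod_cast hn
  have h2 : Real.log n ≤ n := Real.log_le_self (by positivity)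
  have h3 : 3840 * eps ≤ 1 := by norm_num [eps, A]
  have h4 : (0 : ℝ) ≤ eps := by norm_num [eps, A]
  calc S0 n = (3840 * eps) * (n * Real.log n) := by unfold S0 tlevel; ring
    _ ≤ 1 * (n * n) := by
        refine mul_le_mul h3 (mul_le_mul_of_nonneg_left h2 (by positivity)) ?_ zero_le_one
        exact mul_nonneg (by positivity) (Real.log_nonneg h1)
    _ = (n : ℝ) ^ 2 := by ring

lemma pairWeight_le_pow (hn : 2 ≤ n) (l : ℕ) (d : ℝ) (hd : √((l : ℝ) / n) < d) :
    pairWeight n d ≤ (1 / 4 : ℝ) ^ l := by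
  have hn' : (2 : ℝ) ≤ n := by exact_mod_cast hn
  have hd2 : (l : ℝ) / n ≤ d ^ 2 := by
    have := pow_le_pow_left₀ (Real.sqrt_nonneg _) hd.le 2
    rwa [Real.sq_sqrt (by positivity)] at this
  have h1 : (l : ℝ) / 2 ≤ ((n : ℝ) - 1) * d ^ 2 := by
    have e : (l : ℝ) ≤ n * d ^ 2 := by
      rw [div_le_iff₀ (by linarith)] at hd2; linarith
    nlinarith [sq_nonneg d]
  have h4 : Real.exp (-Real.log 4) = 1 / 4 := by
    rw [Real.exp_neg, Real.exp_log (by norm_num)]; norm_num
  rw [← h4, ← Real.exp_nat_mul, pairWeight, Real.exp_le_exp]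
  have h5 : Real.log 4 ≤ 3 := by
    rw [Real.log_le_iff_le_exp (by norm_num)]
    linarith [Real.add_one_le_exp (3 : ℝ)]
  have h6 : (l : ℝ) * Real.log 4 ≤ l * 3 := mul_le_mul_of_nonneg_left h5 (by positivity)
  have h7 : A * ((l : ℝ) / 2) ≤ A * (((n : ℝ) - 1) * d ^ 2) :=
    mul_le_mul_of_nonneg_left h1 A_pos.le
  simp only [A] at *
  nlinarith

lemma lam_union_le {S T : Set (E n)} (hS : S ⊆ {v | ‖v‖ ≤ rho}) (hT : T ⊆ {v | ‖v‖ ≤ rho}) :
    lam (S ∪ T) ≤ lam S + lam T := by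
  unfold lam
  rw [← add_div, ← ENNReal.toReal_add ((volume_lt_top hS).ne) ((volume_lt_top hT).ne)]
  gcongr
  · exact ENNReal.add_ne_top.2 ⟨(volume_lt_top hS).ne, (volume_lt_top hT).ne⟩
  · exact measure_union_le _ _

lemma lam_biUnion_le {ι : Type*} (s : Finset ι) {B : ι → Set (E n)}
    (hB : ∀ i ∈ s, B i ⊆ {v | ‖v‖ ≤ rho}) : lam (⋃ i ∈ s, B i) ≤ ∑ i ∈ s, lam (B i) := by
  classical
  induction s using Finset.induction_on with
  | empty => simp [lam]
  | insert a s has ih =>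
    rw [Finset.set_biUnion_insert, Finset.sum_insert has]
    refine (lam_union_le (hB a (Finset.mem_insert_self _ _)) ?_).trans
      (by gcongr; exact ih fun i hi => hB i (Finset.mem_insert_of_mem hi))
    exact Set.iUnion₂_subset fun i hi => hB i (Finset.mem_insert_of_mem hi)

/-- A cap above a representative cuts all nearby members with a fair share of its slots. -/
lemma lam_cluster_ge (hn : 2 ≤ n) {u : E n} {mem : Finset (E n)} {i : ℕ} {a : ℝ}
    (hu : u ∈ mem) (hball : ∀ y ∈ mem, ‖y‖ ≤ 1) (hcard : mem.card < 2 ^ (i + 1))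
    (hdist : ∀ y ∈ mem, ‖y - u‖ ≤ √((i : ℝ) / n))
    (ha : ∀ y ∈ mem, depth u + depth y + i ≤ a) (hsmall : 2 * (a + i + 2) / n ≤ 1 / (6 * A)) :
    Real.exp (-(12 * A * (a + i + 2))) / 2 ≤ lam (⋂ y ∈ mem, excl y) := by
  classical
  have hn0 : (0 : ℝ) < n := by positivity
  have hn' : (2 : ℝ) ≤ n := by exact_mod_cast hn
  have hdep : ∀ y ∈ mem, 0 ≤ depth y := fun y hy =>
    mul_nonneg hn0.le (sub_nonneg.2 (hball y hy))
  have ha0 : 0 ≤ a := by linarith [ha u hu, hdep u hu, (Nat.cast_nonneg i : (0 : ℝ) ≤ i)]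
  have han : a / n ≤ 1 / 2 := by
    have h1 : 2 * (a + i + 2) / n ≤ 1 / 2 := hsmall.trans (by norm_num [A])
    have h2 : a / n ≤ 2 * (a + i + 2) / n := by gcongr; linarith [(Nat.cast_nonneg i : (0 : ℝ) ≤ i)]
    linarith
  have hu0 : u ≠ 0 := by
    intro h0
    have h1 := ha u hu
    simp only [depth, h0, norm_zero, sub_zero, mul_one] at h1
    have h2 : (1 : ℝ) ≤ a / n := by
      rw [le_div_iff₀ hn0]; linarith [(Nat.cast_nonneg i : (0 : ℝ) ≤ i)]
    linarith
  set e : E n := ‖u‖⁻¹ • u with he_def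
  have hupos : 0 < ‖u‖ := norm_pos_iff.2 hu0
  have he : ‖e‖ = 1 := norm_smul_inv_norm hu0
  set h : ℝ := (1 + ((i : ℝ) + 2) / n) / (1 - a / n) with hh
  set b : ℝ := √(4 * ((i : ℝ) + 2) / (A * n)) with hb
  have h1a : 0 < 1 - a / n := by linarith
  have hi2 : 0 ≤ ((i : ℝ) + 2) / n := by positivity
  have hh1 : 1 ≤ h := by
    rw [hh, le_div_iff₀ h1a]
    linarith [div_nonneg ha0 hn0.le]
  have hh2 : h - 1 ≤ 2 * (a + i + 2) / n := by
    rw [hh, div_sub_one h1a.ne', div_le_iff₀ h1a]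
    have e1 : 2 * (a + i + 2) / n = 2 * (a / n + ((i : ℝ) + 2) / n) := by ring
    rw [e1]
    nlinarith [div_nonneg ha0 hn0.le]
  have hh3 : h ≤ 1 + 1 / (6 * A) := by linarith
  let w : E n → E n := fun y => y - ⟪y, e⟫ • e
  let B : E n → Set (E n) := fun y =>
    if w y = 0 then ∅ else capSet e h ∩ {v | ⟪v, ‖w y‖⁻¹ • w y⟫ < -b}
  have hBsub : ∀ y, B y ⊆ {v | ‖v‖ ≤ rho} := fun y v hv => by
    simp only [B] at hv
    split_ifs at hv with hw
    · exact absurd hv (Set.notMem_empty v)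
    · exact hv.1.1
  have hort : ∀ y, ⟪e, w y⟫ = 0 := fun y => by
    simp only [w, inner_sub_right, real_inner_smul_right, real_inner_self_eq_norm_sq, he]
    rw [real_inner_comm e y]; ring
  have hBle : ∀ y, lam (B y) ≤ Real.exp (-((i : ℝ) + 2)) * lam (capSet e h) := fun y => by
    simp only [B]
    split_ifs with hw
    · have : lam (∅ : Set (E n)) = 0 := by simp [lam]
      rw [this]
      exact mul_nonneg (Real.exp_nonneg _)
        ((Real.exp_nonneg _).trans (lam_cap_lower hn he hh1 hh3))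
    · refine (lam_cap_two hn he (norm_smul_inv_norm hw) ?_ hh1 (Real.sqrt_nonneg _)).trans ?_
      · rw [real_inner_smul_right, hort, mul_zero]
      refine mul_le_mul_of_nonneg_right (Real.exp_le_exp.2 ?_)
        ((Real.exp_nonneg _).trans (lam_cap_lower hn he hh1 hh3))
      rw [Real.sq_sqrt (by have := A_pos; positivity)]
      have hA := A_pos
      have : A * ((n : ℝ) - 1) * (4 * ((i : ℝ) + 2) / (A * n)) / 2 =
          2 * ((i : ℝ) + 2) * (1 - 1 / n) := by field_simp; ring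
      rw [this]
      have h2 : 1 / (n : ℝ) ≤ 1 / 2 := by gcongr
      nlinarith [(Nat.cast_nonneg i : (0 : ℝ) ≤ i)]
  have hsub : capSet e h ⊆ (⋂ y ∈ mem, excl y) ∪ ⋃ y ∈ mem, B y := by
    intro v hv
    by_cases hbad : v ∈ ⋃ y ∈ mem, B y
    · exact Or.inr hbad
    refine Or.inl (Set.mem_iInter₂.2 fun y hy => ⟨hv.1, ?_⟩)
    have hyB : v ∉ B y := fun hmem => hbad (Set.mem_iUnion₂.2 ⟨y, hy, hmem⟩)
    -- radial part
    have hD : ‖y - u‖ ^ 2 ≤ (i : ℝ) / n := by
      have := pow_le_pow_left₀ (norm_nonneg _) (hdist y hy) 2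
      rwa [Real.sq_sqrt (by positivity)] at this
    have hsq : ∀ r : ℝ, 1 - 2 * ((n : ℝ) * (1 - r)) / n ≤ r ^ 2 := fun r => by
      have : 1 - 2 * ((n : ℝ) * (1 - r)) / n = 2 * r - 1 := by field_simp; ring
      rw [this]; nlinarith [sq_nonneg (r - 1)]
    have hyu : 1 - a / n ≤ ⟪y, u⟫ := by
      have e1 : ‖y - u‖ ^ 2 = ‖y‖ ^ 2 - 2 * ⟪y, u⟫ + ‖u‖ ^ 2 := norm_sub_sq_real y u
      have s1 := hsq ‖y‖
      have s2 := hsq ‖u‖
      have h3 := ha y hy
      simp only [depth] at h3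
      have e2 : a / n ≥ ((n : ℝ) * (1 - ‖u‖) + (n : ℝ) * (1 - ‖y‖) + i) / n := by gcongr
      have e3 : ((n : ℝ) * (1 - ‖u‖) + (n : ℝ) * (1 - ‖y‖) + i) / n =
          (n : ℝ) * (1 - ‖u‖) / n + (n : ℝ) * (1 - ‖y‖) / n + (i : ℝ) / n := by ring
      have h4 : (0 : ℝ) ≤ (i : ℝ) / n := by positivity
      have e4 : ∀ r : ℝ, 2 * ((n : ℝ) * (1 - r)) / n = 2 * ((n : ℝ) * (1 - r) / n) := fun r => by ring
      rw [e4] at s1 s2
      linarith
    have hye : 1 - a / n ≤ ⟪y, e⟫ := by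
      rw [he_def, real_inner_smul_right]
      refine hyu.trans ?_
      have h0 : 0 ≤ ⟪y, u⟫ := h1a.le.trans hyu
      have h1 : 1 ≤ ‖u‖⁻¹ := (one_le_inv₀ hupos).2 (hball u hu)
      exact le_mul_of_one_le_left h0 h1
    -- transversal part
    have hwle : ‖w y‖ ≤ ‖y - u‖ := by
      have hu' : u = ‖u‖ • e := by
        rw [he_def, smul_smul, mul_inv_cancel₀ hupos.ne', one_smul]
      have e1 : y - u = w y + (⟪y, e⟫ - ‖u‖) • e := by
        simp only [w]; rw [sub_smul, ← hu']; abel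
      have e2 : ⟪w y, (⟪y, e⟫ - ‖u‖) • e⟫ = 0 := by
        rw [real_inner_smul_right, real_inner_comm e (w y), hort, mul_zero]
      have e3 := norm_add_sq_eq_norm_sq_add_norm_sq_real e2
      rw [← e1] at e3
      nlinarith [norm_nonneg (w y), norm_nonneg (y - u),
        mul_self_nonneg ‖(⟪y, e⟫ - ‖u‖) • e‖]
    have hwv : -(((i : ℝ) + 2) / n) ≤ ⟪v, w y⟫ := by
      rcases eq_or_ne (w y) 0 with hw | hw
      · rw [hw, inner_zero_right]; linarith
      · simp only [B, if_neg hw, Set.mem_inter_iff, Set.mem_ofPred_eq, not_and, not_lt] at hyB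
        have hfv := hyB hv
        rw [real_inner_smul_right, le_inv_mul_iff₀ (norm_pos_iff.2 hw)] at hfv
        have hbD : b * ‖w y‖ ≤ ((i : ℝ) + 2) / n := by
          refine (mul_le_mul_of_nonneg_left (hwle.trans (hdist y hy)) (Real.sqrt_nonneg _)).trans ?_
          rw [← Real.sqrt_mul (by have := A_pos; positivity)]
          refine Real.sqrt_le_iff.2 ⟨hi2, ?_⟩
          have hA : (4 : ℝ) ≤ A := by norm_num [A]
          have e1 : 4 * ((i : ℝ) + 2) / (A * n) * (i / n) = (4 / A) * (((i : ℝ) + 2) * i) / n ^ 2 := by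
            field_simp
          rw [e1, div_pow]
          gcongr
          have h5 : 4 / A ≤ 1 := by rw [div_le_one (by linarith)]; exact hA
          calc 4 / A * (((i : ℝ) + 2) * i) ≤ 1 * (((i : ℝ) + 2) * i) := by gcongr
            _ ≤ ((i : ℝ) + 2) ^ 2 := by nlinarith [(Nat.cast_nonneg i : (0 : ℝ) ≤ i)]
        linarith
    have hv2 : h < ⟪v, e⟫ := hv.2
    have e1 : ⟪v, y⟫ = ⟪y, e⟫ * ⟪v, e⟫ + ⟪v, w y⟫ := by
      simp only [w, inner_sub_right, real_inner_smul_right]; ring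
    have e2 : 1 + ((i : ℝ) + 2) / n = h * (1 - a / n) := by
      rw [hh, div_mul_cancel₀ _ h1a.ne']
    have e3 : h * (1 - a / n) < ⟪v, e⟫ * (1 - a / n) := mul_lt_mul_of_pos_right hv2 h1a
    have e4 : ⟪v, e⟫ * (1 - a / n) ≤ ⟪y, e⟫ * ⟪v, e⟫ := by
      rw [mul_comm]; exact mul_le_mul_of_nonneg_right hye (by linarith)
    rw [e1]
    linarith
  have hsub1 : (⋂ y ∈ mem, excl y) ⊆ {v | ‖v‖ ≤ rho} := fun v hv =>
    ((Set.mem_iInter₂.1 hv) u hu).1
  have hsub2 : (⋃ y ∈ mem, B y) ⊆ {v | ‖v‖ ≤ rho} := Set.iUnion₂_subset fun y _ => hBsub y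
  have hcap := lam_cap_lower hn he hh1 hh3
  have h1 : lam (capSet e h) ≤ lam (⋂ y ∈ mem, excl y) + ∑ y ∈ mem, lam (B y) :=
    (lam_mono hsub (Set.union_subset hsub1 hsub2)).trans
      ((lam_union_le hsub1 hsub2).trans (by gcongr; exact lam_biUnion_le mem fun y _ => hBsub y))
  have h2 : ∑ y ∈ mem, lam (B y) ≤ (1 / 2) * lam (capSet e h) := by
    calc ∑ y ∈ mem, lam (B y) ≤ ∑ _y ∈ mem, Real.exp (-((i : ℝ) + 2)) * lam (capSet e h) :=
          Finset.sum_le_sum fun y _ => hBle y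
      _ = (mem.card * Real.exp (-((i : ℝ) + 2))) * lam (capSet e h) := by
          rw [Finset.sum_const, nsmul_eq_mul]; ring
      _ ≤ (1 / 2) * lam (capSet e h) := by
          refine mul_le_mul_of_nonneg_right ?_ ((Real.exp_nonneg _).trans hcap)
          have hc : (mem.card : ℝ) ≤ 2 ^ (i + 1) := by exact_mod_cast hcard.le
          have he2 : Real.exp (-((i : ℝ) + 2)) = Real.exp (-1) ^ (i + 1) * Real.exp (-1) := by
            rw [← pow_succ, ← Real.exp_nat_mul]; congr 1; push_cast; ring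
          have hem : Real.exp (-1) ≤ 1 / 2 := by
            rw [Real.exp_neg, one_div]
            exact inv_anti₀ two_pos (by linarith [Real.add_one_le_exp (1 : ℝ)])
          calc (mem.card : ℝ) * Real.exp (-((i : ℝ) + 2))
              ≤ 2 ^ (i + 1) * ((1 / 2 : ℝ) ^ (i + 1) * (1 / 2)) := by
                rw [he2]; gcongr
            _ = 1 / 2 := by
                rw [← mul_assoc, ← mul_pow]; norm_num
  have h3 : Real.exp (-(12 * A * (a + i + 2))) ≤ lam (capSet e h) := by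
    refine (Real.exp_le_exp.2 (neg_le_neg ?_)).trans hcap
    calc 6 * A * n * (h - 1) ≤ 6 * A * n * (2 * (a + i + 2) / n) := by
          have := A_pos; gcongr
      _ = 12 * A * (a + i + 2) := by field_simp; ring
  linarith

/-- Section 7: every admissible set of covering translates has units. -/
theorem exists_units : ∃ n₀ : ℕ, ∀ n, n₀ ≤ n → ∀ {Slot : Type} [Fintype Slot] (rep : Slot → E n)
    (p : ℝ) (P : Finset (E n)), IsProbeSet P → SlotsOK rep p P → ∀ Y ⊆ P,
      (∀ y ∈ Y, depth y ≤ 3 * Real.log n) → ∑ y ∈ Y, (1 + depth y) ≤ S0 n →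
        Nonempty (UnitData rep p Y) := by
  classical
  obtain ⟨n₁, hn₁⟩ : ∃ n₁ : ℕ, ∀ n, n₁ ≤ n → 36 * Real.log n / n ≤ 1 / (6 * A) := by
    have hA : (0 : ℝ) < 1 / (6 * A) / 36 := by have := A_pos; positivity
    have h := ((Real.isLittleO_log_id_atTop.tendsto_div_nhds_zero).comp
      tendsto_natCast_atTop_atTop).eventually (ge_mem_nhds hA)
    obtain ⟨n₁, hn₁⟩ := eventually_atTop.1 h
    refine ⟨n₁, fun n hn => ?_⟩
    have := hn₁ n hn
    simp only [Function.comp_apply, id_eq] at this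
    rw [mul_div_assoc]; linarith
  refine ⟨max n₁ 3, fun n hn Slot _ rep p P hP hslot Y hYP hdeep hsum => ?_⟩
  have hn3 : 3 ≤ n := le_of_max_le_right hn
  have hn2 : 2 ≤ n := by omega
  have hn0 : (0 : ℝ) < n := by positivity
  have hlog1 := one_le_log_of_le hn3
  have hball : ∀ y ∈ Y, ‖y‖ ≤ 1 := fun y hy => ((hP y).1 (hYP hy)).2
  have hdep : ∀ y ∈ Y, 0 ≤ depth y := fun y hy =>
    mul_nonneg hn0.le (sub_nonneg.2 (hball y hy))
  obtain ⟨U, mem, lev, hU, hdisj, hcov, hw⟩ := exists_clusters (by omega : 0 < n) Y (pairWeight n)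
    (fun d => Real.exp_nonneg _)
    (fun d => Real.exp_le_one_iff.2 (neg_nonpos.2 (by
      have : (1 : ℝ) ≤ n := by exact_mod_cast (by omega : 1 ≤ n)
      have := A_pos
      have : (0 : ℝ) ≤ (n : ℝ) - 1 := by linarith
      positivity)))
    (pairWeight_le_pow hn2)
  have hmemY : ∀ u ∈ U, mem u ⊆ Y := fun u hu y hy => hcov ▸ Finset.mem_biUnion.2 ⟨u, hu, hy⟩
  let M : E n → ℝ := fun u => if h : (mem u).Nonempty then (mem u).sup' h depth else 0
  have hM : ∀ u, ∀ y ∈ mem u, depth y ≤ M u := fun u y hy => by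
    simp only [M, dif_pos (show (mem u).Nonempty from ⟨y, hy⟩)]; exact Finset.le_sup' depth hy
  have hMle : ∀ u ∈ U, M u ≤ 3 * Real.log n := fun u hu => by
    simp only [M, dif_pos (show (mem u).Nonempty from ⟨u, (hU u hu).1⟩)]
    exact Finset.sup'_le _ _ fun y hy => hdeep y (hmemY u hu hy)
  have hMsum : ∀ u ∈ U, M u ≤ ∑ y ∈ mem u, depth y := fun u hu => by
    simp only [M, dif_pos (show (mem u).Nonempty from ⟨u, (hU u hu).1⟩)]
    exact Finset.sup'_le _ _ fun y hy =>
      Finset.single_le_sum (f := depth) (fun z hz => hdep z (hmemY u hu hz)) hy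
  set x : E n → ℝ := fun u => depth u + M u + 2 * lev u + 2 with hx
  have hM0 : ∀ u ∈ U, 0 ≤ M u := fun u hu =>
    (hdep u (hmemY u hu (hU u hu).1)).trans (hM u u (hU u hu).1)
  have hlev : ∀ u ∈ U, (lev u : ℝ) ≤ 5 * Real.log n := by
    intro u hu
    have h1 : ((mem u).card : ℝ) ≤ S0 n := by
      refine le_trans ?_ hsum
      refine le_trans ?_ (Finset.sum_le_sum_of_subset_of_nonneg (hmemY u hu)
        fun y hy _ => add_nonneg zero_le_one (hdep y hy))
      calc ((mem u).card : ℝ) = ∑ _y ∈ mem u, (1 : ℝ) := by simp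
        _ ≤ _ := Finset.sum_le_sum fun y hy => le_add_of_nonneg_right (hdep y (hmemY u hu hy))
    have h2 : ((2 : ℝ) ^ lev u) ≤ (n : ℝ) ^ 2 :=
      (le_trans (by exact_mod_cast (hU u hu).2.1) h1).trans (S0_le_pow (by omega))
    have h3 := Real.log_le_log (by positivity) h2
    rw [Real.log_pow, Real.log_pow] at h3
    have h4 := Real.log_two_gt_d9
    push_cast at h3
    nlinarith [(Nat.cast_nonneg (lev u) : (0 : ℝ) ≤ lev u)]
  have hxle : ∀ u ∈ U, x u ≤ 18 * Real.log n := fun u hu => by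
    have := hdeep u (hmemY u hu (hU u hu).1)
    have := hMle u hu
    have := hlev u hu
    simp only [hx]; linarith
  have hxsum : ∀ u ∈ U, x u ≤ 2 * ∑ y ∈ mem u, (1 + depth y) := fun u hu => by
    have h1 : depth u ≤ ∑ y ∈ mem u, depth y :=
      Finset.single_le_sum (f := depth) (fun z hz => hdep z (hmemY u hu hz)) (hU u hu).1
    have h2 := hMsum u hu
    have h3 : ((lev u : ℝ) + 1) ≤ ((mem u).card : ℝ) := by
      exact_mod_cast (Nat.lt_two_pow_self : lev u < 2 ^ lev u).trans_le (hU u hu).2.1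
    rw [Finset.sum_add_distrib, Finset.sum_const, nsmul_eq_mul, mul_one]
    simp only [hx]; linarith
  have hx2 : ∀ u ∈ U, 2 ≤ x u := fun u hu => by
    have := hdep u (hmemY u hu (hU u hu).1)
    have := hM0 u hu
    simp only [hx]; linarith [(Nat.cast_nonneg (lev u) : (0 : ℝ) ≤ lev u)]
  let S : E n → Finset Slot := fun u => univ.filter fun s => rep s ∈ ⋂ y ∈ mem u, excl y
  have hcount : ∀ u ∈ U, Real.exp (-(13 * A * x u)) ≤ p * (S u).card := by
    intro u hu
    have hs : 2 * ((depth u + M u + lev u) + lev u + 2) / n ≤ 1 / (6 * A) := by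
      refine le_trans ?_ (hn₁ n (le_of_max_le_left hn))
      have := hxle u hu
      simp only [hx] at this
      exact div_le_div_of_nonneg_right (by linarith) hn0.le
    have hl := lam_cluster_ge hn2 (hU u hu).1 (fun y hy => hball y (hmemY u hu hy))
      (hU u hu).2.2.1 (hU u hu).2.2.2 (a := depth u + M u + lev u)
      (fun y hy => by linarith [hM u y hy]) hs
    have hc := (hslot.2.2.2 (mem u) ((hmemY u hu).trans hYP) ⟨u, (hU u hu).1⟩).1
    have hcnt : cnt rep p (⋂ y ∈ mem u, excl y) = p * (S u).card := by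
      simp only [cnt, S]
    rw [← hcnt]
    refine le_trans ?_ hc
    have e1 : depth u + M u + lev u + lev u + 2 = x u := by simp only [hx]; ring
    rw [e1] at hl
    have e2 : Real.exp (-(13 * A * x u)) ≤ Real.exp (-(12 * A * x u)) / 4 := by
      rw [le_div_iff₀ four_pos, show -(12 * A * x u) = -(13 * A * x u) + A * x u by ring, Real.exp_add]
      gcongr
      refine le_trans ?_ (Real.add_one_le_exp _)
      have := hx2 u hu
      simp only [A]; linarith
    linarith
  refine ⟨{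
    U := U
    S := S
    cost := fun u => 13 * A * x u
    sub := fun u hu => hmemY u hu (hU u hu).1
    rep_excl := fun u hu s hs =>
      Set.mem_iInter₂.1 (Finset.mem_filter.1 hs).2 u (hU u hu).1
    cover := fun y hy => by
      rw [← hcov] at hy
      obtain ⟨u, hu, hyu⟩ := Finset.mem_biUnion.1 hy
      exact ⟨u, hu, fun s hs => Set.mem_iInter₂.1 (Finset.mem_filter.1 hs).2 y hyu⟩
    nonempty := fun u hu => by
      rw [← Finset.card_pos]
      by_contra h0
      have := hcount u hu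
      rw [Nat.eq_zero_of_not_pos h0, Nat.cast_zero, mul_zero] at this
      exact absurd this (not_le.2 (Real.exp_pos _))
    cost_nonneg := fun u hu => by
      have := hx2 u hu; have := A_pos; positivity
    cost_le := fun u hu => by
      calc 13 * A * x u ≤ 13 * A * (18 * Real.log n) := by
            have := A_pos; gcongr; exact hxle u hu
        _ ≤ 300 * A * Real.log n := by simp only [A]; linarith
    count := hcount
    cost_sum := by
      rw [← Finset.mul_sum]
      calc 13 * A * ∑ u ∈ U, x u ≤ 13 * A * ∑ u ∈ U, 2 * ∑ y ∈ mem u, (1 + depth y) := by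
            have := A_pos; gcongr with u hu; exact hxsum u hu
        _ = 26 * A * ∑ y ∈ Y, (1 + depth y) := by
            rw [← Finset.mul_sum, ← Finset.sum_biUnion hdisj, hcov]; ring
        _ ≤ 52 * A * ∑ y ∈ Y, (1 + depth y) := by
            have := A_pos
            refine mul_le_mul_of_nonneg_right (by linarith)
              (Finset.sum_nonneg fun y hy => add_nonneg zero_le_one (hdep y hy))
    weight_sum := hw }⟩

end Vale.Agent.P230
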