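import Vale.Agent.P230.Janson
import Vale.Agent.P230.Matching
import Vale.Agent.P230.Units
import Vale.Agent.P230.Grid

/-!
P230, section 10: the random body rarely leaves all good probes of some window covered.
-/

namespace Vale.Agent.P230

open Finset Filter
open scoped RealInnerProductSpace

variable {n : ℕ}

open Classical in
/-- Some admissible window leaves every good probe covered. -/
def Bad {Slot : Type*} (P : Finset (E n)) (rep : Slot → E n) (w : Finset Slot) : Prop :=
  ∃ Xw : Finset (E n), (∀ c ∈ Xw, c ∈ grid n ∧ ‖c‖ ≤ 2) ∧ (Xw.card : ℝ) ≤ T0 n ∧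
    P.card ≤ 2 * (P.filter (GoodProbe Xw)).card ∧
    ∀ z ∈ P, GoodProbe Xw z → ∃ c ∈ Xw, z - c ∈ body0 rep w

namespace FailAux

/-- The large-`n` inequalities of section 10. -/
structure Large (n : ℕ) : Prop where
  three : 3 ≤ n
  inv_le : 1 / (n : ℝ) ≤ 1 / 32
  r0_ge : 1 / (n : ℝ) ≤ r0 n
  r0_le : r0 n ≤ 1
  far : S0 n ^ 2 * (2 * Real.exp (600 * A * Real.log n - A * ((n : ℝ) - 1) * r0 n ^ 2 / 8)) ≤ 1
  total : Real.exp (105 * A * S0 n) * (S0 n * T0 n * (2 * r0 n) ^ n) +
    12 * Real.exp (600 * A * Real.log n) * (S0 n * T0 n * (1 / 16 : ℝ) ^ n) ≤ 2 * (1 / 4 : ℝ) ^ n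
  union : (T0 n) * (4 * n * Real.log n) + 1 ≤ (4 : ℝ) ^ n / 16
  gcard : (5 * (n : ℝ) ^ 3) ^ n + 1 ≤ Real.exp (4 * n * Real.log n)

lemma eps_nonneg : (0 : ℝ) ≤ eps := by norm_num [eps, A]

lemma tlevel_le (hn : 1 ≤ n) : tlevel n ≤ eps * (n : ℝ) ^ 2 := by
  have h : Real.log n ≤ n := Real.log_le_self (by positivity)
  calc tlevel n = eps * n * Real.log n := rfl
    _ ≤ eps * n * n := mul_le_mul_of_nonneg_left h (mul_nonneg eps_nonneg (Nat.cast_nonneg n))
    _ = eps * (n : ℝ) ^ 2 := by ring

lemma tlevel_nonneg (hn : 1 ≤ n) : 0 ≤ tlevel n :=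
  mul_nonneg (mul_nonneg eps_nonneg (Nat.cast_nonneg n)) (Real.log_nonneg (by exact_mod_cast hn))

lemma S0_nonneg (hn : 1 ≤ n) : 0 ≤ S0 n := mul_nonneg (by norm_num) (tlevel_nonneg hn)

lemma T0_nonneg (hn : 1 ≤ n) : 0 ≤ T0 n :=
  mul_nonneg (mul_nonneg (by norm_num) (tlevel_nonneg hn)) (by positivity)

lemma T0_le (hn : 1 ≤ n) : T0 n ≤ (n : ℝ) ^ 2 * 2 ^ n := by
  refine mul_le_mul_of_nonneg_right ?_ (by positivity)
  calc 384 * tlevel n ≤ 384 * (eps * (n : ℝ) ^ 2) := by linarith [tlevel_le hn]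
    _ = (384 * eps) * (n : ℝ) ^ 2 := by ring
    _ ≤ 1 * (n : ℝ) ^ 2 := mul_le_mul_of_nonneg_right (by norm_num [eps, A]) (by positivity)
    _ = (n : ℝ) ^ 2 := one_mul _

lemma exp_log_pow (hn : 1 ≤ n) (k : ℕ) : (n : ℝ) ^ k = Real.exp (k * Real.log n) := by
  rw [Real.exp_nat_mul, Real.exp_log (by exact_mod_cast hn)]

lemma pow_le_exp (k : ℕ) : (27 / 10 : ℝ) ^ k ≤ Real.exp k := by
  rw [← Real.exp_one_pow]
  exact pow_le_pow_left₀ (by norm_num) (le_trans (by norm_num) Real.exp_one_gt_d9.le) k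

lemma eventually_large : ∀ᶠ n : ℕ in atTop, Large n := by
  have hlog : ∀ c : ℝ, 0 < c → ∀ᶠ n : ℕ in atTop, Real.log n ≤ c * √(n : ℝ) := fun c hc => by
    have h := (isLittleO_log_rpow_atTop (show (0 : ℝ) < 1 / 2 by norm_num)).bound hc
    filter_upwards [tendsto_natCast_atTop_atTop.eventually h] with n hn
    rw [Real.norm_eq_abs, Real.norm_of_nonneg (Real.rpow_nonneg (Nat.cast_nonneg n) _),
      ← Real.sqrt_eq_rpow] at hn
    exact le_trans (le_abs_self _) hn
  have hL : ∀ᶠ n : ℕ in atTop, (40 : ℝ) ≤ Real.log n :=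
    (Real.tendsto_log_atTop.comp tendsto_natCast_atTop_atTop).eventually_ge_atTop 40
  filter_upwards [eventually_ge_atTop (max 64 3), hL, hlog (1 / 32) (by norm_num),
    hlog (1 / (16 * (4 + 600 * 65536))) (by norm_num)] with n hn hL40 hlog32 hlogA
  have hn3 : 3 ≤ n := (le_max_right _ _).trans hn
  have hn1 : 1 ≤ n := by omega
  have hn64 : (64 : ℝ) ≤ n := by exact_mod_cast (le_max_left _ _).trans hn
  have hn0 : (0 : ℝ) < n := by linarith
  set L := Real.log n with hLdef
  set s := √(n : ℝ) with hs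
  have hs1 : 1 ≤ s := Real.one_le_sqrt.mpr (by linarith)
  have hsn : s * s = n := Real.mul_self_sqrt hn0.le
  have hsle : s ≤ n := by nlinarith
  have hr0sq : r0 n ^ 2 = s⁻¹ := by
    rw [r0, inv_pow, Real.sq_sqrt (Real.sqrt_nonneg _)]
  have hr00 : 0 ≤ r0 n := inv_nonneg.mpr (Real.sqrt_nonneg _)
  have hr0exp : r0 n = Real.exp (-(L / 4)) := by
    rw [r0, Real.exp_neg]
    congr 1
    rw [← Real.exp_log (Real.sqrt_pos.mpr (Real.sqrt_pos.mpr hn0)),
      Real.log_sqrt (Real.sqrt_nonneg _), Real.log_sqrt hn0.le]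
    congr 1
    ring
  have hS : S0 n ≤ (n : ℝ) ^ 2 := S0_le_pow hn1
  have hS0 := S0_nonneg (n := n) hn1
  have hT0 := T0_nonneg (n := n) hn1
  have hT := T0_le (n := n) hn1
  have hpow4 : (n : ℝ) ^ 4 = Real.exp (4 * L) := by exact_mod_cast exp_log_pow hn1 4
  have h16 : ∀ k : ℕ, (k : ℝ) * Real.log 2 = Real.log ((2 : ℝ) ^ k) := fun k => (Real.log_pow _ _).symm
  have hl2 := Real.log_two_gt_d9
  have hl2' := Real.log_two_lt_d9
  refine ⟨hn3, one_div_le_one_div_of_le (by norm_num) (by linarith), ?_, ?_, ?_, ?_, ?_, ?_⟩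
  · rw [hr0exp, one_div, ← Real.exp_log hn0, ← Real.exp_neg, ← hLdef, Real.exp_le_exp]
    linarith
  · rw [hr0exp, Real.exp_le_one_iff]
    linarith
  · -- far pairs
    have hexp : 600 * A * L - A * ((n : ℝ) - 1) * r0 n ^ 2 / 8 ≤ -(4 * L + 1) := by
      rw [hr0sq]
      have e : ((n : ℝ) - 1) * s⁻¹ = s - s⁻¹ := by
        field_simp
        linarith
      have hinv : s⁻¹ ≤ 1 := inv_le_one_of_one_le₀ hs1
      have hs8 : 8 ≤ s := by
        rw [hs, Real.le_sqrt (by norm_num) hn0.le]; linarith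
      have hA1 : (4 + 600 * 65536) * L ≤ s / 16 := by
        have h := mul_le_mul_of_nonneg_left hlogA (show (0 : ℝ) ≤ 4 + 600 * 65536 by norm_num)
        linarith
      simp only [A]
      rw [mul_assoc (65536 : ℝ), e]
      linarith
    calc S0 n ^ 2 * (2 * Real.exp (600 * A * L - A * ((n : ℝ) - 1) * r0 n ^ 2 / 8))
        ≤ ((n : ℝ) ^ 2) ^ 2 * (2 * Real.exp (-(4 * L + 1))) :=
          mul_le_mul (pow_le_pow_left₀ hS0 hS 2)
            (mul_le_mul_of_nonneg_left (Real.exp_le_exp.mpr hexp) (by norm_num))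
            (by positivity) (by positivity)
      _ = 2 * Real.exp (-1) := by
          rw [← pow_mul, show 2 * 2 = 4 from rfl, hpow4, mul_left_comm, ← Real.exp_add]
          congr 2; ring
      _ ≤ 1 := by linarith [Real.exp_neg_one_lt_d9]
  · -- near and far totals
    have hST : S0 n * T0 n ≤ Real.exp (4 * L) * 2 ^ n := by
      calc S0 n * T0 n ≤ (n : ℝ) ^ 2 * ((n : ℝ) ^ 2 * 2 ^ n) :=
            mul_le_mul hS hT hT0 (by positivity)
        _ = _ := by rw [← hpow4]; ring
    have h4n : (1 / 4 : ℝ) ^ n = Real.exp (-(2 * Real.log 2 * n)) := by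
      rw [show -(2 * Real.log 2 * n) = (n : ℝ) * (-(2 * Real.log 2)) by ring, Real.exp_nat_mul,
        Real.exp_neg, two_mul, Real.exp_add, Real.exp_log (by norm_num : (0 : ℝ) < 2)]
      norm_num
    have h2n : (2 : ℝ) ^ n = Real.exp (Real.log 2 * n) := by
      rw [mul_comm, Real.exp_nat_mul, Real.exp_log (by norm_num : (0 : ℝ) < 2)]
    have hLn : L ≤ n / 32 := by linarith
    have b1 : Real.exp (105 * A * S0 n) * (S0 n * T0 n * (2 * r0 n) ^ n) ≤ (1 / 4 : ℝ) ^ n := by
      calc _ ≤ Real.exp (n * L / 8) *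
            (Real.exp (4 * L) * 2 ^ n * (2 * r0 n) ^ n) := by
            refine mul_le_mul (Real.exp_le_exp.mpr ?_)
              (mul_le_mul_of_nonneg_right hST (by positivity)) (by positivity) (Real.exp_pos _).le
            have hnL : (0 : ℝ) ≤ n * L := by positivity
            simp only [S0, tlevel, eps, A]
            nlinarith
        _ ≤ (1 / 4 : ℝ) ^ n := by
            rw [mul_pow, hr0exp, ← Real.exp_nat_mul, h2n, h4n, ← Real.exp_add, ← Real.exp_add,
              ← Real.exp_add, ← Real.exp_add, Real.exp_le_exp]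
            have := mul_le_mul_of_nonneg_left hL40 hn0.le
            nlinarith
    have b2 : 12 * Real.exp (600 * A * L) * (S0 n * T0 n * (1 / 16 : ℝ) ^ n) ≤ (1 / 4 : ℝ) ^ n := by
      have hsplit : (1 / 16 : ℝ) ^ n = (1 / 4 : ℝ) ^ n * (1 / 4 : ℝ) ^ n := by
        rw [← mul_pow]; norm_num
      calc _ ≤ 12 * Real.exp (600 * A * L) * (Real.exp (4 * L) * 2 ^ n * (1 / 16 : ℝ) ^ n) :=
            mul_le_mul_of_nonneg_left (mul_le_mul_of_nonneg_right hST (by positivity))
              (by positivity)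
        _ = (12 * (Real.exp (600 * A * L + 4 * L) * (2 ^ n * (1 / 4 : ℝ) ^ n))) * (1 / 4 : ℝ) ^ n := by
            rw [hsplit, Real.exp_add]; ring
        _ ≤ 1 * (1 / 4 : ℝ) ^ n := by
            refine mul_le_mul_of_nonneg_right ?_ (by positivity)
            rw [h2n, h4n, ← Real.exp_add, ← Real.exp_add,
              ← Real.exp_log (by norm_num : (0 : ℝ) < 12), ← Real.exp_add, Real.exp_le_one_iff]
            have h12 : Real.log 12 ≤ 4 := by
              rw [Real.log_le_iff_le_exp (by norm_num)]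
              exact le_trans (by norm_num) ((pow_le_exp 4).trans_eq (by norm_num))
            simp only [A]
            have h := mul_le_mul_of_nonneg_left hlogA (show (0 : ℝ) ≤ 4 + 600 * 65536 by norm_num)
            nlinarith
        _ = _ := one_mul _
    linarith
  · -- the union bound
    have hpow : (n : ℝ) ^ 4 * 80 ≤ 2 ^ n := by
      rw [hpow4, ← Real.exp_log (by norm_num : (0 : ℝ) < 80), ← Real.exp_add,
        show (2 : ℝ) ^ n = Real.exp (Real.log 2 * n) by
          rw [mul_comm, Real.exp_nat_mul, Real.exp_log (by norm_num : (0 : ℝ) < 2)],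
        Real.exp_le_exp]
      have h80 : Real.log 80 ≤ 5 := by
        rw [Real.log_le_iff_le_exp (by norm_num)]
        exact le_trans (by norm_num) ((pow_le_exp 5).trans_eq (by norm_num))
      nlinarith
    have hLn : L ≤ n := Real.log_le_self hn0.le
    calc T0 n * (4 * n * L) + 1 ≤ (n : ℝ) ^ 2 * 2 ^ n * (4 * n * n) + (n : ℝ) ^ 4 * 2 ^ n := by
          refine add_le_add (mul_le_mul hT (mul_le_mul_of_nonneg_left hLn (by positivity))
            (by positivity) (by positivity)) ?_
          exact one_le_mul_of_one_le_of_one_le (one_le_pow₀ (by linarith))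
            (one_le_pow₀ (by norm_num))
      _ = ((n : ℝ) ^ 4 * 80) * 2 ^ n / 16 := by ring
      _ ≤ 2 ^ n * 2 ^ n / 16 := by
          exact div_le_div_of_nonneg_right (mul_le_mul_of_nonneg_right hpow (by positivity))
            (by norm_num)
      _ = _ := by rw [← mul_pow]; norm_num
  · -- the number of windows
    have h6 : (5 * (n : ℝ) ^ 3) ^ n + 1 ≤ ((n : ℝ) ^ 4) ^ n := by
      have h5 : 1 ≤ (5 * (n : ℝ) ^ 3) ^ n :=
        one_le_pow₀ (by linarith [one_le_pow₀ (show (1 : ℝ) ≤ n by linarith) (n := 3)])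
      have h : 2 * (5 * (n : ℝ) ^ 3) ^ n ≤ ((n : ℝ) ^ 4) ^ n := by
        rw [show ((n : ℝ) ^ 4) ^ n = ((n : ℝ) / 5) ^ n * (5 * (n : ℝ) ^ 3) ^ n by
          rw [← mul_pow]; congr 1; ring]
        refine mul_le_mul_of_nonneg_right ?_ (by positivity)
        exact le_trans (by linarith) (le_self_pow₀ (by linarith : (1 : ℝ) ≤ n / 5) (by omega))
      linarith
    refine h6.trans (le_of_eq ?_)
    rw [hpow4, ← Real.exp_nat_mul]
    congr 1
    ring

section Pairs

variable {Slot : Type} [Fintype Slot] [DecidableEq Slot] {rep : Slot → E n} {p : ℝ}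
  {P : Finset (E n)}

/-- Weight of a pair of slots sets of two units. -/
lemma ratio_le (hn : 2 ≤ n) (hP : IsProbeSet P) (hok : SlotsOK rep p P) {u v : E n}
    (hu : u ∈ P) (hv : v ∈ P) {Su Sv : Finset Slot} (hSu : ∀ s ∈ Su, rep s ∈ excl u)
    (hSv : ∀ s ∈ Sv, rep s ∈ excl v) {cu cv : ℝ} (hcu : Real.exp (-cu) ≤ p * Su.card)
    (hcv : Real.exp (-cv) ≤ p * Sv.card) :
    ((Su ∩ Sv).card : ℝ) / (p * Su.card * Sv.card) ≤
      Real.exp cu * Real.exp cv * (2 * pairWeight n ‖u - v‖ ^ 2) := by
  classical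
  obtain ⟨hp0, -, -, hI⟩ := hok
  have hlam : lam (excl u ∩ excl v) ≤ pairWeight n ‖u - v‖ ^ 2 := by
    refine (lam_pair hn ((hP u).mp hu).2 ((hP v).mp hv).2).trans (le_of_eq ?_)
    rw [pairWeight, ← Real.exp_nat_mul]
    congr 1
    push_cast; ring
  have hset : (⋂ y ∈ ({u, v} : Finset (E n)), excl y) = excl u ∩ excl v := by simp
  have hup := (hI {u, v} (by simp [insert_subset_iff, hu, hv]) (insert_nonempty _ _)).2
  rw [hset] at hup
  have hnum : p * (Su ∩ Sv).card ≤ 2 * pairWeight n ‖u - v‖ ^ 2 := by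
    refine le_trans (le_trans ?_ hup) (mul_le_mul_of_nonneg_left hlam (by norm_num))
    unfold cnt
    refine mul_le_mul_of_nonneg_left (Nat.cast_le.mpr (card_le_card fun s hs => ?_)) hp0.le
    rw [mem_inter] at hs
    simp [hSu s hs.1, hSv s hs.2]
  have hpos : Real.exp (-cu) * Real.exp (-cv) ≤ (p * Su.card) * (p * Sv.card) :=
    mul_le_mul hcu hcv (Real.exp_pos _).le ((Real.exp_pos _).le.trans hcu)
  calc ((Su ∩ Sv).card : ℝ) / (p * Su.card * Sv.card)
      = p * (Su ∩ Sv).card / ((p * Su.card) * (p * Sv.card)) := by field_simp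
    _ ≤ 2 * pairWeight n ‖u - v‖ ^ 2 / (Real.exp (-cu) * Real.exp (-cv)) :=
        div_le_div₀ (by positivity) hnum (by positivity) hpos
    _ = _ := by rw [Real.exp_neg, Real.exp_neg]; field_simp

variable {α β : Type} [Fintype α] [Fintype β] [DecidableEq α] [DecidableEq β]

/-- Weight of a choice of slots. -/
noncomputable def pairTerm (p : ℝ) (S : α → Finset Slot) (T : β → Finset Slot) (σ : α → Slot)
    (τ : β → Slot) : ℝ :=
  (∏ u, ((S u).card : ℝ))⁻¹ * (∏ v, ((T v).card : ℝ))⁻¹ *
    (p⁻¹) ^ (univ.image σ ∩ univ.image τ).card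

/-- Full second moment. -/
noncomputable def full (p : ℝ) (S : α → Finset Slot) (T : β → Finset Slot) : ℝ :=
  ∑ σ ∈ Fintype.piFinset S, ∑ τ ∈ Fintype.piFinset T, pairTerm p S T σ τ

/-- Second moment of the choices that meet. -/
noncomputable def meet (p : ℝ) (S : α → Finset Slot) (T : β → Finset Slot) : ℝ :=
  ∑ σ ∈ Fintype.piFinset S, ∑ τ ∈ Fintype.piFinset T,
    if Disjoint (univ.image σ) (univ.image τ) then 0 else pairTerm p S T σ τ

/-- The likelihood of a choice system. -/
noncomputable def chi (p : ℝ) (S : α → Finset Slot) (w : Finset Slot) : ℝ :=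
  ∑ σ ∈ Fintype.piFinset S,
    if univ.image σ ⊆ w then (∏ u, ((S u).card : ℝ))⁻¹ * (p⁻¹) ^ (univ.image σ).card else 0

omit [Fintype Slot] in
lemma inv_pow_union (hp : 0 < p) (a b : Finset Slot) :
    (p⁻¹) ^ a.card * (p⁻¹) ^ b.card * p ^ (a ∪ b).card = (p⁻¹) ^ (a ∩ b).card := by
  have hc : (p⁻¹) ^ (a ∪ b).card * p ^ (a ∪ b).card = 1 := by
    rw [← mul_pow, inv_mul_cancel₀ hp.ne', one_pow]
  rw [← pow_add, ← card_union_add_card_inter, pow_add, mul_right_comm, hc, one_mul]

lemma full_eq (hp : 0 < p) (S : α → Finset Slot) (T : β → Finset Slot) :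
    full p S T = expect p fun w => chi p S w * chi p T w := by
  have e : ∀ w, chi p S w * chi p T w = ∑ σ ∈ Fintype.piFinset S, ∑ τ ∈ Fintype.piFinset T,
      ((∏ u, ((S u).card : ℝ))⁻¹ * (p⁻¹) ^ (univ.image σ).card *
        ((∏ v, ((T v).card : ℝ))⁻¹ * (p⁻¹) ^ (univ.image τ).card)) *
        (if univ.image σ ∪ univ.image τ ⊆ w then 1 else 0) := fun w => by
    simp only [chi, sum_mul_sum, union_subset_iff]
    refine sum_congr rfl fun σ _ => sum_congr rfl fun τ _ => ?_
    by_cases ha : univ.image σ ⊆ w <;> by_cases hb : univ.image τ ⊆ w <;> simp [ha, hb]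
  rw [expect_congr e, expect_sum]
  refine sum_congr rfl fun σ _ => ?_
  rw [expect_sum]
  refine sum_congr rfl fun τ _ => ?_
  rw [expect_mul_left, expect_subset, pairTerm, ← inv_pow_union hp]
  ring

lemma meet_le_half (hp : 0 < p) (hp1 : p ≤ 1) (S : α → Finset Slot) (T : β → Finset Slot) :
    meet p S T ≤ (full p S S + full p T T) / 2 := by
  have h1 : meet p S T ≤ full p S T := by
    refine sum_le_sum fun σ _ => sum_le_sum fun τ _ => ?_
    split_ifs
    · exact mul_nonneg (mul_nonneg (inv_nonneg.mpr (prod_nonneg fun _ _ => Nat.cast_nonneg _))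
        (inv_nonneg.mpr (prod_nonneg fun _ _ => Nat.cast_nonneg _)))
        (pow_nonneg (inv_nonneg.mpr hp.le) _)
    · exact le_rfl
  refine h1.trans ?_
  rw [full_eq hp, full_eq hp, full_eq hp, ← expect_add, div_eq_inv_mul, ← expect_mul_left]
  refine expect_mono hp.le hp1 fun w => ?_
  nlinarith [sq_nonneg (chi p S w - chi p T w)]

variable {Xw : Finset (E n)}

lemma near_subset (hP : IsProbeSet P) (hX : ∀ c ∈ Xw, c ∈ grid n ∧ ‖c‖ ≤ 2)
    (hsub : ∀ {x y : E n}, x ∈ grid n → y ∈ grid n → x - y ∈ grid n) {z : E n} (hz : z ∈ P) :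
    near Xw z ⊆ P := by
  classical
  intro y hy
  simp only [near, mem_filter, mem_image] at hy
  obtain ⟨⟨c, hc, rfl⟩, hy1⟩ := hy
  exact (hP _).mpr ⟨hsub ((hP z).mp hz).1 (hX c hc).1, hy1⟩

lemma one_le_depth {y : E n} (hy : ‖y‖ ≤ 1) : 1 ≤ 1 + depth y :=
  le_add_of_nonneg_right (mul_nonneg (Nat.cast_nonneg n) (sub_nonneg.mpr hy))

lemma card_near_le_depthSum (Xw : Finset (E n)) (z : E n) :
    ((near Xw z).card : ℝ) ≤ depthSum Xw z := by
  classical
  unfold depthSum
  rw [cast_card]
  refine sum_le_sum fun y hy => one_le_depth ?_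
  simp only [near, mem_filter] at hy
  exact hy.2

variable {z z' : E n} (D : UnitData rep p (near Xw z)) (D' : UnitData rep p (near Xw z'))

/-- The second moment of one probe. -/
lemma full_le (hn : 2 ≤ n) (hP : IsProbeSet P) (hok : SlotsOK rep p P)
    (hz : near Xw z ⊆ P) (hS : depthSum Xw z ≤ S0 n) :
    full p (fun u : D.U => D.S u) (fun u : D.U => D.S u) ≤ Real.exp (105 * A * S0 n) := by
  have hn' : (1 : ℝ) ≤ n := by exact_mod_cast (show 1 ≤ n by omega)
  have hw1 : ∀ d, pairWeight n d ≤ 1 := fun d => Real.exp_le_one_iff.mpr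
    (neg_nonpos.mpr (div_nonneg (mul_nonneg (mul_nonneg A_pos.le (by linarith)) (sq_nonneg d))
      (by norm_num)))
  refine (meet_le hok.1 (fun u : D.U => D.S u) (fun u : D.U => D.S u) (fun u => D.nonempty u u.2)
    (fun u => D.nonempty u u.2) (fun u : D.U => Real.exp (D.cost u))
    (fun u : D.U => Real.exp (D.cost u)) (fun u v => 2 * pairWeight n ‖(u : E n) - v‖ ^ 2)
    (fun u => Real.one_le_exp (D.cost_nonneg u u.2)) (fun u => Real.one_le_exp (D.cost_nonneg u u.2))
    (fun u v => by positivity) fun u v => ratio_le hn hP hok (hz (D.sub u.2)) (hz (D.sub v.2))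
      (D.rep_excl u u.2) (D.rep_excl v v.2) (D.count u u.2) (D.count v v.2)).trans ?_
  have hcross : ∏ u : D.U, ∏ v : D.U, (1 + 2 * pairWeight n ‖(u : E n) - v‖ ^ 2) ≤
      Real.exp (24 * D.U.card) := by
    calc _ ≤ ∏ u : D.U, ∏ v : D.U, Real.exp (2 * pairWeight n ‖(u : E n) - v‖) := by
          refine prod_le_prod (fun u _ => prod_nonneg fun v _ => by positivity) fun u _ =>
            prod_le_prod (fun v _ => by positivity) fun v _ => ?_
          have h0 : 0 ≤ pairWeight n ‖(u : E n) - v‖ := (Real.exp_pos _).le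
          have h1 := hw1 ‖(u : E n) - v‖
          have h2 := Real.add_one_le_exp (2 * pairWeight n ‖(u : E n) - v‖)
          nlinarith
      _ = Real.exp (∑ u ∈ D.U, ∑ v ∈ D.U, 2 * pairWeight n ‖u - v‖) := by
          simp only [← Real.exp_sum]
          rw [← sum_coe_sort D.U fun u => ∑ v ∈ D.U, 2 * pairWeight n ‖u - v‖]
          exact congrArg Real.exp (sum_congr rfl fun u _ =>
            sum_coe_sort D.U fun v => 2 * pairWeight n ‖(u : E n) - v‖)
      _ ≤ _ := by
          refine Real.exp_le_exp.mpr ?_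
          simp only [← mul_sum]
          linarith [D.weight_sum]
  rw [← Real.exp_sum, ← Real.exp_add]
  refine (mul_le_mul_of_nonneg_left hcross (Real.exp_pos _).le).trans ?_
  rw [← Real.exp_add, Real.exp_le_exp, sum_coe_sort D.U D.cost]
  have hc := D.cost_sum
  have hU : (D.U.card : ℝ) ≤ depthSum Xw z :=
    (Nat.cast_le.mpr (card_le_card D.sub)).trans (card_near_le_depthSum Xw z)
  have hAS : A * depthSum Xw z ≤ A * S0 n := mul_le_mul_of_nonneg_left hS A_pos.le
  simp only [depthSum, A] at *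
  linarith

/-- Two probes without close translates. -/
lemma meet_far_le (hL : Large n) (hP : IsProbeSet P) (hok : SlotsOK rep p P)
    (hz : near Xw z ⊆ P) (hz' : near Xw z' ⊆ P) (hS : depthSum Xw z ≤ S0 n)
    (hS' : depthSum Xw z' ≤ S0 n)
    (hfar : ∀ y ∈ near Xw z, ∀ y' ∈ near Xw z', r0 n ≤ ‖y - y'‖) :
    meet p (fun u : D.U => D.S u) (fun v : D'.U => D'.S v) ≤ 6 * Real.exp (600 * A * Real.log n) *
      ∑ y ∈ near Xw z, ∑ y' ∈ near Xw z', pairWeight n ‖y - y'‖ ^ 2 := by
  have hn2 : 2 ≤ n := le_trans (by norm_num) hL.three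
  set c := 2 * Real.exp (600 * A * Real.log n) with hc
  have hc0 : 0 ≤ c := by positivity
  refine (meet_nonempty_le hok.1 (fun u : D.U => D.S u) (fun v : D'.U => D'.S v)
    (fun u => D.nonempty u u.2) (fun v => D'.nonempty v v.2)
    (fun u v => c * pairWeight n ‖(u : E n) - v‖ ^ 2) (fun u v => by positivity) fun u v =>
      (ratio_le hn2 hP hok (hz (D.sub u.2)) (hz' (D'.sub v.2)) (D.rep_excl u u.2) (D'.rep_excl v v.2)
        (D.count u u.2) (D'.count v v.2)).trans ?_).trans ?_
  · rw [hc, ← Real.exp_add, ← mul_assoc, mul_comm (Real.exp _) 2]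
    refine mul_le_mul_of_nonneg_right (mul_le_mul_of_nonneg_left (Real.exp_le_exp.mpr ?_)
      (by norm_num)) (sq_nonneg _)
    linarith [D.cost_le u u.2, D'.cost_le v v.2]
  set s := ∑ y ∈ near Xw z, ∑ y' ∈ near Xw z', pairWeight n ‖y - y'‖ ^ 2 with hs
  have hsum : ∑ u : D.U, ∑ v : D'.U, c * pairWeight n ‖(u : E n) - v‖ ^ 2 ≤ c * s := by
    calc _ = ∑ u ∈ D.U, ∑ v ∈ D'.U, c * pairWeight n ‖u - v‖ ^ 2 := by
          rw [← sum_coe_sort D.U fun u => ∑ v ∈ D'.U, c * pairWeight n ‖u - v‖ ^ 2]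
          exact sum_congr rfl fun u _ =>
            sum_coe_sort D'.U fun v => c * pairWeight n ‖(u : E n) - v‖ ^ 2
      _ ≤ _ := by
          rw [hs]
          simp only [mul_sum]
          refine (sum_le_sum_of_subset_of_nonneg D.sub fun u _ _ => sum_nonneg fun v _ => by
            positivity).trans (sum_le_sum fun u _ => ?_)
          exact sum_le_sum_of_subset_of_nonneg D'.sub fun v _ _ => by positivity
  have hsmall : c * s ≤ 1 := by
    refine le_trans ?_ hL.far
    have hg : ∀ y ∈ near Xw z, ∀ y' ∈ near Xw z',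
        pairWeight n ‖y - y'‖ ^ 2 ≤ Real.exp (-(A * ((n : ℝ) - 1) * r0 n ^ 2 / 8)) := by
      intro y hy y' hy'
      rw [pairWeight, ← Real.exp_nat_mul, Real.exp_le_exp]
      have h0 : 0 ≤ r0 n := inv_nonneg.mpr (Real.sqrt_nonneg _)
      have h := pow_le_pow_left₀ h0 (hfar y hy y' hy') 2
      have hn1 : (0 : ℝ) ≤ A * ((n : ℝ) - 1) :=
        mul_nonneg A_pos.le (by linarith [show (1 : ℝ) ≤ n by exact_mod_cast (show 1 ≤ n by omega)])
      have := mul_le_mul_of_nonneg_left h hn1
      push_cast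
      linarith
    calc c * s ≤ c * ∑ _y ∈ near Xw z, ∑ _y' ∈ near Xw z',
          Real.exp (-(A * ((n : ℝ) - 1) * r0 n ^ 2 / 8)) :=
          mul_le_mul_of_nonneg_left (sum_le_sum fun y hy => sum_le_sum fun y' hy' => hg y hy y' hy') hc0
      _ = ((near Xw z).card * (near Xw z').card : ℝ) *
          (2 * Real.exp (600 * A * Real.log n - A * ((n : ℝ) - 1) * r0 n ^ 2 / 8)) := by
          simp only [sum_const, nsmul_eq_mul]
          rw [hc, sub_eq_add_neg (600 * A * Real.log n), Real.exp_add]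
          ring
      _ ≤ _ := by
          refine mul_le_mul_of_nonneg_right ?_ (by positivity)
          rw [pow_two]
          exact mul_le_mul ((card_near_le_depthSum Xw z).trans hS)
            ((card_near_le_depthSum Xw z').trans hS') (Nat.cast_nonneg _)
            (S0_nonneg (by omega))
  have hs0 : 0 ≤ s := sum_nonneg fun y _ => sum_nonneg fun y' _ => sq_nonneg _
  have hprod : ∏ u : D.U, ∏ v : D'.U, (1 + c * pairWeight n ‖(u : E n) - v‖ ^ 2) ≤
      Real.exp (c * s) := by
    refine le_trans ?_ (Real.exp_le_exp.mpr hsum)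
    simp only [Real.exp_sum]
    refine prod_le_prod (fun u _ => prod_nonneg fun v _ => by positivity) fun u _ =>
      prod_le_prod (fun v _ => by positivity) fun v _ => ?_
    linarith [Real.add_one_le_exp (c * pairWeight n ‖(u : E n) - v‖ ^ 2)]
  have he := Real.abs_exp_sub_one_le (x := c * s) (by rwa [abs_of_nonneg (mul_nonneg hc0 hs0)])
  rw [abs_of_nonneg (mul_nonneg hc0 hs0)] at he
  calc ∏ u : D.U, ∏ v : D'.U, (1 + c * pairWeight n ‖(u : E n) - v‖ ^ 2) - 1
      ≤ Real.exp (c * s) - 1 := by linarith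
    _ ≤ 2 * (c * s) := (le_abs_self _).trans he
    _ ≤ _ := by
        rw [hc, hs]
        have : 0 ≤ Real.exp (600 * A * Real.log n) * s := by positivity
        rw [hs] at this
        linarith

end Pairs

end FailAux

open FailAux in
open Classical in
/-- **Section 10.** The bad event has probability below one half. -/
theorem fail_lt_half : ∃ n₀ : ℕ, ∀ n, n₀ ≤ n → ∀ {Slot : Type} [Fintype Slot] (rep : Slot → E n)
    (p : ℝ) (P : Finset (E n)), IsProbeSet P → SlotsOK rep p P →
    expect p (fun w => if Bad P rep w then 1 else 0) < 1 / 2 := by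
  obtain ⟨n₁, hunits⟩ := exists_units
  obtain ⟨n₂, hnear⟩ := card_near_le
  obtain ⟨n₃, hG2⟩ := card_ball_two_le
  obtain ⟨n₅, hne⟩ := probe_nonempty
  obtain ⟨n₄, hlarge⟩ := eventually_atTop.mp eventually_large
  refine ⟨n₁ + n₂ + n₃ + n₄ + n₅, fun n hn Slot _ rep p P hP hok => ?_⟩
  have hL := hlarge n (by omega)
  have hn2 : 2 ≤ n := le_trans (by norm_num) hL.three
  have hn1 : 1 ≤ n := by omega
  obtain ⟨G, hG⟩ := exists_gridBall (n := n) 2
  have hp0 := hok.1
  have hp1 := hok.2.1
  -- one window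
  have one : ∀ Xw : Finset (E n), (∀ c ∈ Xw, c ∈ grid n ∧ ‖c‖ ≤ 2) → (Xw.card : ℝ) ≤ T0 n →
      expect p (fun w => if P.card ≤ 2 * (P.filter (GoodProbe Xw)).card ∧
        (∀ z ∈ P, GoodProbe Xw z → ∃ c ∈ Xw, z - c ∈ body0 rep w) then 1 else 0) ≤
        Real.exp (-((4 : ℝ) ^ n / 16)) := by
    intro Xw hX hcard
    by_cases hbig : P.card ≤ 2 * (P.filter (GoodProbe Xw)).card
    swap
    · simp only [hbig, false_and, if_false, expect_const]
      exact (Real.exp_pos _).le
    set Gd := P.filter (GoodProbe Xw) with hGd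
    have hgd : ∀ z ∈ Gd, z ∈ P ∧ GoodProbe Xw z := fun z hz => mem_filter.mp hz
    have hsub : ∀ z : Gd, near Xw (z : E n) ⊆ P := fun z =>
      near_subset hP hX grid_sub (hgd z z.2).1
    let D : (z : Gd) → UnitData rep p (near Xw (z : E n)) := fun z =>
      (hunits n (by omega) rep p P hP hok (near Xw (z : E n)) (hsub z)
        (hgd z z.2).2.2 (hgd z z.2).2.1).some
    let S : (z : Gd) → (D z).U → Finset Slot := fun z u => (D z).S u
    let As : (Σ z : Gd, Fintype.piFinset (S z)) → Finset Slot := fun i => univ.image i.2.1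
    let wt : (Σ z : Gd, Fintype.piFinset (S z)) → ℝ := fun i =>
      (∏ u, ((S i.1 u).card : ℝ))⁻¹ * (p⁻¹) ^ (As i).card
    have hN : (0 : ℝ) < P.card := Nat.cast_pos.mpr (card_pos.mpr (hne n (by omega) P hP))
    have hmu : (P.card : ℝ) / 2 ≤ ∑ i, wt i * p ^ (As i).card := by
      calc (P.card : ℝ) / 2 ≤ Gd.card := by
            rw [div_le_iff₀ two_pos, mul_comm]; exact_mod_cast hbig
        _ = ∑ _z : Gd, (1 : ℝ) := by simp
        _ = _ := by
            rw [Fintype.sum_sigma]
            refine sum_congr rfl fun z _ => ?_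
            have h1 : ∀ x : Fintype.piFinset (S z), wt ⟨z, x⟩ * p ^ (As ⟨z, x⟩).card =
                (∏ u, ((S z u).card : ℝ))⁻¹ := fun x => by
              simp only [wt, mul_assoc, ← mul_pow, inv_mul_cancel₀ hp0.ne', one_pow, mul_one]
            rw [sum_congr rfl fun x _ => h1 x, sum_const, card_univ, Fintype.card_coe,
              Fintype.card_piFinset, nsmul_eq_mul, Nat.cast_prod, mul_inv_cancel₀]
            exact prod_ne_zero_iff.mpr fun u _ =>
              Nat.cast_ne_zero.mpr ((D z).nonempty u u.2).card_pos.ne'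
    have hmeet : ∀ z z' : Gd, (∑ x : Fintype.piFinset (S z), ∑ x' : Fintype.piFinset (S z'),
        if Disjoint (As ⟨z, x⟩) (As ⟨z', x'⟩) then 0 else
          wt ⟨z, x⟩ * wt ⟨z', x'⟩ * p ^ (As ⟨z, x⟩ ∪ As ⟨z', x'⟩).card) =
        meet p (S z) (S z') := by
      intro z z'
      rw [meet, ← sum_coe_sort (Fintype.piFinset (S z))]
      refine sum_congr rfl fun x _ => ?_
      rw [← sum_coe_sort (Fintype.piFinset (S z'))]
      refine sum_congr rfl fun x' _ => ?_
      simp only [As, wt]
      split_ifs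
      · rfl
      · rw [pairTerm, ← inv_pow_union hp0]; ring
    have hrow : ∀ z : Gd, ∑ z' : Gd, meet p (S z) (S z') ≤ P.card * (2 * (1 / 4 : ℝ) ^ n) := by
      intro z
      set H := Real.exp (105 * A * S0 n) with hH
      set E6 := 6 * Real.exp (600 * A * Real.log n) with hE6
      let close : E n → Prop := fun z' =>
        ∃ y ∈ near Xw (z : E n), ∃ y' ∈ near Xw z', ‖y - y'‖ < r0 n
      let φ : E n → ℝ := fun z' =>
        ∑ y ∈ near Xw (z : E n), ∑ y' ∈ near Xw z', pairWeight n ‖y - y'‖ ^ 2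
      have hφ0 : ∀ z', 0 ≤ φ z' := fun z' => sum_nonneg fun y _ => sum_nonneg fun y' _ => sq_nonneg _
      have hpt : ∀ z' : Gd, meet p (S z) (S z') ≤
          H * (if close z' then 1 else 0) + E6 * φ z' := by
        intro z'
        by_cases hc : close z'
        · rw [if_pos hc, mul_one]
          have h1 := meet_le_half hp0 hp1 (S z) (S z')
          have h2 := full_le (D z) hn2 hP hok (hsub z) (hgd z z.2).2.1
          have h3 := full_le (D z') hn2 hP hok (hsub z') (hgd z' z'.2).2.1
          have h4 : 0 ≤ E6 * φ z' := mul_nonneg (by positivity) (hφ0 _)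
          linarith
        · rw [if_neg hc, mul_zero, zero_add]
          refine meet_far_le (D z) (D z') hL hP hok (hsub z) (hsub z') (hgd z z.2).2.1
            (hgd z' z'.2).2.1 fun y hy y' hy' => ?_
          by_contra hlt
          exact hc ⟨y, hy, y', hy', not_le.mp hlt⟩
      have hS : ((near Xw (z : E n)).card : ℝ) ≤ S0 n :=
        (card_near_le_depthSum Xw _).trans (hgd z z.2).2.1
      have hgrid : ∀ y ∈ near Xw (z : E n), ∀ c ∈ Xw, y + c ∈ grid n := fun y hy c hc =>
        grid_add ((hP y).mp (hsub z hy)).1 (hX c hc).1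
      have hnorm : ∀ (y c w : E n), ‖y - (w - c)‖ = ‖w - (y + c)‖ := fun y c w => by
        rw [← norm_neg]; congr 1; abel
      have hclose : ((P.filter close).card : ℝ) ≤ S0 n * T0 n * ((2 * r0 n) ^ n * P.card) := by
        have hsubset : P.filter close ⊆ (near Xw (z : E n) ×ˢ Xw).biUnion
            fun yc => P.filter fun w => ‖w - (yc.1 + yc.2)‖ ≤ r0 n := by
          intro w hw
          obtain ⟨hwP, y, hy, y', hy', hlt⟩ := mem_filter.mp hw
          simp only [near, mem_filter, mem_image] at hy'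
          obtain ⟨⟨c, hc, rfl⟩, -⟩ := hy'
          refine mem_biUnion.mpr ⟨(y, c), mem_product.mpr ⟨hy, hc⟩, mem_filter.mpr ⟨hwP, ?_⟩⟩
          rw [← hnorm]
          exact hlt.le
        calc ((P.filter close).card : ℝ) ≤ ∑ yc ∈ near Xw (z : E n) ×ˢ Xw,
              ((P.filter fun w => ‖w - (yc.1 + yc.2)‖ ≤ r0 n).card : ℝ) := by
              exact_mod_cast (card_le_card hsubset).trans card_biUnion_le
          _ ≤ ∑ _yc ∈ near Xw (z : E n) ×ˢ Xw, (2 * r0 n) ^ n * P.card :=
              sum_le_sum fun yc hyc => hnear n (by omega) P hP _ _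
                (hgrid _ (mem_product.mp hyc).1 _ (mem_product.mp hyc).2) hL.r0_ge hL.r0_le
          _ ≤ _ := by
              rw [sum_const, nsmul_eq_mul, card_product, Nat.cast_mul]
              exact mul_le_mul_of_nonneg_right (mul_le_mul hS hcard (Nat.cast_nonneg _)
                (S0_nonneg hn1)) (mul_nonneg (pow_nonneg (mul_nonneg zero_le_two
                  (inv_nonneg.mpr (Real.sqrt_nonneg _))) _) (Nat.cast_nonneg _))
      have hpw : ∀ g ∈ grid n,
          ∑ w ∈ P, pairWeight n ‖w - g‖ ^ 2 ≤ 2 * (1 / 16 : ℝ) ^ n * P.card := by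
        intro g hg
        rw [← sum_filter_add_sum_filter_not P (fun w => ‖w - g‖ ≤ 1 / 32), mul_assoc, two_mul]
        refine add_le_add ?_ ?_
        · refine ((sum_le_card_nsmul _ _ 1 fun w _ => ?_).trans (le_of_eq ?_)).trans
            ((hnear n (by omega) P hP g (1 / 32) hg hL.inv_le (by norm_num)).trans (le_of_eq ?_))
          · refine pow_le_one₀ (Real.exp_pos _).le (Real.exp_le_one_iff.mpr (neg_nonpos.mpr ?_))
            have h1 : (1 : ℝ) ≤ n := by exact_mod_cast hn1
            exact div_nonneg (mul_nonneg (mul_nonneg A_pos.le (by linarith)) (sq_nonneg _))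
              (by norm_num)
          · rw [nsmul_eq_mul, mul_one]
          · norm_num
        · calc _ ≤ ∑ _w ∈ P.filter (fun w => ¬ ‖w - g‖ ≤ 1 / 32), (1 / 16 : ℝ) ^ n := by
                refine sum_le_sum fun w hw => ?_
                have hd := not_le.mp (mem_filter.mp hw).2
                rw [show (1 / 16 : ℝ) = Real.exp (-Real.log 16) by
                  rw [Real.exp_neg, Real.exp_log (by norm_num)]; norm_num,
                  pairWeight, ← Real.exp_nat_mul, ← Real.exp_nat_mul, Real.exp_le_exp]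
                have h16 : Real.log 16 ≤ 4 := by
                  rw [Real.log_le_iff_le_exp (by norm_num), show (4 : ℝ) = 2 + 2 by norm_num,
                    Real.exp_add]
                  have h2 : (5 : ℝ) ≤ Real.exp 2 := by
                    rw [show (2 : ℝ) = 1 + 1 by norm_num, Real.exp_add]
                    nlinarith [Real.exp_one_gt_d9]
                  nlinarith
                have hsq : (1 / 32 : ℝ) ^ 2 ≤ ‖w - g‖ ^ 2 := pow_le_pow_left₀ (by norm_num) hd.le 2
                have hn2' : (2 : ℝ) ≤ n := by exact_mod_cast hn2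
                have h5 := mul_le_mul_of_nonneg_left hsq (show (0 : ℝ) ≤ (n : ℝ) - 1 by linarith)
                have h6 := mul_le_mul_of_nonneg_left h16 (show (0 : ℝ) ≤ n by linarith)
                simp only [A]
                push_cast
                linarith
            _ ≤ _ := by
                rw [sum_const, nsmul_eq_mul, mul_comm]
                exact mul_le_mul_of_nonneg_left (Nat.cast_le.mpr (card_filter_le _ _))
                  (by positivity)
      have hphi : ∑ w ∈ P, φ w ≤ S0 n * T0 n * (2 * (1 / 16 : ℝ) ^ n * P.card) := by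
        calc ∑ w ∈ P, φ w ≤ ∑ w ∈ P, ∑ y ∈ near Xw (z : E n), ∑ c ∈ Xw,
              pairWeight n ‖w - (y + c)‖ ^ 2 := by
              refine sum_le_sum fun w _ => sum_le_sum fun y _ => ?_
              simp only [← hnorm, near]
              exact (sum_le_sum_of_subset_of_nonneg (filter_subset _ _)
                fun _ _ _ => sq_nonneg _).trans
                (sum_image_le_of_nonneg fun _ _ => sq_nonneg _)
          _ = ∑ y ∈ near Xw (z : E n), ∑ c ∈ Xw, ∑ w ∈ P, pairWeight n ‖w - (y + c)‖ ^ 2 := by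
              rw [sum_comm]; exact sum_congr rfl fun y _ => sum_comm
          _ ≤ ∑ _y ∈ near Xw (z : E n), ∑ _c ∈ Xw, 2 * (1 / 16 : ℝ) ^ n * P.card :=
              sum_le_sum fun y hy => sum_le_sum fun c hc => hpw _ (hgrid y hy c hc)
          _ ≤ _ := by
              rw [sum_const, nsmul_eq_mul, sum_const, nsmul_eq_mul, ← mul_assoc]
              exact mul_le_mul_of_nonneg_right (mul_le_mul hS hcard (Nat.cast_nonneg _)
                (S0_nonneg hn1)) (by positivity)
      have hGdP : Gd ⊆ P := filter_subset _ _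
      calc ∑ z' : Gd, meet p (S z) (S z')
          ≤ ∑ z' : Gd, (H * (if close z' then 1 else 0) + E6 * φ z') := sum_le_sum fun z' _ => hpt z'
        _ = ∑ w ∈ Gd, (H * (if close w then 1 else 0) + E6 * φ w) :=
            sum_coe_sort Gd fun w => H * (if close w then 1 else 0) + E6 * φ w
        _ ≤ ∑ w ∈ P, (H * (if close w then 1 else 0) + E6 * φ w) := by
            refine sum_le_sum_of_subset_of_nonneg hGdP fun w _ _ => ?_
            have : 0 ≤ E6 * φ w := mul_nonneg (by positivity) (hφ0 w)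
            split_ifs <;> linarith [Real.exp_pos (105 * A * S0 n)]
        _ = H * (P.filter close).card + E6 * ∑ w ∈ P, φ w := by
            rw [sum_add_distrib, ← mul_sum, ← mul_sum, sum_boole]
        _ ≤ H * (S0 n * T0 n * ((2 * r0 n) ^ n * P.card)) +
            E6 * (S0 n * T0 n * (2 * (1 / 16 : ℝ) ^ n * P.card)) :=
            add_le_add (mul_le_mul_of_nonneg_left hclose (Real.exp_pos _).le)
              (mul_le_mul_of_nonneg_left hphi (by positivity))
        _ = P.card * (Real.exp (105 * A * S0 n) * (S0 n * T0 n * (2 * r0 n) ^ n) +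
            12 * Real.exp (600 * A * Real.log n) * (S0 n * T0 n * (1 / 16 : ℝ) ^ n)) := by
            rw [hH, hE6]; ring
        _ ≤ _ := mul_le_mul_of_nonneg_left hL.total hN.le
    have hj := janson hp0.le hp1 As wt (fun i => mul_nonneg (inv_nonneg.mpr (prod_nonneg fun _ _ =>
      Nat.cast_nonneg _)) (pow_nonneg (inv_nonneg.mpr hp0.le) _))
      (μ := (P.card : ℝ) / 2) (D := 2 * (1 / 4 : ℝ) ^ n * (P.card : ℝ) ^ 2) (by positivity) hmu
      (by positivity) (by
        calc _ = ∑ z : Gd, ∑ z' : Gd, meet p (S z) (S z') := by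
              rw [Fintype.sum_sigma]
              refine sum_congr rfl fun z _ => ?_
              rw [sum_congr rfl fun x _ => Fintype.sum_sigma _, sum_comm]
              exact sum_congr rfl fun z' _ => hmeet z z'
          _ ≤ ∑ _z : Gd, (P.card : ℝ) * (2 * (1 / 4 : ℝ) ^ n) := sum_le_sum fun z _ => hrow z
          _ ≤ _ := by
              rw [sum_const, card_univ, Fintype.card_coe, nsmul_eq_mul]
              calc (Gd.card : ℝ) * (P.card * (2 * (1 / 4 : ℝ) ^ n))
                  ≤ P.card * (P.card * (2 * (1 / 4 : ℝ) ^ n)) :=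
                    mul_le_mul_of_nonneg_right (Nat.cast_le.mpr (card_filter_le _ _)) (by positivity)
                _ = _ := by ring)
    refine le_trans (expect_mono hp0.le hp1 fun w => ?_) (hj.trans (le_of_eq ?_))
    · split_ifs with h1 h2
      · exact le_rfl
      · exfalso
        refine h2 fun i _ hsubw => ?_
        obtain ⟨z, x⟩ := i
        obtain ⟨c, hc, hcb⟩ := h1.2 z (hgd z z.2).1 (hgd z z.2).2
        have hy : (z : E n) - c ∈ near Xw (z : E n) := by
          simp only [near, mem_filter, mem_image]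
          exact ⟨⟨c, hc, rfl⟩, hcb.1⟩
        obtain ⟨u, hu, hS⟩ := (D z).cover _ hy
        have hx : x.1 ⟨u, hu⟩ ∈ S z ⟨u, hu⟩ := Fintype.mem_piFinset.mp x.2 _
        exact absurd (hS _ hx).2
          (not_lt.mpr (hcb.2 _ (hsubw (mem_image_of_mem x.1 (mem_univ _)))))
      · exact zero_le_one
      · exact le_rfl
    · congr 1
      rw [neg_inj, div_pow, div_pow, one_pow]
      have h4 : (0 : ℝ) < 4 ^ n := by positivity
      field_simp
      norm_num
  -- union over windows
  set m := ⌊T0 n⌋₊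
  set Cand := G.powerset.filter fun Xw => Xw.card ≤ m with hCand
  have hcount : (Cand.card : ℝ) ≤ ((G.card : ℝ) + 1) ^ m := by
    have h : Cand.card ≤ ∑ k ∈ range (m + 1), G.card.choose k := by
      refine (card_le_card (t := (range (m + 1)).biUnion fun k => G.powersetCard k) ?_).trans
        (card_biUnion_le.trans (le_of_eq (sum_congr rfl fun k _ => card_powersetCard k G)))
      intro Xw hXw
      obtain ⟨h1, h2⟩ := mem_filter.mp hXw
      exact mem_biUnion.mpr ⟨Xw.card, mem_range.mpr (by omega),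
        mem_powersetCard.mpr ⟨mem_powerset.mp h1, rfl⟩⟩
    have h2 : (G.card + 1) ^ m = ∑ k ∈ range (m + 1), G.card ^ k * m.choose k := by
      rw [add_pow]; simp
    have h3 : Cand.card ≤ (G.card + 1) ^ m := by
      rw [h2]
      refine h.trans (sum_le_sum fun k hk => ?_)
      exact (Nat.choose_le_pow _ _).trans (Nat.le_mul_of_pos_right _
        (Nat.choose_pos (by rw [mem_range] at hk; omega)))
    exact_mod_cast h3
  calc expect p (fun w => if Bad P rep w then 1 else 0)
      ≤ expect p (fun w => ∑ Xw ∈ Cand, if P.card ≤ 2 * (P.filter (GoodProbe Xw)).card ∧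
          (∀ z ∈ P, GoodProbe Xw z → ∃ c ∈ Xw, z - c ∈ body0 rep w) then 1 else 0) := by
        refine expect_mono hp0.le hp1 fun w => ?_
        split_ifs with hb
        · obtain ⟨Xw, h1, h2, h3, h4⟩ := hb
          have hmem : Xw ∈ Cand := mem_filter.mpr
            ⟨mem_powerset.mpr fun c hc => (hG c).mpr (h1 c hc), Nat.le_floor h2⟩
          refine le_trans ?_ (single_le_sum (fun X _ => ?_) hmem)
          · rw [if_pos (And.intro h3 h4)]
          · split_ifs <;> norm_num
        · exact sum_nonneg fun X _ => by split_ifs <;> norm_num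
    _ = ∑ Xw ∈ Cand, expect p (fun w => if P.card ≤ 2 * (P.filter (GoodProbe Xw)).card ∧
          (∀ z ∈ P, GoodProbe Xw z → ∃ c ∈ Xw, z - c ∈ body0 rep w) then 1 else 0) :=
        expect_sum _ _
    _ ≤ ∑ _Xw ∈ Cand, Real.exp (-((4 : ℝ) ^ n / 16)) := sum_le_sum fun Xw hXw => by
        obtain ⟨h1, h2⟩ := mem_filter.mp hXw
        exact one Xw (fun c hc => (hG c).mp (mem_powerset.mp h1 hc))
          ((Nat.cast_le.mpr h2).trans (Nat.floor_le (T0_nonneg hn1)))
    _ ≤ Real.exp (4 * n * Real.log n * T0 n) * Real.exp (-((4 : ℝ) ^ n / 16)) := by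
        rw [sum_const, nsmul_eq_mul]
        refine mul_le_mul_of_nonneg_right (hcount.trans ?_) (Real.exp_pos _).le
        refine (pow_le_pow_left₀ (by positivity) ((add_le_add (hG2 n (by omega) P hP G hG).1 le_rfl).trans
          hL.gcard) m).trans ?_
        rw [← Real.exp_nat_mul, Real.exp_le_exp, mul_comm (m : ℝ)]
        exact mul_le_mul_of_nonneg_left (Nat.floor_le (T0_nonneg hn1)) (by positivity)
    _ ≤ Real.exp (-1) := by
        rw [← Real.exp_add, Real.exp_le_exp]
        linarith [hL.union]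
    _ < 1 / 2 := by linarith [Real.exp_neg_one_lt_d9]

end Vale.Agent.P230
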