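import Vale.Agent.P230.Defs

/-!
P230, section 9: expectations for Bernoulli subsets, Harris' inequality and weighted Janson bound.
-/

namespace Vale.Agent.P230

open Finset

variable {Slot : Type*} [Fintype Slot] {p : ℝ}

/-- The mass of a subset. -/
noncomputable def bmass (p : ℝ) (w : Finset Slot) : ℝ :=
  p ^ w.card * (1 - p) ^ (Fintype.card Slot - w.card)

lemma expect_eq (f : Finset Slot → ℝ) : expect p f = ∑ w, bmass p w * f w := rfl

lemma bmass_nonneg (hp0 : 0 ≤ p) (hp1 : p ≤ 1) (w : Finset Slot) : 0 ≤ bmass p w :=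
  mul_nonneg (pow_nonneg hp0 _) (pow_nonneg (sub_nonneg.2 hp1) _)

lemma expect_mono (hp0 : 0 ≤ p) (hp1 : p ≤ 1) {f g : Finset Slot → ℝ} (h : ∀ w, f w ≤ g w) :
    expect p f ≤ expect p g :=
  sum_le_sum fun w _ => mul_le_mul_of_nonneg_left (h w) (bmass_nonneg hp0 hp1 w)

lemma expect_congr {f g : Finset Slot → ℝ} (h : ∀ w, f w = g w) : expect p f = expect p g := by
  rw [funext h]

lemma expect_add (f g : Finset Slot → ℝ) :
    expect p (fun w => f w + g w) = expect p f + expect p g := by
  simp only [expect_eq, mul_add, sum_add_distrib]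

lemma expect_sub (f g : Finset Slot → ℝ) :
    expect p (fun w => f w - g w) = expect p f - expect p g := by
  simp only [expect_eq, mul_sub, sum_sub_distrib]

lemma expect_mul_left (c : ℝ) (f : Finset Slot → ℝ) :
    expect p (fun w => c * f w) = c * expect p f := by
  simp only [expect_eq, mul_sum, mul_left_comm c]

lemma expect_sum {ι : Type*} (s : Finset ι) (f : ι → Finset Slot → ℝ) :
    expect p (fun w => ∑ i ∈ s, f i w) = ∑ i ∈ s, expect p (f i) := by
  simp only [expect_eq, mul_sum]
  exact sum_comm

lemma sum_bmass (p : ℝ) : ∑ w : Finset Slot, bmass p w = 1 := by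
  have h := Finset.sum_pow_mul_eq_add_pow p (1 - p) (univ : Finset Slot)
  rw [powerset_univ, card_univ] at h
  unfold bmass
  rw [h, add_sub_cancel, one_pow]

lemma expect_const (c : ℝ) : expect p (fun _ : Finset Slot => c) = c := by
  rw [expect_eq, ← sum_mul, sum_bmass, one_mul]

variable [DecidableEq Slot]

lemma expect_mem (a : Slot) (f : Finset Slot → ℝ) :
    expect p (fun w => if a ∈ w then f w else 0) = p * expect p (fun w => f (insert a w)) := by
  have ha : a ∉ univ.erase a := notMem_erase a univ
  have hsplit : ∀ F : Finset Slot → ℝ, expect p F = ∑ w ∈ (univ.erase a).powerset,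
      (bmass p w * F w + bmass p (insert a w) * F (insert a w)) := fun F => by
    have hu : (univ : Finset (Finset Slot)) = (insert a (univ.erase a)).powerset := by
      rw [insert_erase (mem_univ a), powerset_univ]
    rw [expect_eq, sum_add_distrib, hu, sum_powerset_insert ha]
  rw [hsplit, hsplit, mul_sum]
  refine sum_congr rfl fun w hw => ?_
  have haw : a ∉ w := fun h => ha (mem_powerset.1 hw h)
  rw [if_neg haw, if_pos (mem_insert_self a w), insert_idem]
  have hlt : w.card < Fintype.card Slot := card_lt_univ_of_notMem haw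
  obtain ⟨k, hk⟩ := Nat.exists_eq_add_of_lt hlt
  simp only [bmass, card_insert_of_notMem haw, hk, add_assoc, Nat.add_sub_cancel_left,
    show w.card + (k + 1) - (w.card + 1) = k by omega, pow_succ]
  ring

lemma expect_subset_mul (A : Finset Slot) (f : Finset Slot → ℝ) :
    expect p (fun w => if A ⊆ w then f w else 0) =
      p ^ A.card * expect p (fun w => f (w ∪ A)) := by
  induction A using Finset.induction_on generalizing f with
  | empty => simp
  | insert a A ha ih =>
    rw [card_insert_of_notMem ha, pow_succ, mul_assoc,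
      expect_congr (g := fun w => if A ⊆ w then (if a ∈ w then f w else 0) else 0) fun w => by
        simp only [insert_subset_iff]
        by_cases h1 : a ∈ w <;> by_cases h2 : A ⊆ w <;> simp [h1, h2],
      ih]
    congr 1
    rw [expect_congr (g := fun w => if a ∈ w then f (w ∪ A) else 0) fun w => by
        simp only [mem_union, ha, or_false],
      expect_mem]
    congr 1
    refine expect_congr fun w => ?_
    rw [union_insert, insert_union]

lemma expect_subset (A : Finset Slot) :
    expect p (fun w => if A ⊆ w then 1 else 0) = p ^ A.card := by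
  rw [expect_subset_mul, expect_const, mul_one]

/-- Harris' inequality for two decreasing functions with values in the unit interval. -/
lemma harris (hp0 : 0 ≤ p) (hp1 : p ≤ 1) {F G : Finset Slot → ℝ} (hF : Antitone F)
    (hG : Antitone G) (hF1 : ∀ w, F w ≤ 1) (hG1 : ∀ w, G w ≤ 1) :
    expect p F * expect p G ≤ expect p (fun w => F w * G w) := by
  have h := fkg (f := fun w => 1 - F w) (g := fun w => 1 - G w) (μ := bmass p)
    (fun w => bmass_nonneg hp0 hp1 w) (fun w => sub_nonneg.2 (hF1 w))
    (fun w => sub_nonneg.2 (hG1 w)) (fun a b hab => sub_le_sub_left (hF hab) 1)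
    (fun a b hab => sub_le_sub_left (hG hab) 1) (fun a b => le_of_eq ?_)
  · rw [← expect_eq, ← expect_eq, ← expect_eq, sum_bmass, one_mul, expect_sub, expect_sub,
      expect_const, expect_congr (f := fun w => (1 - F w) * (1 - G w))
        (g := fun w => (1 - F w) - G w + F w * G w) fun w => by ring,
      expect_add, expect_sub, expect_sub, expect_const] at h
    linarith
  · have h1 := card_union_add_card_inter a b
    have h2 : (a ∪ b).card ≤ Fintype.card Slot := card_le_univ _
    have h3 : (a ∩ b).card ≤ Fintype.card Slot := card_le_univ _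
    have h4 : a.card ≤ Fintype.card Slot := card_le_univ _
    have h5 : b.card ≤ Fintype.card Slot := card_le_univ _
    simp only [bmass, inf_eq_inter, sup_eq_union]
    rw [mul_mul_mul_comm, ← pow_add, ← pow_add, mul_mul_mul_comm, ← pow_add, ← pow_add]
    congr 2 <;> omega

/-- **Weighted Janson inequality.** -/
theorem janson {Slot ι : Type*} [Fintype Slot] [DecidableEq Slot] [Fintype ι] {p : ℝ}
    (hp0 : 0 ≤ p) (hp1 : p ≤ 1) (As : ι → Finset Slot) (wt : ι → ℝ) (hw : ∀ i, 0 ≤ wt i)
    {μ D : ℝ} (hμ0 : 0 ≤ μ) (hμ : μ ≤ ∑ i, wt i * p ^ (As i).card) (hD0 : 0 < D)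
    (hD : ∑ i, ∑ j, (if Disjoint (As i) (As j) then 0
      else wt i * wt j * p ^ (As i ∪ As j).card) ≤ D) :
    expect p (fun w => if ∀ i, 0 < wt i → ¬ As i ⊆ w then 1 else 0) ≤
      Real.exp (-(μ ^ 2 / (2 * D))) := by
  classical
  set m := ∑ i, wt i * p ^ (As i).card with hm
  rcases hμ0.eq_or_lt with rfl | hμp
  · simp only [ne_eq, OfNat.ofNat_ne_zero, not_false_eq_true, zero_pow, zero_div, neg_zero,
      Real.exp_zero]
    refine (expect_mono hp0 hp1 fun w => ?_).trans_eq (expect_const 1)
    split_ifs <;> norm_num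
  have hm0 : 0 < m := lt_of_lt_of_le hμp hμ
  set X : Finset Slot → ℝ := fun w => ∑ i, if As i ⊆ w then wt i else 0 with hX
  have hX0 : ∀ w, 0 ≤ X w := fun w => sum_nonneg fun i _ => by split_ifs <;> simp [hw i]
  set f : ℝ → ℝ := fun l => expect p fun w => Real.exp (-(l * X w)) with hf
  set κ := D / m with hκ
  have hκ0 : 0 < κ := div_pos hD0 hm0
  have key : ∀ l, 0 ≤ l → m * Real.exp (-(l * κ)) * f l ≤
      expect p fun w => X w * Real.exp (-(l * X w)) := by
    intro l hl
    set T : ι → ι → Finset Slot → ℝ := fun i j w => if As j ⊆ w ∪ As i then wt j else 0 with hT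
    set Y : ι → Finset Slot → ℝ := fun i w =>
      ∑ j ∈ univ.filter (fun j => ¬ Disjoint (As i) (As j)), T i j w with hY
    set Z : ι → Finset Slot → ℝ := fun i w =>
      ∑ j ∈ univ.filter (fun j => Disjoint (As i) (As j)), if As j ⊆ w then wt j else 0 with hZ
    have hsplit : ∀ i w, X (w ∪ As i) = Y i w + Z i w := by
      intro i w
      rw [hX, hY, hZ]
      simp only
      rw [← sum_filter_add_sum_filter_not univ (fun j => ¬ Disjoint (As i) (As j))]
      congr 1
      simp only [not_not]
      refine sum_congr rfl fun j hj => ?_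
      have hd : Disjoint (As i) (As j) := (mem_filter.1 hj).2
      have e : As j ⊆ w ∪ As i ↔ As j ⊆ w := ⟨fun h a ha =>
        (mem_union.1 (h ha)).resolve_right fun h' => disjoint_left.1 hd h' ha,
        fun h => h.trans subset_union_left⟩
      simp only [e]
    have hEY : ∀ i, p ^ (As i).card * expect p (Y i) =
        ∑ j, if Disjoint (As i) (As j) then 0 else wt j * p ^ (As i ∪ As j).card := by
      intro i
      rw [hY, expect_sum, mul_sum, sum_filter]
      refine sum_congr rfl fun j _ => ?_
      by_cases hd : Disjoint (As i) (As j)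
      · simp [hd]
      rw [if_pos hd, if_neg hd, hT]
      simp only
      have e : ∀ w : Finset Slot, (if As j ⊆ w ∪ As i then wt j else 0) =
          wt j * if As j \ As i ⊆ w then 1 else 0 := fun w => by
        have : As j ⊆ w ∪ As i ↔ As j \ As i ⊆ w := by
          simp only [subset_iff, mem_sdiff, mem_union]
          exact ⟨fun h x hx => (h hx.1).resolve_right hx.2, fun h x hx => by
            by_cases hxi : x ∈ As i
            · exact Or.inr hxi
            · exact Or.inl (h ⟨hx, hxi⟩)⟩
        simp only [this, mul_ite, mul_one, mul_zero]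
      rw [expect_congr e, expect_mul_left, expect_subset, mul_left_comm, ← pow_add, add_comm,
        card_sdiff_add_card, union_comm]
    have hZle : ∀ i w, Z i w ≤ X w := fun i w =>
      sum_le_sum_of_subset_of_nonneg (filter_subset _ _) fun j _ _ => by
        split_ifs <;> simp [hw j]
    have hY0 : ∀ i w, 0 ≤ Y i w := fun i w => sum_nonneg fun j _ => by
      simp only [hT]; split_ifs <;> simp [hw j]
    have hZ0 : ∀ i w, 0 ≤ Z i w := fun i w => sum_nonneg fun j _ => by
      split_ifs <;> simp [hw j]
    have hmonoY : ∀ i, Antitone fun w => Real.exp (-(l * Y i w)) := fun i a b hab => by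
      refine Real.exp_le_exp.2 (neg_le_neg (mul_le_mul_of_nonneg_left ?_ hl))
      refine sum_le_sum fun j _ => ?_
      simp only [hT]
      by_cases h : As j ⊆ a ∪ As i
      · rw [if_pos h, if_pos (h.trans (union_subset_union hab subset_rfl))]
      · rw [if_neg h]; split_ifs <;> simp [hw j]
    have hmonoZ : ∀ i, Antitone fun w => Real.exp (-(l * Z i w)) := fun i a b hab => by
      refine Real.exp_le_exp.2 (neg_le_neg (mul_le_mul_of_nonneg_left ?_ hl))
      refine sum_le_sum fun j _ => ?_
      by_cases h : As j ⊆ a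
      · rw [if_pos h, if_pos (h.trans hab)]
      · rw [if_neg h]; split_ifs <;> simp [hw j]
    have hexp : ∀ i, Real.exp (-(l * expect p (Y i))) * f l ≤
        expect p fun w => Real.exp (-(l * X (w ∪ As i))) := by
      intro i
      have h1 : Real.exp (-(l * expect p (Y i))) ≤ expect p fun w => Real.exp (-(l * Y i w)) := by
        set a := expect p (Y i)
        have := expect_mono hp0 hp1 (f := fun w => Real.exp (-(l * a)) * (1 + l * a) -
          Real.exp (-(l * a)) * l * Y i w) (g := fun w => Real.exp (-(l * Y i w))) fun w => by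
          have h := mul_le_mul_of_nonneg_left (Real.add_one_le_exp (l * a - l * Y i w))
            (Real.exp_pos (-(l * a))).le
          rw [← Real.exp_add, show -(l * a) + (l * a - l * Y i w) = -(l * Y i w) by ring] at h
          linarith
        rw [expect_sub, expect_const, expect_mul_left] at this
        linarith
      have h2 : f l ≤ expect p fun w => Real.exp (-(l * Z i w)) :=
        expect_mono hp0 hp1 fun w =>
          Real.exp_le_exp.2 (neg_le_neg (mul_le_mul_of_nonneg_left (hZle i w) hl))
      have hle1 : ∀ {y : ℝ}, 0 ≤ y → Real.exp (-(l * y)) ≤ 1 := fun hy =>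
        Real.exp_le_one_iff.2 (neg_nonpos.2 (mul_nonneg hl hy))
      refine (mul_le_mul h1 h2 ?_ ?_).trans ((harris hp0 hp1 (hmonoY i) (hmonoZ i)
        (fun w => hle1 (hY0 i w)) (fun w => hle1 (hZ0 i w))).trans_eq (expect_congr fun w => ?_))
      · exact (expect_const (p := p) (0 : ℝ)).symm.trans_le
          (expect_mono hp0 hp1 fun w => (Real.exp_pos _).le)
      · exact (expect_const (p := p) (0 : ℝ)).symm.trans_le
          (expect_mono hp0 hp1 fun w => (Real.exp_pos _).le)
      · rw [← Real.exp_add, hsplit i w]
        congr 1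
        ring
    have hder : (expect p fun w => X w * Real.exp (-(l * X w))) =
        ∑ i, wt i * (p ^ (As i).card * expect p fun w => Real.exp (-(l * X (w ∪ As i)))) := by
      have e : ∀ w, X w * Real.exp (-(l * X w)) =
          ∑ i, wt i * if As i ⊆ w then Real.exp (-(l * X w)) else 0 := fun w => by
        show (∑ i, if As i ⊆ w then wt i else 0) * Real.exp (-(l * X w)) = _
        rw [sum_mul]
        refine sum_congr rfl fun i _ => ?_
        split_ifs <;> simp
      rw [expect_congr e, expect_sum]
      exact sum_congr rfl fun i _ => by rw [expect_mul_left, expect_subset_mul]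
    rw [hder]
    refine le_trans ?_ (sum_le_sum fun i _ => mul_le_mul_of_nonneg_left
      (mul_le_mul_of_nonneg_left (hexp i) (pow_nonneg hp0 _)) (hw i))
    have hf0 : 0 ≤ f l := (expect_const (p := p) (0 : ℝ)).symm.trans_le
      (expect_mono hp0 hp1 fun w => (Real.exp_pos _).le)
    simp only [← mul_assoc]
    rw [← sum_mul]
    refine mul_le_mul_of_nonneg_right ?_ hf0
    set q := Real.exp (-(l * κ))
    have hlow : ∀ i, wt i * p ^ (As i).card * (q * (1 + l * κ)) -
        q * l * (wt i * (p ^ (As i).card * expect p (Y i))) ≤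
        wt i * p ^ (As i).card * Real.exp (-(l * expect p (Y i))) := fun i => by
      have h := mul_le_mul_of_nonneg_left (Real.add_one_le_exp (l * κ - l * expect p (Y i)))
        (Real.exp_pos (-(l * κ))).le
      rw [← Real.exp_add,
        show -(l * κ) + (l * κ - l * expect p (Y i)) = -(l * expect p (Y i)) by ring] at h
      linarith [mul_le_mul_of_nonneg_left h (mul_nonneg (hw i) (pow_nonneg hp0 (As i).card))]
    refine le_trans ?_ (sum_le_sum fun i _ => hlow i)
    rw [sum_sub_distrib, ← sum_mul, ← mul_sum, ← hm]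
    have hsum : ∑ i, wt i * (p ^ (As i).card * expect p (Y i)) ≤ D := by
      refine le_trans (le_of_eq ?_) hD
      refine sum_congr rfl fun i _ => ?_
      rw [hEY, mul_sum]
      exact sum_congr rfl fun j _ => by split_ifs <;> ring
    have h := mul_le_mul_of_nonneg_left hsum (mul_nonneg (Real.exp_pos (-(l * κ))).le hl)
    rw [show q = Real.exp (-(l * κ)) from rfl]
    have e : Real.exp (-(l * κ)) * l * (m * κ) = Real.exp (-(l * κ)) * l * D := by
      rw [show m * κ = D from mul_div_cancel₀ D hm0.ne']
    linarith
  set G : ℝ → ℝ := fun l => f l * Real.exp (m / κ * (1 - Real.exp (-(l * κ)))) with hG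
  have hGd : ∀ l, HasDerivAt G
      ((- expect p fun w => X w * Real.exp (-(l * X w))) *
        Real.exp (m / κ * (1 - Real.exp (-(l * κ)))) +
        f l * (Real.exp (m / κ * (1 - Real.exp (-(l * κ)))) * (m * Real.exp (-(l * κ))))) l := by
    intro l
    have h1 : HasDerivAt f (- expect p fun w => X w * Real.exp (-(l * X w))) l := by
      have h : HasDerivAt (fun l => ∑ w, bmass p w * Real.exp (-(l * X w)))
          (∑ w, bmass p w * (Real.exp (-(l * X w)) * -(1 * X w))) l :=
        HasDerivAt.fun_sum fun w _ => (((hasDerivAt_id l).mul_const (X w)).neg.exp).const_mul _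
      refine h.congr_deriv ?_
      rw [expect_eq, ← sum_neg_distrib]
      exact sum_congr rfl fun w _ => by ring
    have h2 : HasDerivAt (fun l => Real.exp (m / κ * (1 - Real.exp (-(l * κ)))))
        (Real.exp (m / κ * (1 - Real.exp (-(l * κ)))) * (m * Real.exp (-(l * κ)))) l := by
      refine ((((hasDerivAt_id l).mul_const κ).neg.exp.const_sub 1).const_mul (m / κ)).exp.congr_deriv
        ?_
      simp only [id_eq, Pi.neg_apply]
      field_simp
    exact h1.mul h2
  have hanti : AntitoneOn G (Set.Ici 0) := antitoneOn_of_hasDerivWithinAt_nonpos (convex_Ici 0)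
    (fun l _ => (hGd l).continuousAt.continuousWithinAt) (fun l _ => (hGd l).hasDerivWithinAt)
    fun l hl => by
      rw [interior_Ici] at hl
      have h := key l (Set.mem_Ioi.1 hl).le
      have := mul_le_mul_of_nonneg_left h (Real.exp_pos (m / κ * (1 - Real.exp (-(l * κ))))).le
      linarith
  set l₀ := Real.log 2 / κ
  have hl₀ : 0 ≤ l₀ := div_nonneg (Real.log_nonneg one_le_two) hκ0.le
  have hle := hanti Set.self_mem_Ici hl₀ hl₀
  have hG0 : G 0 = 1 := by simp [hG, hf, expect_const]
  have hhalf : Real.exp (-(l₀ * κ)) = 1 / 2 := by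
    rw [div_mul_cancel₀ _ hκ0.ne', Real.exp_neg, Real.exp_log two_pos, one_div]
  rw [hG0] at hle
  simp only [hG, hhalf] at hle
  have hfl : f l₀ ≤ Real.exp (-(m / κ * (1 - 1 / 2))) := by
    rw [Real.exp_neg, inv_eq_one_div, le_div_iff₀ (Real.exp_pos _)]; exact hle
  refine le_trans (le_trans (expect_mono hp0 hp1 fun w => ?_) hfl) (Real.exp_le_exp.2 ?_)
  · by_cases h : ∀ i, 0 < wt i → ¬ As i ⊆ w
    · have hx : X w = 0 := sum_eq_zero fun i _ => by
        by_cases hi : As i ⊆ w
        · rw [if_pos hi]
          exact le_antisymm (not_lt.1 fun hpos => h i hpos hi) (hw i)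
        · rw [if_neg hi]
      rw [if_pos h, hx]; simp
    · rw [if_neg h]; exact (Real.exp_pos _).le
  · have e : m / κ * (1 - 1 / 2) = m ^ 2 / (2 * D) := by
      rw [hκ]; field_simp; ring
    rw [e]
    gcongr

end Vale.Agent.P230
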