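import Vale.Agent.P230.Statement

/-!
P230: lattice coverings are locally finite coverings of density at most vol K / covolume, so thetaT <= thetaL.
-/

namespace Vale.Agent.P230

open MeasureTheory Filter Topology
open scoped ENNReal Pointwise

namespace LatticeAux

variable {n : ℕ}

/-- The cube. -/
def cube (n : ℕ) (R : ℝ) : Set (EuclideanSpace ℝ (Fin n)) := {x | ∀ i, |x i| ≤ R}

lemma volume_cube {R : ℝ} (hR : 0 ≤ R) : volume (cube n R) = ENNReal.ofReal ((2 * R) ^ n) := by
  have h : cube n R = WithLp.ofLp ⁻¹' (Set.Icc (fun _ => -R) (fun _ => R)) := by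
    ext x
    simp [cube, Set.mem_Icc, Pi.le_def, abs_le, forall_and]
  rw [h, (PiLp.volume_preserving_ofLp (Fin n)).measure_preimage measurableSet_Icc.nullMeasurableSet,
    Real.volume_Icc_pi]
  rw [ENNReal.ofReal_pow (by linarith : (0 : ℝ) ≤ 2 * R)]
  simp [two_mul]

lemma isBounded_cube (R : ℝ) : Bornology.IsBounded (cube n R) := by
  have h : cube n R ⊆ Metric.closedBall 0 (√(n * R ^ 2)) := by
    intro x hx
    rw [Metric.mem_closedBall, dist_zero_right, EuclideanSpace.norm_eq]
    refine Real.sqrt_le_sqrt ?_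
    calc ∑ i, ‖x i‖ ^ 2 ≤ ∑ _i : Fin n, R ^ 2 := by
          gcongr with i
          simpa using hx i
      _ = n * R ^ 2 := by simp
  exact Metric.isBounded_closedBall.subset h

variable (L : Submodule ℤ (EuclideanSpace ℝ (Fin n))) [DiscreteTopology L] [IsZLattice ℝ L]

lemma finite_inter_cube (R : ℝ) :
    ((L : Set (EuclideanSpace ℝ (Fin n))) ∩ cube n R).Finite := by
  let b := (Module.Free.chooseBasis ℤ L).ofZLatticeBasis ℝ L
  have h : (L : Set (EuclideanSpace ℝ (Fin n))) = Submodule.span ℤ (Set.range b) := by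
    rw [(Module.Free.chooseBasis ℤ L).ofZLatticeBasis_span ℝ]
  rw [Set.inter_comm, h]
  exact ZSpan.setFinite_inter b (isBounded_cube R)

/-- Counting bound: the cells of the points in a cube lie in a slightly larger cube. -/
lemma count_le : ∃ D : ℝ, 0 ≤ D ∧ ∀ R : ℝ, 0 ≤ R →
    (((L : Set (EuclideanSpace ℝ (Fin n))) ∩ cube n R).encard : ℝ≥0∞) *
      ENNReal.ofReal (ZLattice.covolume L) ≤ ENNReal.ofReal ((2 * (R + D)) ^ n) := by
  classical
  let b₀ := Module.Free.chooseBasis ℤ L
  set F : Set (EuclideanSpace ℝ (Fin n)) := ZSpan.fundamentalDomain (b₀.ofZLatticeBasis ℝ L) with hF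
  have hfd : IsAddFundamentalDomain L F volume := ZLattice.isAddFundamentalDomain b₀ volume
  have hb : Bornology.IsBounded F := ZSpan.fundamentalDomain_isBounded _
  obtain ⟨D₀, hD₀⟩ := hb.exists_norm_le
  refine ⟨max D₀ 0, le_max_right _ _, fun R hR => ?_⟩
  have hvol : ENNReal.ofReal (ZLattice.covolume L) = volume F := by
    rw [ZLattice.covolume_eq_measure_fundamentalDomain L volume hfd, measureReal_def,
      ENNReal.ofReal_toReal hb.measure_lt_top.ne]
  set T := (finite_inter_cube L R).toFinset with hT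
  rw [(finite_inter_cube L R).encard_eq_coe_toFinset_card, ← hT, ← volume_cube (by positivity), hvol]
  have hdis : Set.Pairwise (T : Set (EuclideanSpace ℝ (Fin n)))
      (fun u v => AEDisjoint volume (u +ᵥ F) (v +ᵥ F)) := by
    intro u hu v hv huv
    have hu' : u ∈ L := by simp [hT] at hu; exact hu.1
    have hv' : v ∈ L := by simp [hT] at hv; exact hv.1
    exact hfd.aedisjoint (i := ⟨u, hu'⟩) (j := ⟨v, hv'⟩) (fun h => huv (congrArg Subtype.val h))
  have hsub : (⋃ v ∈ T, v +ᵥ F) ⊆ cube n (R + max D₀ 0) := by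
    intro x hx
    simp only [Set.mem_iUnion, exists_prop] at hx
    obtain ⟨v, hv, f, hf, rfl⟩ := hx
    intro i
    have h1 : |v i| ≤ R := by simp [hT] at hv; exact hv.2 i
    have h2 : |f i| ≤ D₀ := (PiLp.norm_apply_le f i).trans (hD₀ f hf)
    have h3 := abs_add_le (v i) (f i)
    have h4 := le_max_left D₀ 0
    simp only [vadd_eq_add, PiLp.add_apply]
    linarith
  have hm : ∀ v ∈ T, NullMeasurableSet (v +ᵥ F) volume := fun v _ =>
    ((ZSpan.fundamentalDomain_measurableSet _).const_vadd v).nullMeasurableSet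
  calc ((T.card : ℕ∞) : ℝ≥0∞) * volume F = ∑ v ∈ T, volume (v +ᵥ F) := by
        simp [measure_vadd]
    _ = volume (⋃ v ∈ T, v +ᵥ F) := (measure_biUnion_finset₀ hdis hm).symm
    _ ≤ _ := measure_mono hsub

lemma limsup_count_le :
    limsup (fun R : ℝ => (((L : Set (EuclideanSpace ℝ (Fin n))) ∩ cube n R).encard : ℝ≥0∞) /
      ENNReal.ofReal ((2 * R) ^ n)) atTop ≤ ENNReal.ofReal (1 / ZLattice.covolume L) := by
  obtain ⟨D, hD, h⟩ := count_le L
  have hc : 0 < ZLattice.covolume L := ZLattice.covolume_pos L volume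
  have hev : ∀ᶠ R : ℝ in atTop,
      (((L : Set (EuclideanSpace ℝ (Fin n))) ∩ cube n R).encard : ℝ≥0∞) / ENNReal.ofReal ((2 * R) ^ n)
        ≤ ENNReal.ofReal ((1 + D / R) ^ n / ZLattice.covolume L) := by
    filter_upwards [eventually_gt_atTop (0 : ℝ)] with R hR
    have h2 : (0 : ℝ) < (2 * R) ^ n := by positivity
    have h3 := h R hR.le
    rw [← ENNReal.le_div_iff_mul_le (Or.inl (by simp [hc])) (Or.inl ENNReal.ofReal_ne_top),
      ← ENNReal.ofReal_div_of_pos hc] at h3
    refine (ENNReal.div_le_div_right h3 _).trans (le_of_eq ?_)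
    rw [← ENNReal.ofReal_div_of_pos h2]
    congr 1
    rw [show 1 + D / R = (2 * (R + D)) / (2 * R) by field_simp, div_pow, div_right_comm]
  refine (limsup_le_limsup hev).trans (le_of_eq ?_)
  apply Tendsto.limsup_eq
  refine ENNReal.tendsto_ofReal ?_
  have := ((tendsto_const_nhds (x := (1 : ℝ))).add
    (tendsto_const_nhds.div_atTop (tendsto_id (α := ℝ)) : Tendsto (fun R : ℝ => D / R) atTop (𝓝 0))).pow n
  simpa using this.div_const (ZLattice.covolume L)

end LatticeAux

open LatticeAux

/-- A covering by a full rank lattice has translative density at most vol K / covolume. -/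
theorem coverDensity_lattice_le {n : ℕ} (K : Set (EuclideanSpace ℝ (Fin n))) (hK : volume K ≠ ⊤)
    (L : Submodule ℤ (EuclideanSpace ℝ (Fin n))) [DiscreteTopology L] [IsZLattice ℝ L] :
    coverDensity K (L : Set (EuclideanSpace ℝ (Fin n)))
      ≤ ENNReal.ofReal ((volume K).toReal / ZLattice.covolume L) := by
  calc coverDensity K (L : Set (EuclideanSpace ℝ (Fin n)))
      ≤ volume K * ENNReal.ofReal (1 / ZLattice.covolume L volume) := by
        exact mul_le_mul' le_rfl (by simpa [cube] using limsup_count_le L)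
    _ = _ := by
        rw [div_eq_mul_one_div (volume K).toReal, ENNReal.ofReal_mul ENNReal.toReal_nonneg,
          ENNReal.ofReal_toReal hK]

/-- The translative covering density is at most the lattice covering density. -/
theorem thetaT_le_thetaL {n : ℕ} (K : Set (EuclideanSpace ℝ (Fin n))) (hK : volume K ≠ ⊤) :
    thetaT K ≤ thetaL K := by
  refine le_iInf fun L => le_iInf fun hd => le_iInf fun hz => le_iInf fun hcov => ?_
  refine le_trans ?_ (coverDensity_lattice_le K hK L)
  exact iInf_le_of_le (L : Set (EuclideanSpace ℝ (Fin n)))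
    (iInf_le_of_le (fun R => finite_inter_cube L R) (iInf_le_of_le hcov le_rfl))

end Vale.Agent.P230
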