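import Vale.Agent.P230.Defs
import Vale.Agent.P230.Cap
import Vale.Agent.P230.Grid
import Vale.Agent.P230.Janson

/-!
P230, section 4: the random body keeps half of the probes with probability at least one half,
and then it has large volume.
-/

namespace Vale.Agent.P230

open MeasureTheory Finset
open scoped RealInnerProductSpace Classical Pointwise ENNReal

variable {n : ℕ}


lemma lam_excl_le_one (hn : 2 ≤ n) {y : E n} (hy : ‖y‖ ≤ 1) : lam (excl y) ≤ 1 := by
  refine (lam_excl hn hy).trans (Real.exp_le_one_iff.2 (neg_nonpos.2 ?_))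
  have h2 : (2 : ℝ) ≤ n := Nat.ofNat_le_cast.2 hn
  exact mul_nonneg (mul_nonneg (by norm_num [A]) (by linarith)) (by linarith)

lemma lam_excl_deep (hn : 2 ≤ n) {y : E n} (hy : ‖y‖ ≤ 1) (hd : 1 / 32 ≤ depth y) :
    lam (excl y) ≤ 1 / 16 := by
  refine (lam_excl hn hy).trans ?_
  have h2 : (2 : ℝ) ≤ n := Nat.ofNat_le_cast.2 hn
  have h : 1024 ≤ A * ((n : ℝ) - 1) * (1 - ‖y‖) := by
    have : (n : ℝ) * (1 - ‖y‖) ≤ 2 * ((n : ℝ) - 1) * (1 - ‖y‖) := by nlinarith
    unfold depth at hd
    unfold A
    linarith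
  rw [Real.exp_neg, inv_eq_one_div, div_le_div_iff₀ (Real.exp_pos _) (by norm_num), one_mul,
    one_mul]
  linarith [Real.add_one_le_exp (A * ((n : ℝ) - 1) * (1 - ‖y‖))]

lemma mem_excl_of_notMem_body0 {Slot : Type} {rep : Slot → E n} {w : Finset Slot} {y : E n}
    (hrep : ∀ s, ‖rep s‖ ≤ rho) (hy : ‖y‖ ≤ 1) (h : y ∉ body0 rep w) :
    ∃ s ∈ w, rep s ∈ excl y := by
  by_contra hc
  push Not at hc
  exact h ⟨hy, fun s hs => not_lt.1 fun hlt => hc s hs ⟨hrep s, hlt⟩⟩

/-- The expected number of probes outside the body is at most their total count of slots. -/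
lemma expect_bad_le {Slot : Type} [Fintype Slot] {rep : Slot → E n} {p : ℝ} (hp0 : 0 ≤ p)
    (hp1 : p ≤ 1) (hrep : ∀ s, ‖rep s‖ ≤ rho) (P : Finset (E n)) (hP : ∀ y ∈ P, ‖y‖ ≤ 1) :
    expect p (fun w => ((P.filter fun y => y ∉ body0 rep w).card : ℝ)) ≤
      ∑ y ∈ P, cnt rep p (excl y) := by
  calc expect p (fun w => ((P.filter fun y => y ∉ body0 rep w).card : ℝ))
      ≤ expect p (fun w => ∑ y ∈ P, ∑ s ∈ univ.filter (fun s => rep s ∈ excl y),
          if s ∈ w then (1 : ℝ) else 0) := expect_mono hp0 hp1 fun w => by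
        rw [card_filter, Nat.cast_sum]
        refine sum_le_sum fun y hy => ?_
        by_cases hb : y ∈ body0 rep w
        · simp only [hb, not_true_eq_false, if_false, Nat.cast_zero]
          exact sum_nonneg fun s _ => by split_ifs <;> norm_num
        · obtain ⟨s, hs, hse⟩ := mem_excl_of_notMem_body0 hrep (hP y hy) hb
          simp only [hb, not_false_eq_true, if_true, Nat.cast_one]
          refine le_trans ?_ (single_le_sum (fun s _ => by split_ifs <;> norm_num)
            (mem_filter.2 ⟨mem_univ s, hse⟩))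
          rw [if_pos hs]
    _ = ∑ y ∈ P, cnt rep p (excl y) := by
        rw [expect_sum]
        refine sum_congr rfl fun y _ => ?_
        rw [expect_sum]
        simp only [expect_mem, expect_const, mul_one, sum_const, nsmul_eq_mul, cnt]
        exact mul_comm _ _

/-- With probability at least one half the body keeps half of the probes. -/
theorem expect_thin : ∃ n₀ : ℕ, ∀ n, n₀ ≤ n → ∀ P : Finset (E n), IsProbeSet P →
    ∀ Y : Finset (E n), P ⊆ Y → ∀ {Slot : Type} [Fintype Slot] (rep : Slot → E n) (p : ℝ),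
      0 < p → p ≤ 1 → (∀ s, ‖rep s‖ ≤ rho) →
      (∀ I ⊆ Y, I.Nonempty → lam (⋂ y ∈ I, excl y) / 2 ≤ cnt rep p (⋂ y ∈ I, excl y) ∧
        cnt rep p (⋂ y ∈ I, excl y) ≤ 2 * lam (⋂ y ∈ I, excl y)) →
      expect p (fun w => if 2 * (P.filter (· ∈ body0 rep w)).card < P.card then 1 else 0)
        ≤ 1 / 2 := by
  obtain ⟨n₀, hshell⟩ := card_shell_le
  refine ⟨max n₀ 2, fun n hn P hP Y hPY Slot _ rep p hp0 hp1 hrep hslot => ?_⟩
  have hn2 : 2 ≤ n := le_trans (le_max_right _ _) hn
  have hN : ∀ y ∈ P, ‖y‖ ≤ 1 := fun y hy => ((hP y).1 hy).2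
  have hcnt : ∀ y ∈ P, cnt rep p (excl y) ≤ 2 * lam (excl y) := fun y hy => by
    have h := (hslot {y} (singleton_subset_iff.2 (hPY hy)) (singleton_nonempty y)).2
    rwa [Finset.set_biInter_singleton] at h
  have hlam : ∑ y ∈ P, lam (excl y) ≤ (P.card : ℝ) / 8 := by
    rw [← sum_filter_add_sum_filter_not P (fun y => depth y < 1 / 32)]
    have h1 : ∑ y ∈ P.filter (fun y => depth y < 1 / 32), lam (excl y) ≤ (P.card : ℝ) / 16 := by
      refine le_trans ?_ (hshell n (le_trans (le_max_left _ _) hn) P hP)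
      exact (sum_le_card_nsmul _ _ 1 fun y hy =>
        lam_excl_le_one hn2 (hN y (mem_filter.1 hy).1)).trans_eq (by simp)
    have h2 : ∑ y ∈ P.filter (fun y => ¬depth y < 1 / 32), lam (excl y) ≤ (P.card : ℝ) / 16 := by
      refine (sum_le_card_nsmul _ _ (1 / 16 : ℝ) fun y hy =>
        lam_excl_deep hn2 (hN y (mem_filter.1 hy).1) (not_lt.1 (mem_filter.1 hy).2)).trans ?_
      have hc : ((P.filter fun y => ¬depth y < 1 / 32).card : ℝ) ≤ P.card :=
        Nat.cast_le.2 (card_filter_le _ _)
      rw [nsmul_eq_mul]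
      linarith
    linarith
  have hbad : expect p (fun w => ((P.filter fun y => y ∉ body0 rep w).card : ℝ)) ≤
      (P.card : ℝ) / 4 := by
    refine (expect_bad_le hp0.le hp1 hrep P hN).trans ((sum_le_sum hcnt).trans ?_)
    rw [← mul_sum]
    linarith
  calc expect p (fun w => if 2 * (P.filter (· ∈ body0 rep w)).card < P.card then 1 else 0)
      ≤ expect p (fun w => 2 / (P.card : ℝ) * ((P.filter fun y => y ∉ body0 rep w).card : ℝ)) :=
        expect_mono hp0.le hp1 fun w => by
          have hsum := card_filter_add_card_filter_not (s := P) fun y => y ∈ body0 rep w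
          split_ifs with h
          · have hpos : (0 : ℝ) < P.card := Nat.cast_pos.2 (by omega)
            rw [div_mul_eq_mul_div, le_div_iff₀ hpos, one_mul]
            have h' : P.card ≤ 2 * (P.filter fun y => y ∉ body0 rep w).card := by omega
            exact_mod_cast h'
          · positivity
    _ ≤ 2 / (P.card : ℝ) * ((P.card : ℝ) / 4) := by
        rw [expect_mul_left]
        exact mul_le_mul_of_nonneg_left hbad (by positivity)
    _ ≤ 1 / 2 := by
        rcases eq_or_ne (P.card : ℝ) 0 with h | h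
        · simp [h]
        · field_simp
          norm_num

lemma rho_le_two : rho ≤ 2 := by
  rw [rho, Real.sqrt_le_left zero_le_two]
  norm_num [A]

section body

variable {Slot : Type} {rep : Slot → E n}

lemma body0_eq (w : Finset Slot) :
    body0 rep w = Metric.closedBall 0 1 ∩ ⋂ s ∈ w, {y | ⟪rep s, y⟫ ≤ 1} := by
  ext y; simp [body0]

lemma isCompact_body0 (w : Finset Slot) : IsCompact (body0 rep w) := by
  rw [body0_eq]
  exact (isCompact_closedBall _ _).inter_right
    (isClosed_biInter fun s _ => isClosed_le (by fun_prop) continuous_const)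

lemma convex_body0 (w : Finset Slot) : Convex ℝ (body0 rep w) := by
  rw [body0_eq]
  exact (convex_closedBall _ _).inter
    (convex_iInter₂ fun s _ => convex_halfSpace_le (innerSL ℝ (rep s)).toLinearMap.isLinear 1)

lemma closedBall_subset_body0 (hrep : ∀ s, ‖rep s‖ ≤ rho) (w : Finset Slot) :
    Metric.closedBall (0 : E n) (1 / 2) ⊆ body0 rep w := by
  intro y hy
  rw [mem_closedBall_zero_iff] at hy
  refine ⟨by linarith, fun s _ => (real_inner_le_norm _ _).trans ?_⟩
  calc ‖rep s‖ * ‖y‖ ≤ 2 * (1 / 2) :=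
        mul_le_mul ((hrep s).trans rho_le_two) hy (norm_nonneg _) zero_le_two
    _ = 1 := by norm_num

/-- A thickening of a point of the body lies in a dilate of the body. -/
lemma cell_subset_smul_body0 (hrep : ∀ s, ‖rep s‖ ≤ rho) (w : Finset Slot) {g : E n}
    (hg : g ∈ body0 rep w) :
    cell g ⊆ (1 + 2 * (eta n * √n)) • body0 rep w := by
  intro x hx
  have ht : 0 ≤ 2 * (eta n * √n) := mul_nonneg zero_le_two (mul_nonneg (eta_nonneg n) (by positivity))
  have hq : x - g ∈ (2 * (eta n * √n)) • body0 rep w := by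
    refine Set.smul_set_mono (closedBall_subset_body0 hrep w) ?_
    rw [smul_closedBall _ _ (by norm_num), smul_zero, mem_closedBall_zero_iff,
      Real.norm_of_nonneg ht]
    linarith [norm_sub_le_of_mem_cell hx]
  rw [(convex_body0 w).add_smul zero_le_one ht, one_smul, ← add_sub_cancel g x]
  exact Set.add_mem_add hg hq

end body

lemma dilation_pow_le (hn : 12 ≤ n) :
    ((1 + 2 * (eta n * √n)) * (1 + delta n)) ^ n ≤ 2 := by
  have hn' : (12 : ℝ) ≤ n := Nat.ofNat_le_cast.2 hn
  have he := eta_nonneg n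
  have hs : eta n * √n ≤ ((n : ℝ) ^ 2)⁻¹ := by
    have h1 : √(n : ℝ) ≤ n := Real.sqrt_le_self_iff.2 (Or.inr (by linarith))
    calc eta n * √n ≤ ((n : ℝ) ^ 3)⁻¹ * n := mul_le_mul_of_nonneg_left h1 he
      _ = ((n : ℝ) ^ 2)⁻¹ := by field_simp
  have hb : (1 + 2 * (eta n * √n)) * (1 + delta n) ≤ Real.exp (6 * ((n : ℝ) ^ 2)⁻¹) := by
    calc (1 + 2 * (eta n * √n)) * (1 + delta n)
        ≤ Real.exp (2 * (eta n * √n)) * Real.exp (delta n) := by
          refine mul_le_mul ?_ ?_ (by unfold delta; positivity) (Real.exp_pos _).le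
          · linarith [Real.add_one_le_exp (2 * (eta n * √n))]
          · linarith [Real.add_one_le_exp (delta n)]
      _ ≤ Real.exp (6 * ((n : ℝ) ^ 2)⁻¹) := by
          rw [← Real.exp_add]
          exact Real.exp_le_exp.2 (by unfold delta; linarith)
  calc ((1 + 2 * (eta n * √n)) * (1 + delta n)) ^ n
      ≤ Real.exp (6 * ((n : ℝ) ^ 2)⁻¹) ^ n :=
        pow_le_pow_left₀ (by unfold delta; positivity) hb n
    _ = Real.exp (6 / n) := by
        rw [← Real.exp_nat_mul]
        congr 1
        field_simp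
    _ ≤ Real.exp (Real.log 2) := by
        refine Real.exp_le_exp.2 ?_
        have : (6 : ℝ) / n ≤ 1 / 2 := by
          rw [div_le_iff₀ (by linarith)]; linarith
        linarith [Real.log_two_gt_d9]
    _ = 2 := Real.exp_log two_pos

/-- A body that keeps half of the probes is a convex body of large volume. -/
theorem body_of_thick : ∃ n₀ : ℕ, ∀ n, n₀ ≤ n → ∀ P : Finset (E n), IsProbeSet P →
    ∀ {Slot : Type} [Fintype Slot] (rep : Slot → E n), (∀ s, ‖rep s‖ ≤ rho) →
      ∀ w : Finset Slot, P.card ≤ 2 * (P.filter (· ∈ body0 rep w)).card →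
        IsCompact ((1 + delta n)⁻¹ • body0 rep w) ∧ Convex ℝ ((1 + delta n)⁻¹ • body0 rep w) ∧
        (interior ((1 + delta n)⁻¹ • body0 rep w)).Nonempty ∧
        volume (Metric.ball (0 : E n) 1) / 8 ≤ volume ((1 + delta n)⁻¹ • body0 rep w) := by
  obtain ⟨n₀, hgrid⟩ := vol_grid_le
  refine ⟨max n₀ 12, fun n hn P hP Slot _ rep hrep w hthick => ?_⟩
  have hn12 : 12 ≤ n := le_trans (le_max_right _ _) hn
  have ht : 0 ≤ eta n * √n := mul_nonneg (eta_nonneg n) (Real.sqrt_nonneg _)
  have hd : (0 : ℝ) < 1 + delta n := by unfold delta; linarith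
  set c := (1 + delta n)⁻¹
  have hc : 0 < c := inv_pos.2 hd
  refine ⟨(isCompact_body0 w).smul c, (convex_body0 w).smul c, ?_, ?_⟩
  · rw [interior_smul₀ hc.ne']
    exact ⟨c • 0, Set.smul_mem_smul_set (interior_maximal
      (Metric.ball_subset_closedBall.trans (closedBall_subset_body0 hrep w)) Metric.isOpen_ball
      (Metric.mem_ball_self (by norm_num)))⟩
  set T := P.filter (· ∈ body0 rep w)
  set s := 1 + 2 * (eta n * √n) with hs
  have hs0 : 0 < s := by rw [hs]; linarith
  have hunion : ENNReal.ofReal (eta n ^ n * T.card) ≤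
      ENNReal.ofReal (s ^ n) * volume (body0 rep w) := by
    have h : volume (⋃ g ∈ T, cell g) ≤ volume (s • body0 rep w) :=
      measure_mono (Set.iUnion₂_subset fun g hg =>
        cell_subset_smul_body0 hrep w (mem_filter.1 hg).2)
    rw [measure_biUnion_finset (fun g hg g' hg' hne => disjoint_cell
        ((hP g).1 (mem_filter.1 hg).1).1 ((hP g').1 (mem_filter.1 hg').1).1 hne)
        (fun g _ => measurableSet_cell g), Measure.addHaar_smul_of_nonneg _ hs0.le,
      finrank_euclideanSpace_fin] at h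
    simpa [volume_cell, ENNReal.ofReal_mul (pow_nonneg (eta_nonneg n) n), mul_comm] using h
  rw [Measure.addHaar_smul_of_nonneg _ hc.le, finrank_euclideanSpace_fin,
    ENNReal.div_le_iff (by norm_num) (by norm_num)]
  calc volume (Metric.ball (0 : E n) 1)
      ≤ ENNReal.ofReal (2 * eta n ^ n * P.card) :=
        hgrid n (le_trans (le_max_left _ _) hn) P hP
    _ ≤ ENNReal.ofReal (4 * (eta n ^ n * T.card)) := by
        refine ENNReal.ofReal_le_ofReal ?_
        have hPT : (P.card : ℝ) ≤ 2 * T.card := by exact_mod_cast hthick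
        linarith [mul_le_mul_of_nonneg_left hPT (pow_nonneg (eta_nonneg n) n)]
    _ = 4 * ENNReal.ofReal (eta n ^ n * T.card) := by
        rw [ENNReal.ofReal_mul (by norm_num)]; norm_num
    _ ≤ 4 * (ENNReal.ofReal (s ^ n) * volume (body0 rep w)) := by gcongr
    _ ≤ 4 * (ENNReal.ofReal (2 * c ^ n) * volume (body0 rep w)) := by
        gcongr
        rw [inv_pow, ← div_eq_mul_inv, le_div_iff₀ (pow_pos hd n), ← mul_pow]
        exact dilation_pow_le hn12
    _ = ENNReal.ofReal (c ^ n) * volume (body0 rep w) * 8 := by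
        rw [ENNReal.ofReal_mul zero_le_two, ENNReal.ofReal_ofNat]
        ring

end Vale.Agent.P230
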