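import Vale.Agent.P230.Defs

/-!
P230, section 2: discretisation of the intensity measure by finitely many slots.
-/

namespace Vale.Agent.P230

open MeasureTheory Finset
open scoped RealInnerProductSpace

namespace SlotsAux

variable {n : ℕ}

lemma one_lt_rho : 1 < rho := by
  rw [rho]; apply Real.lt_sqrt_of_sq_lt
  norm_num [A]

/-- The normalising cap of `lam`. -/
def base (n : ℕ) : Set (E n) := {v | ‖v‖ ≤ rho ∧ ∃ h : 0 < n, 1 < v ⟨0, h⟩}

lemma base_subset : base n ⊆ Metric.closedBall 0 rho := fun v hv => by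
  simpa [Metric.mem_closedBall, dist_zero_right] using hv.1

lemma base_pos (hn : 2 ≤ n) : 0 < (volume (base n)).toReal := by
  have h0 : 0 < n := by omega
  set c : E n := EuclideanSpace.single ⟨0, h0⟩ ((1 + rho) / 2) with hc
  have hr := one_lt_rho
  have hsub : Metric.ball c ((rho - 1) / 2) ⊆ base n := by
    intro v hv
    rw [Metric.mem_ball, dist_eq_norm] at hv
    have hcn : ‖c‖ = (1 + rho) / 2 := by
      rw [hc, PiLp.norm_single]; simp; linarith
    refine ⟨?_, h0, ?_⟩
    · have := norm_le_norm_add_norm_sub' v c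
      linarith
    · have h1 : |(v - c) ⟨0, h0⟩| ≤ ‖v - c‖ := PiLp.norm_apply_le (v - c) _
      have h2 : (v - c) ⟨0, h0⟩ = v ⟨0, h0⟩ - (1 + rho) / 2 := by simp [hc]
      rw [h2, abs_le] at h1
      linarith
  refine ENNReal.toReal_pos (ne_of_gt ?_) ?_
  · exact lt_of_lt_of_le (Metric.measure_ball_pos _ _ (by linarith)) (measure_mono hsub)
  · exact ((measure_mono base_subset).trans_lt measure_closedBall_lt_top).ne

lemma lam_eq (S : Set (E n)) :
    lam S = (volume S).toReal / (volume (base n)).toReal := rfl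

/-- The atom of the points of the ball that lie in exactly the caps indexed by `J`. -/
def atom (Y J : Finset (E n)) : Set (E n) :=
  {v | ‖v‖ ≤ rho} ∩ {v | ∀ y ∈ Y, (v ∈ excl y ↔ y ∈ J)}

lemma measurableSet_excl (y : E n) : MeasurableSet (excl y) := by
  have h1 : MeasurableSet {v : E n | ‖v‖ ≤ rho} := measurableSet_le (by fun_prop) (by fun_prop)
  have h2 : MeasurableSet {v : E n | 1 < ⟪v, y⟫} := measurableSet_lt (by fun_prop) (by fun_prop)
  exact h1.inter h2

lemma measurableSet_atom (Y J : Finset (E n)) : MeasurableSet (atom Y J) := by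
  refine MeasurableSet.inter (measurableSet_le (by fun_prop) (by fun_prop)) ?_
  have : {v : E n | ∀ y ∈ Y, (v ∈ excl y ↔ y ∈ J)} = ⋂ y ∈ Y, {v | v ∈ excl y ↔ y ∈ J} := by
    ext v; simp
  rw [this]
  refine Y.measurableSet_biInter fun y _ => ?_
  by_cases h : y ∈ J
  · simpa [h] using measurableSet_excl y
  · simpa [h, Set.compl_def] using (measurableSet_excl y).compl

lemma volume_atom_ne_top (Y J : Finset (E n)) : volume (atom Y J) ≠ ⊤ := by
  refine ((measure_mono ?_).trans_lt (measure_closedBall_lt_top (x := (0 : E n)) (r := rho))).ne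
  exact fun v hv => by simpa [Metric.mem_closedBall, dist_zero_right] using hv.1

lemma atom_disjoint (Y : Finset (E n)) {J J' : Finset (E n)} (hJ : J ⊆ Y) (hJ' : J' ⊆ Y)
    (hne : J ≠ J') : Disjoint (atom Y J) (atom Y J') := by
  rw [Set.disjoint_left]
  intro v hv hv'
  apply hne
  ext y
  exact ⟨fun h => (hv'.2 y (hJ h)).1 ((hv.2 y (hJ h)).2 h),
    fun h => (hv.2 y (hJ' h)).1 ((hv'.2 y (hJ' h)).2 h)⟩

/-- An intersection of caps is the disjoint union of the atoms above it. -/
lemma lam_inter_eq (Y I : Finset (E n)) (hI : I ⊆ Y) (hne : I.Nonempty) :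
    lam (⋂ y ∈ I, excl y) = ∑ J ∈ Y.powerset with I ⊆ J, lam (atom Y J) := by
  classical
  have hU : (⋂ y ∈ I, excl y) = ⋃ J ∈ Y.powerset.filter (I ⊆ ·), atom Y J := by
    ext v
    simp only [Set.mem_iInter, Set.mem_iUnion, mem_filter, mem_powerset, exists_prop]
    constructor
    · intro h
      obtain ⟨y, hy⟩ := hne
      refine ⟨Y.filter (fun y => v ∈ excl y),
        ⟨filter_subset _ _, fun y hy => mem_filter.2 ⟨hI hy, h y hy⟩⟩, (h y hy).1, fun y hy => ?_⟩
      simp [hy]
    · rintro ⟨J, ⟨-, hIJ⟩, hv⟩ y hy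
      exact (hv.2 y (hI hy)).2 (hIJ hy)
  simp only [lam_eq]
  rw [← sum_div, hU, measure_biUnion_finset ?_ (fun J _ => measurableSet_atom Y J),
    ENNReal.toReal_sum (fun J _ => volume_atom_ne_top Y J)]
  intro J hJ J' hJ' h
  simp only [coe_filter, mem_powerset, Set.mem_setOf_eq] at hJ hJ'
  exact atom_disjoint Y hJ.1 hJ'.1 h

end SlotsAux

open SlotsAux

/-- Finitely many slots reproduce all intersections of the caps within a factor two. -/
theorem exists_slots {n : ℕ} (hn : 2 ≤ n) (Y : Finset (E n)) :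
    ∃ (Slot : Type) (_ : Fintype Slot) (rep : Slot → E n) (p : ℝ), 0 < p ∧ p ≤ 1 ∧
      (∀ s, ‖rep s‖ ≤ rho) ∧
      ∀ I ⊆ Y, I.Nonempty → lam (⋂ y ∈ I, excl y) / 2 ≤ cnt rep p (⋂ y ∈ I, excl y) ∧
        cnt rep p (⋂ y ∈ I, excl y) ≤ 2 * lam (⋂ y ∈ I, excl y) := by
  classical
  set m : Finset (E n) → ℝ := fun J => lam (atom Y J) with hm
  have hm0 : ∀ J, 0 ≤ m J := fun J => div_nonneg ENNReal.toReal_nonneg ENNReal.toReal_nonneg
  have hmem : ∀ J : Finset (E n), ∃ v : E n, ‖v‖ ≤ rho ∧ (0 < m J → v ∈ atom Y J) := by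
    intro J
    by_cases h : 0 < m J
    · have hne : (atom Y J).Nonempty := by
        refine nonempty_of_measure_ne_zero (μ := volume) fun h0 => ?_
        simp [hm, lam_eq, h0] at h
      obtain ⟨v, hv⟩ := hne
      exact ⟨v, hv.1, fun _ => hv⟩
    · exact ⟨0, by simpa using le_of_lt (zero_lt_one.trans one_lt_rho), fun h' => absurd h' h⟩
  choose pt hpt1 hpt2 using hmem
  set M : ℕ := 1 + ∑ J ∈ Y.powerset, ⌈(m J)⁻¹⌉₊ with hM
  have hMR : (0 : ℝ) < M := by rw [hM]; positivity
  set num : Finset (E n) → ℕ := fun J => ⌈(M : ℝ) * m J⌉₊ with hnum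
  have hbound : ∀ J ∈ Y.powerset, (M : ℝ) * m J ≤ num J ∧ (num J : ℝ) ≤ 2 * (M * m J) := by
    intro J hJ
    refine ⟨Nat.le_ceil _, ?_⟩
    rcases (hm0 J).eq_or_lt with h | h
    · simp [hnum, ← h]
    · have h1 : (m J)⁻¹ ≤ M := by
        refine (Nat.le_ceil _).trans ?_
        have := single_le_sum (fun K _ => Nat.zero_le (⌈(m K)⁻¹⌉₊)) hJ
        exact_mod_cast (show ⌈(m J)⁻¹⌉₊ ≤ M by simp only [hM]; omega)
      have h2 : 1 ≤ (M : ℝ) * m J := by
        have := mul_le_mul_of_nonneg_right h1 (hm0 J)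
        rwa [inv_mul_cancel₀ h.ne'] at this
      have h3 := Nat.ceil_lt_add_one (show (0 : ℝ) ≤ M * m J by positivity)
      simp only [hnum]; linarith
  let k : ℕ := Y.powerset.card
  let idx : Fin k → Finset (E n) := fun i => (Y.powerset.equivFin.symm i : Finset (E n))
  refine ⟨Σ i : Fin k, Fin (num (idx i)), inferInstance, fun s => pt (idx s.1), (M : ℝ)⁻¹,
    inv_pos.2 hMR, ?_, fun s => hpt1 _, fun I hI hne => ?_⟩
  · exact inv_le_one_of_one_le₀ (by exact_mod_cast (show 1 ≤ M by simp only [hM]; omega))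
  have hkey : ∀ s : (Σ i : Fin k, Fin (num (idx i))),
      pt (idx s.1) ∈ ⋂ y ∈ I, excl y ↔ I ⊆ idx s.1 := by
    intro s
    have hpos : 0 < m (idx s.1) := by
      rcases (hm0 (idx s.1)).eq_or_lt with h | h
      · exfalso
        have := s.2.2
        simp [hnum, ← h] at this
      · exact h
    have hat := hpt2 _ hpos
    simp only [Set.mem_iInter]
    exact ⟨fun h y hy => (hat.2 y (hI hy)).1 (h y hy), fun h y hy => (hat.2 y (hI hy)).2 (h hy)⟩
  have hcard : ((univ.filter fun s : (Σ i : Fin k, Fin (num (idx i))) =>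
      pt (idx s.1) ∈ ⋂ y ∈ I, excl y).card : ℕ) = ∑ J ∈ Y.powerset with I ⊆ J, num J := by
    rw [filter_congr (fun s _ => hkey s)]
    rw [show (univ.filter fun s : (Σ i : Fin k, Fin (num (idx i))) => I ⊆ idx s.1)
        = (univ.filter fun i => I ⊆ idx i).sigma (fun _ => univ) by ext ⟨i, j⟩; simp,
      card_sigma]
    simp only [card_univ, Fintype.card_fin, sum_filter]
    exact (Y.powerset.equivFin.symm.sum_comp (fun J => if I ⊆ (J : Finset (E n)) then num J else 0)).trans
      (sum_coe_sort Y.powerset (fun J => if I ⊆ J then num J else 0))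
  have hlam := lam_inter_eq Y I hI hne
  unfold cnt
  rw [filter_congr_decidable] at *
  rw [hcard, hlam, Nat.cast_sum, mul_sum, mul_sum, sum_div]
  constructor <;> refine sum_le_sum fun J hJ => ?_
  · have h := (hbound J (mem_filter.1 hJ).1).1
    have h0 := hm0 J
    calc lam (atom Y J) / 2 ≤ (M : ℝ)⁻¹ * (M * m J) := by
          rw [inv_mul_cancel_left₀ hMR.ne']; simp only [hm] at *; linarith
      _ ≤ (M : ℝ)⁻¹ * num J := mul_le_mul_of_nonneg_left h (inv_nonneg.2 hMR.le)
  · have h := (hbound J (mem_filter.1 hJ).1).2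
    calc (M : ℝ)⁻¹ * num J ≤ (M : ℝ)⁻¹ * (2 * (M * m J)) :=
          mul_le_mul_of_nonneg_left h (inv_nonneg.2 hMR.le)
      _ = 2 * lam (atom Y J) := by simp only [hm]; field_simp

end Vale.Agent.P230
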