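import Mathlib

/-!
P230: the translative and lattice covering densities and the target statements.
-/

namespace Vale.Agent.P230

open MeasureTheory Filter
open scoped ENNReal Pointwise

/-- The density of a family of translates of `K` with centres `X`, measured on the cubes `[-R,R]^n`,
overlaps counted. -/
noncomputable def coverDensity {n : ℕ} (K X : Set (EuclideanSpace ℝ (Fin n))) : ℝ≥0∞ :=
  volume K * limsup (fun R : ℝ =>
    ((X ∩ {x | ∀ i, |x i| ≤ R}).encard : ℝ≥0∞) / ENNReal.ofReal ((2 * R) ^ n)) atTop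

/-- The translative covering density: the infimum over locally finite coverings. -/
noncomputable def thetaT {n : ℕ} (K : Set (EuclideanSpace ℝ (Fin n))) : ℝ≥0∞ :=
  ⨅ (X : Set (EuclideanSpace ℝ (Fin n)))
    (_ : ∀ R : ℝ, (X ∩ {x | ∀ i, |x i| ≤ R}).Finite) (_ : K + X = Set.univ), coverDensity K X

/-- The lower bound: a convex body with translative covering density at least `c n log n`. -/
def LowerBound : Prop :=
  ∃ c : ℝ, 0 < c ∧ ∃ n₀ : ℕ, ∀ n : ℕ, n₀ ≤ n → ∃ K : Set (EuclideanSpace ℝ (Fin n)),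
    IsCompact K ∧ Convex ℝ K ∧ (interior K).Nonempty ∧
      ENNReal.ofReal (c * n * Real.log n) ≤ thetaT K

/-- The lattice covering density: the infimum over full rank lattices L with K + L the whole space. -/
noncomputable def thetaL {n : ℕ} (K : Set (EuclideanSpace ℝ (Fin n))) : ℝ≥0∞ :=
  ⨅ (L : Submodule ℤ (EuclideanSpace ℝ (Fin n))) (_ : DiscreteTopology L) (_ : IsZLattice ℝ L)
    (_ : K + (L : Set (EuclideanSpace ℝ (Fin n))) = Set.univ),
    ENNReal.ofReal ((volume K).toReal / ZLattice.covolume L)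

/-- The lower bound for lattice coverings. -/
def LatticeLowerBound : Prop :=
  ∃ c : ℝ, 0 < c ∧ ∃ n₀ : ℕ, ∀ n : ℕ, n₀ ≤ n → ∃ K : Set (EuclideanSpace ℝ (Fin n)),
    IsCompact K ∧ Convex ℝ K ∧ (interior K).Nonempty ∧
      ENNReal.ofReal (c * n * Real.log n) ≤ thetaL K

/-- The negation of a linear bound for all convex bodies in all dimensions. -/
def NotLinear : Prop :=
  ¬ ∃ C : ℝ, ∀ (n : ℕ) (K : Set (EuclideanSpace ℝ (Fin n))),
    IsCompact K → Convex ℝ K → (interior K).Nonempty → thetaT K ≤ ENNReal.ofReal (C * n)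

end Vale.Agent.P230
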