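import Vale.Agent.P230.Window
import Vale.Agent.P230.Retention
import Vale.Agent.P230.Fail
import Vale.Agent.P230.Slots
import Vale.Agent.P230.Statement
import Vale.Agent.P230.Lattice

/-!
P230, section 11: the lower bound of order `n log n` on the translative covering density.
-/

namespace Vale.Agent.P230

open MeasureTheory Finset Filter
open scoped ENNReal Pointwise

open scoped Classical in
/-- For large `n` some body admits no covering of density below `tlevel n`. -/
theorem exists_body : ∃ n₀ : ℕ, ∀ n, n₀ ≤ n → ∃ K : Set (E n),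
    IsCompact K ∧ Convex ℝ K ∧ (interior K).Nonempty ∧ ENNReal.ofReal (tlevel n) ≤ thetaT K := by
  obtain ⟨n₁, hfail⟩ := fail_lt_half
  obtain ⟨n₂, hthin⟩ := expect_thin
  obtain ⟨n₃, hbody⟩ := body_of_thick
  obtain ⟨n₄, hwindow⟩ := exists_window
  refine ⟨n₁ + n₂ + n₃ + n₄ + 2, fun n hn => ?_⟩
  obtain ⟨P, hP⟩ := exists_probeSet (n := n)
  obtain ⟨Slot, hFin, rep, p, hp0, hp1, hrep, hbounds⟩ := exists_slots (by omega : 2 ≤ n) P
  have hslot : SlotsOK rep p P := ⟨hp0, hp1, hrep, hbounds⟩
  have h1 := hfail n (by omega) rep p P hP hslot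
  have h2 := hthin n (by omega) P hP P (subset_refl P) rep p hp0 hp1 hrep hbounds
  obtain ⟨w, hgood, hthick⟩ : ∃ w : Finset Slot, ¬ Bad P rep w ∧
      P.card ≤ 2 * (P.filter (· ∈ body0 rep w)).card := by
    by_contra hne
    push Not at hne
    have h3 : expect p (fun _ : Finset Slot => (1 : ℝ)) ≤
        expect p (fun w => (if Bad P rep w then (1 : ℝ) else 0) +
          (if 2 * (P.filter (· ∈ body0 rep w)).card < P.card then (1 : ℝ) else 0)) := by
      refine expect_mono hp0.le hp1 fun w => ?_
      by_cases hB : Bad P rep w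
      · rw [if_pos hB]
        split_ifs <;> norm_num
      · rw [if_neg hB, if_pos (hne w hB), zero_add]
    rw [expect_const, expect_add] at h3
    linarith
  obtain ⟨hK1, hK2, hK3, -⟩ := hbody n (by omega) P hP rep hrep w hthick
  refine ⟨_, hK1, hK2, hK3, le_iInf fun X => le_iInf fun hfin => le_iInf fun hcov => ?_⟩
  by_contra hlt
  exact hgood (hwindow n (by omega) rep P w hP hrep hthick X hfin hcov (not_le.1 hlt))

lemma eps_pos : 0 < eps := by norm_num [eps, A]

/-- The translative covering density reaches order `n log n`. -/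
theorem lowerBound : LowerBound := by
  obtain ⟨n₀, h⟩ := exists_body
  exact ⟨eps, eps_pos, n₀, h⟩

/-- The lattice covering density reaches order `n log n`. -/
theorem latticeLowerBound : LatticeLowerBound := by
  obtain ⟨n₀, h⟩ := exists_body
  refine ⟨eps, eps_pos, n₀, fun n hn => ?_⟩
  obtain ⟨K, h1, h2, h3, h4⟩ := h n hn
  exact ⟨K, h1, h2, h3, h4.trans (thetaT_le_thetaL K h1.measure_lt_top.ne)⟩

/-- No linear bound holds for all convex bodies in all dimensions. -/
theorem notLinear : NotLinear := by
  rintro ⟨C, hC⟩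
  obtain ⟨n₀, h⟩ := exists_body
  obtain ⟨m, hm⟩ := eventually_atTop.1
    ((Real.tendsto_log_atTop.comp tendsto_natCast_atTop_atTop).eventually_gt_atTop (|C| / eps))
  set n := max (max n₀ m) 1 with hn
  obtain ⟨K, h1, h2, h3, h4⟩ := h n (le_of_max_le_left (le_of_max_le_left hn.ge))
  have hn1 : (1 : ℝ) ≤ n := by exact_mod_cast le_of_max_le_right hn.ge
  have hlog : |C| / eps < Real.log n := hm n (le_of_max_le_right (le_of_max_le_left hn.ge))
  rw [div_lt_iff₀ eps_pos] at hlog
  have h5 : C * n < tlevel n := by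
    calc C * n ≤ |C| * n := mul_le_mul_of_nonneg_right (le_abs_self C) (by linarith)
      _ < Real.log n * eps * n := mul_lt_mul_of_pos_right hlog (by linarith)
      _ = tlevel n := by rw [tlevel]; ring
  have h6 : 0 < tlevel n := by
    refine lt_of_le_of_lt ?_ ((mul_lt_mul_of_pos_right hlog (by linarith : (0 : ℝ) < n)).trans_eq
      (by rw [tlevel]; ring : Real.log n * eps * n = tlevel n))
    positivity
  exact absurd (h4.trans (hC n K h1 h2 h3)) (not_le.2 ((ENNReal.ofReal_lt_ofReal_iff h6).2 h5))

end Vale.Agent.P230
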