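import Vale.Agent.P230.Grid
import Vale.Agent.P230.Retention

/-!
P230, section 5: a covering of small density yields one window of few centres.
-/

namespace Vale.Agent.P230

open MeasureTheory Finset Filter
open scoped RealInnerProductSpace Classical Pointwise ENNReal

variable {n : ℕ}

namespace WindowAux

/-- The grid points of the cube of half side `M * eta n`. -/
noncomputable def shifts (n M : ℕ) : Finset (E n) :=
  (Fintype.piFinset fun _ : Fin n => Finset.Icc (-(M : ℤ)) M).image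
    fun m => WithLp.toLp 2 fun i => (m i : ℝ) * eta n

lemma card_shifts (hn : 0 < n) (M : ℕ) : (shifts n M).card = (2 * M + 1) ^ n := by
  rw [shifts, card_image_of_injective, Fintype.card_piFinset, prod_const, card_univ,
    Fintype.card_fin, Int.card_Icc]
  · congr 1; omega
  · intro m m' h
    funext i
    have h2 : (m i : ℝ) * eta n = (m' i : ℝ) * eta n :=
      congrArg (fun v : E n => v i) h
    exact_mod_cast mul_right_cancel₀ (eta_pos hn).ne' h2

lemma mem_shifts {M : ℕ} {a : E n} (ha : a ∈ shifts n M) :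
    a ∈ grid n ∧ ∀ i, |a i| ≤ M * eta n := by
  obtain ⟨m, hm, rfl⟩ := mem_image.1 ha
  refine ⟨fun i => ⟨m i, rfl⟩, fun i => ?_⟩
  have h := Fintype.mem_piFinset.1 hm i
  rw [Finset.mem_Icc] at h
  show |(m i : ℝ) * eta n| ≤ _
  rw [abs_mul, abs_of_nonneg (eta_nonneg n)]
  refine mul_le_mul_of_nonneg_right (abs_le.2 ⟨?_, ?_⟩) (eta_nonneg n)
  · exact_mod_cast h.1
  · exact_mod_cast h.2

/-- The rounded centres seen from the shift `a`. -/
noncomputable def win (T : Finset (E n)) (f : E n → E n) (a : E n) : Finset (E n) :=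
  (T.image fun c => f c - a).filter fun c => ‖c‖ ≤ 2

lemma sum_card_win_le (T : Finset (E n)) (f : E n → E n) (hf : ∀ c, f c ∈ grid n)
    (A G : Finset (E n)) (hA : ∀ a ∈ A, a ∈ grid n)
    (hG : ∀ y, y ∈ G ↔ y ∈ grid n ∧ ‖y‖ ≤ 2) :
    ∑ a ∈ A, ((win T f a).card : ℝ) ≤ (T.card : ℝ) * G.card := by
  calc ∑ a ∈ A, ((win T f a).card : ℝ)
      ≤ ∑ a ∈ A, ∑ c ∈ T, if ‖f c - a‖ ≤ 2 then (1 : ℝ) else 0 := by
        refine sum_le_sum fun a _ => ?_
        rw [sum_boole, win, filter_image]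
        exact Nat.cast_le.2 card_image_le
    _ = ∑ c ∈ T, ∑ a ∈ A, if ‖f c - a‖ ≤ 2 then (1 : ℝ) else 0 := sum_comm
    _ ≤ ∑ _c ∈ T, (G.card : ℝ) := by
        refine sum_le_sum fun c _ => ?_
        rw [sum_boole]
        refine Nat.cast_le.2 (card_le_card_of_injOn (fun a => f c - a) (fun a ha => ?_)
          (fun a _ b _ h => sub_right_injective h))
        obtain ⟨ha, hn⟩ := mem_filter.1 ha
        exact (hG _).2 ⟨grid_sub (hf c) (hA a ha), hn⟩
    _ = (T.card : ℝ) * G.card := by simp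

/-- A nonnegative weight summed over the near translates of all probes and shifts. -/
lemma sum_near_le (T : Finset (E n)) (f : E n → E n) (hf : ∀ c, f c ∈ grid n)
    (A P : Finset (E n)) (hA : ∀ a ∈ A, a ∈ grid n) (hP : IsProbeSet P) (φ : E n → ℝ)
    (hφ : ∀ y ∈ P, 0 ≤ φ y) :
    ∑ a ∈ A, ∑ z ∈ P, ∑ y ∈ near (win T f a) z, φ y ≤
      (P.card : ℝ) * T.card * ∑ y ∈ P, φ y := by
  have hmem : ∀ a ∈ A, ∀ z ∈ P, ∀ c, ‖z - (f c - a)‖ ≤ 1 → z - (f c - a) ∈ P := fun a ha z hz c h =>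
    (hP _).2 ⟨grid_sub ((hP z).1 hz).1 (grid_sub (hf c) (hA a ha)), h⟩
  calc ∑ a ∈ A, ∑ z ∈ P, ∑ y ∈ near (win T f a) z, φ y
      ≤ ∑ a ∈ A, ∑ z ∈ P, ∑ c ∈ T, if ‖z - (f c - a)‖ ≤ 1 then φ (z - (f c - a)) else 0 := by
        refine sum_le_sum fun a ha => sum_le_sum fun z hz => ?_
        rw [← sum_filter]
        refine le_trans ?_ (sum_image_le_of_nonneg fun y hy => ?_)
        · refine sum_le_sum_of_subset_of_nonneg (fun y hy => ?_) fun y hy _ => ?_
          · simp only [near, mem_filter, mem_image, win] at hy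
            obtain ⟨⟨c', ⟨⟨c, hc, rfl⟩, -⟩, rfl⟩, hy1⟩ := hy
            exact mem_image.2 ⟨c, mem_filter.2 ⟨hc, hy1⟩, rfl⟩
          · obtain ⟨c, hc, rfl⟩ := mem_image.1 hy
            exact hφ _ (hmem a ha z hz c (mem_filter.1 hc).2)
        · obtain ⟨c, hc, rfl⟩ := mem_image.1 hy
          exact hφ _ (hmem a ha z hz c (mem_filter.1 hc).2)
    _ = ∑ z ∈ P, ∑ c ∈ T, ∑ a ∈ A, if ‖z - (f c - a)‖ ≤ 1 then φ (z - (f c - a)) else 0 := by
        rw [sum_comm]; exact sum_congr rfl fun z _ => sum_comm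
    _ ≤ ∑ _z ∈ P, ∑ _c ∈ T, ∑ y ∈ P, φ y := by
        refine sum_le_sum fun z hz => sum_le_sum fun c _ => ?_
        rw [← sum_filter, ← sum_image (g := fun a => z - (f c - a)) (f := φ)
          (fun a _ b _ h => sub_right_injective (sub_right_injective h))]
        refine sum_le_sum_of_subset_of_nonneg (fun y hy => ?_) fun y hy _ => hφ y hy
        obtain ⟨a, ha, rfl⟩ := mem_image.1 hy
        obtain ⟨ha, h⟩ := mem_filter.1 ha
        exact hmem a ha z hz c h
    _ = (P.card : ℝ) * T.card * ∑ y ∈ P, φ y := by simp [mul_assoc]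

lemma depth_nonneg {y : E n} (hy : ‖y‖ ≤ 1) : 0 ≤ depth y :=
  mul_nonneg (Nat.cast_nonneg n) (by linarith)

/-- A rounded covering by the shrunken body is a covering by the body. -/
lemma rounded_mem {Slot : Type} {rep : Slot → E n} (hn : 6 ≤ n)
    (hrep : ∀ s, ‖rep s‖ ≤ rho) (w : Finset Slot) {k e : E n}
    (hk : k ∈ (1 + delta n)⁻¹ • body0 rep w) (he : ‖e‖ ≤ eta n * √n) :
    k + e ∈ body0 rep w := by
  have hs0 := eta_sqrt_nonneg n
  have hs := eta_sqrt_le_small hn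
  have hd : (0 : ℝ) < 1 + delta n := by unfold delta; linarith
  have h0 : (0 : E n) ∈ body0 rep w :=
    closedBall_subset_body0 hrep w (Metric.mem_closedBall_self (by norm_num))
  have he' : e ∈ (2 * (eta n * √n)) • body0 rep w := by
    refine Set.smul_set_mono (closedBall_subset_body0 hrep w) ?_
    rw [smul_closedBall _ _ (by norm_num), smul_zero, mem_closedBall_zero_iff,
      Real.norm_of_nonneg (by linarith)]
    linarith
  have h := Set.add_mem_add hk he'
  rw [← (convex_body0 w).add_smul (inv_nonneg.2 hd.le) (by linarith)] at h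
  obtain ⟨b, hb, hbe⟩ := h
  rw [← hbe]
  refine (convex_body0 w).smul_mem_of_zero_mem h0 hb ⟨by positivity, ?_⟩
  have : (1 + delta n)⁻¹ ≤ 1 - 2 * (eta n * √n) := by
    rw [inv_eq_one_div, div_le_iff₀ hd]; unfold delta; nlinarith
  linarith

lemma tlevel_pos (hn : 2 ≤ n) : 0 < tlevel n := by
  have h2 : (2 : ℝ) ≤ n := Nat.ofNat_le_cast.2 hn
  have hl : 0 < Real.log n := Real.log_pos (by linarith)
  have : 0 < eps := by norm_num [eps, A]
  unfold tlevel; positivity

lemma tlevel_div_le (hn : 2 ≤ n) : 384 * tlevel n / (n : ℝ) ^ 3 ≤ 1 / 4 := by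
  have h2 : (2 : ℝ) ≤ n := Nat.ofNat_le_cast.2 hn
  have hl : Real.log n ≤ n := by linarith [Real.log_le_sub_one_of_pos (by linarith : (0 : ℝ) < n)]
  have he : 0 ≤ eps := by norm_num [eps, A]
  have he2 : 1536 * eps ≤ 1 := by norm_num [eps, A]
  rw [div_le_iff₀ (by positivity)]
  have h3 : tlevel n ≤ eps * n * n := mul_le_mul_of_nonneg_left hl (by positivity)
  have h4 : (n : ℝ) ^ 2 ≤ (n : ℝ) ^ 3 := pow_le_pow_right₀ (by linarith) (by norm_num)
  nlinarith [mul_le_mul_of_nonneg_right he2 (sq_nonneg (n : ℝ))]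

/-- One cube carries few centres compared with the shifts. -/
lemma exists_count (hn6 : 6 ≤ n) (P : Finset (E n)) (hP : IsProbeSet P)
    (hvol : ENNReal.ofReal (eta n ^ n * P.card) ≤ 2 * volume (Metric.ball (0 : E n) 1))
    (K X : Set (E n)) (htK : volume K ≠ ⊤)
    (hKvol : volume (Metric.ball (0 : E n) 1) / 8 ≤ volume K)
    (hfin : ∀ R : ℝ, (X ∩ {x | ∀ i, |x i| ≤ R}).Finite) {t : ℝ} (ht0 : 0 < t)
    (hdens : volume K * limsup (fun R : ℝ =>
          ((X ∩ {x | ∀ i, |x i| ≤ R}).encard : ℝ≥0∞) / ENNReal.ofReal ((2 * R) ^ n)) atTop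
        < ENNReal.ofReal t) :
    ∃ (M : ℕ) (T : Finset (E n)),
      (∀ c ∈ X, (∀ i, |c i| ≤ (M : ℝ) * eta n + 3) → c ∈ T) ∧
      (T.card : ℝ) * P.card ≤ 32 * t * (shifts n M).card := by
  have hn0 : 0 < n := by omega
  have hK0 : volume K ≠ 0 := fun h => by
    rw [h, nonpos_iff_eq_zero, ENNReal.div_eq_zero_iff] at hKvol
    exact (hKvol.resolve_right (by norm_num)) |> (Metric.measure_ball_pos volume _ one_pos).ne'
  -- counting in one large cube
  have hlt := (ENNReal.lt_div_iff_mul_lt (Or.inl hK0) (Or.inl htK)).2 (by rwa [mul_comm] at hdens)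
  obtain ⟨R₁, hR₁⟩ := eventually_atTop.1 (eventually_lt_of_limsup_lt hlt)
  have htend : Tendsto (fun M : ℕ => (1 + 3 / ((M : ℝ) * eta n)) ^ n) atTop (nhds 1) := by
    have h1 : Tendsto (fun M : ℕ => (M : ℝ) * eta n) atTop atTop :=
      tendsto_natCast_atTop_atTop.atTop_mul_const (eta_pos hn0)
    have h2 := ((tendsto_const_nhds (x := (1 : ℝ))).add
      ((tendsto_const_nhds (x := (3 : ℝ))).div_atTop h1)).pow n
    simpa using h2
  obtain ⟨M₁, hM₁⟩ := eventually_atTop.1 ((htend.eventually (eventually_le_nhds (one_lt_two)))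
    |>.and ((tendsto_natCast_atTop_atTop.atTop_mul_const (eta_pos hn0)).eventually
      (eventually_ge_atTop (max R₁ 1))))
  obtain ⟨hM2, hMR⟩ := hM₁ M₁ le_rfl
  set R := (M₁ : ℝ) * eta n with hR
  have hR1 : 1 ≤ R := le_trans (le_max_right _ _) hMR
  have hden := hR₁ (R + 3) (by linarith [le_max_left R₁ 1])
  set T := (hfin (R + 3)).toFinset with hT
  rw [(hfin (R + 3)).encard_eq_coe_toFinset_card, ← hT] at hden
  set A := shifts n M₁ with hAdef
  have hA : ∀ a ∈ A, a ∈ grid n := fun a ha => (mem_shifts ha).1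
  have hAc : (A.card : ℝ) = (2 * (M₁ : ℝ) + 1) ^ n := by
    rw [hAdef, card_shifts hn0]; push_cast; ring
  have hPpos : 0 < P.card := card_pos.2 ⟨0, (hP 0).2 ⟨grid_zero, by simp⟩⟩
  have hTA : (T.card : ℝ) * P.card ≤ 32 * t * A.card := by
    have hpos : (0 : ℝ) < (2 * (R + 3)) ^ n := by positivity
    have h1 : (T.card : ℝ) / (2 * (R + 3)) ^ n ≤ t / (volume K).toReal := by
      have h := ENNReal.toReal_mono (ENNReal.div_ne_top ENNReal.ofReal_ne_top hK0) hden.le
      rw [ENNReal.toReal_div, ENNReal.toReal_div, ENNReal.toReal_ofReal hpos.le,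
        ENNReal.toReal_ofReal ht0.le] at h
      simpa using h
    have hKpos : 0 < (volume K).toReal := ENNReal.toReal_pos hK0 htK
    rw [div_le_div_iff₀ hpos hKpos] at h1
    have h2 : eta n ^ n * P.card ≤ 16 * (volume K).toReal := by
      have ha : ENNReal.ofReal (eta n ^ n * P.card) ≤ 2 * (8 * volume K) := by
        refine hvol.trans ?_
        gcongr
        rw [ENNReal.div_le_iff (by norm_num) (by norm_num), mul_comm] at hKvol
        exact hKvol
      have hb := ENNReal.toReal_mono (by simp [ENNReal.mul_eq_top, htK]) ha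
      rw [ENNReal.toReal_ofReal (mul_nonneg (pow_nonneg (eta_nonneg n) n) (Nat.cast_nonneg _)),
        ENNReal.toReal_mul, ENNReal.toReal_mul] at hb
      norm_num at hb
      linarith
    have h3 : (2 * (R + 3)) ^ n ≤ 2 * (eta n ^ n * A.card) := by
      have hz : R + 3 = R * (1 + 3 / R) := by field_simp
      have hle : 2 * R ≤ eta n * (2 * (M₁ : ℝ) + 1) := by
        rw [hR]; nlinarith [eta_nonneg n]
      calc (2 * (R + 3)) ^ n = (2 * R) ^ n * (1 + 3 / R) ^ n := by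
            rw [hz, ← mul_assoc, mul_pow]
        _ ≤ (eta n * (2 * (M₁ : ℝ) + 1)) ^ n * 2 :=
            mul_le_mul (pow_le_pow_left₀ (by linarith) hle n) hM2 (by positivity)
              (pow_nonneg (mul_nonneg (eta_nonneg n) (by positivity)) n)
        _ = 2 * (eta n ^ n * (A.card : ℝ)) := by rw [hAc, mul_pow]; ring
    refine le_of_mul_le_mul_left ?_ (pow_pos (eta_pos hn0) n)
    calc eta n ^ n * ((T.card : ℝ) * P.card) = (T.card : ℝ) * (eta n ^ n * P.card) := by ring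
      _ ≤ (T.card : ℝ) * (16 * (volume K).toReal) := mul_le_mul_of_nonneg_left h2 (Nat.cast_nonneg _)
      _ ≤ 16 * (t * (2 * (R + 3)) ^ n) := by linarith
      _ ≤ 16 * (t * (2 * (eta n ^ n * A.card))) := by gcongr
      _ = eta n ^ n * (32 * t * A.card) := by ring
  exact ⟨M₁, T, fun c hc hb => (hfin (R + 3)).mem_toFinset.2 ⟨hc, hb⟩, hTA⟩

/-- Indicator of a deep translate. -/
noncomputable def deepInd (y : E n) : ℝ := if 3 * Real.log n < depth y then 1 else 0

lemma deepInd_nonneg (y : E n) : 0 ≤ deepInd y := by unfold deepInd; split_ifs <;> norm_num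

/-- The average window has few centres. -/
lemma avg_card {t : ℝ} (T : Finset (E n)) (f : E n → E n) (hfg : ∀ c, f c ∈ grid n)
    (A P G : Finset (E n)) (hA : ∀ a ∈ A, a ∈ grid n)
    (hG : ∀ y, y ∈ G ↔ y ∈ grid n ∧ ‖y‖ ≤ 2) (hG2 : (G.card : ℝ) ≤ 2 ^ (n + 1) * P.card)
    (hTA : (T.card : ℝ) * P.card ≤ 32 * t * A.card) :
    ∑ a ∈ A, ((win T f a).card : ℝ) ≤ 64 * t * 2 ^ n * A.card := by
    refine (sum_card_win_le T f hfg A G hA hG).trans ?_
    calc (T.card : ℝ) * G.card ≤ T.card * (2 ^ (n + 1) * P.card) :=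
          mul_le_mul_of_nonneg_left hG2 (Nat.cast_nonneg _)
      _ = 2 ^ (n + 1) * ((T.card : ℝ) * P.card) := by ring
      _ ≤ 2 ^ (n + 1) * (32 * t * A.card) := mul_le_mul_of_nonneg_left hTA (by positivity)
      _ = _ := by ring

/-- The average depth sum. -/
lemma avg_depth {t : ℝ} (T : Finset (E n)) (f : E n → E n) (hfg : ∀ c, f c ∈ grid n)
    (A P : Finset (E n)) (hA : ∀ a ∈ A, a ∈ grid n) (hP : IsProbeSet P)
    (hsum : ∑ y ∈ P, (1 + depth y) ≤ 5 * (P.card : ℝ))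
    (hTA : (T.card : ℝ) * P.card ≤ 32 * t * A.card) :
    ∑ a ∈ A, ∑ z ∈ P, depthSum (win T f a) z ≤ 160 * t * P.card * A.card := by
  have hdepth : ∀ y ∈ P, 0 ≤ 1 + depth y := fun y hy => by
    linarith [depth_nonneg ((hP y).1 hy).2]
  refine (sum_near_le T f hfg A P hA hP (fun y => 1 + depth y) hdepth).trans ?_
  calc (P.card : ℝ) * T.card * ∑ y ∈ P, (1 + depth y) ≤ P.card * T.card * (5 * P.card) :=
        mul_le_mul_of_nonneg_left hsum (by positivity)
    _ = 5 * P.card * ((T.card : ℝ) * P.card) := by ring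
    _ ≤ 5 * P.card * (32 * t * A.card) := mul_le_mul_of_nonneg_left hTA (by positivity)
    _ = _ := by ring

/-- The average number of deep translates. -/
lemma avg_deep {t : ℝ} (T : Finset (E n)) (f : E n → E n) (hfg : ∀ c, f c ∈ grid n)
    (A P : Finset (E n)) (hA : ∀ a ∈ A, a ∈ grid n) (hP : IsProbeSet P)
    (hdeep : ((P.filter fun y => 3 * Real.log n < depth y).card : ℝ) ≤ 2 / (n : ℝ) ^ 3 * P.card)
    (hTA : (T.card : ℝ) * P.card ≤ 32 * t * A.card) :
    ∑ a ∈ A, ∑ z ∈ P, ∑ y ∈ near (win T f a) z, deepInd y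
      ≤ 64 * t / (n : ℝ) ^ 3 * P.card * A.card := by
    refine (sum_near_le T f hfg A P hA hP (deepInd (n := n)) fun y _ => deepInd_nonneg y).trans ?_
    have hd2 : ∑ y ∈ P, deepInd y ≤ 2 / (n : ℝ) ^ 3 * P.card := by
      simp only [deepInd, sum_boole]; exact hdeep
    calc (P.card : ℝ) * T.card * ∑ y ∈ P, deepInd y
        ≤ P.card * T.card * (2 / (n : ℝ) ^ 3 * P.card) :=
          mul_le_mul_of_nonneg_left hd2 (by positivity)
      _ = 2 / (n : ℝ) ^ 3 * P.card * ((T.card : ℝ) * P.card) := by ring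
      _ ≤ 2 / (n : ℝ) ^ 3 * P.card * (32 * t * A.card) :=
          mul_le_mul_of_nonneg_left hTA (by positivity)
      _ = _ := by ring

/-- Some shift is good for the three averages at once. -/
lemma exists_shift (hn0 : 0 < n) {t : ℝ} (ht0 : 0 < t) (T : Finset (E n)) (f : E n → E n)
    (A P : Finset (E n)) (hPpos : 0 < P.card) (hA0 : (0 : ℝ) < A.card)
    (s1 : ∑ a ∈ A, ((win T f a).card : ℝ) ≤ 64 * t * 2 ^ n * A.card)
    (s2 : ∑ a ∈ A, ∑ z ∈ P, depthSum (win T f a) z ≤ 160 * t * P.card * A.card)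
    (s3 : ∑ a ∈ A, ∑ z ∈ P, ∑ y ∈ near (win T f a) z, deepInd y
      ≤ 64 * t / (n : ℝ) ^ 3 * P.card * A.card) :
    ∃ a ∈ A, ((win T f a).card : ℝ) / (384 * t * 2 ^ n)
      + (∑ z ∈ P, depthSum (win T f a) z) / (960 * t * P.card)
      + (∑ z ∈ P, ∑ y ∈ near (win T f a) z, deepInd y) / (384 * t / (n : ℝ) ^ 3 * P.card) ≤ 1 := by
  have hP0 : (0 : ℝ) < P.card := Nat.cast_pos.2 hPpos
  have hN : (0 : ℝ) < (n : ℝ) ^ 3 := by positivity
  refine exists_le_of_sum_le (card_pos.1 (Nat.cast_pos.1 hA0)) ?_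
  have e : ∑ _a ∈ A, (1 : ℝ) = A.card := by simp
  rw [e, sum_add_distrib, sum_add_distrib, ← sum_div, ← sum_div, ← sum_div]
  have k1 : (∑ a ∈ A, ((win T f a).card : ℝ)) / (384 * t * 2 ^ n) ≤ (A.card : ℝ) / 3 := by
    rw [div_le_iff₀ (by positivity)]
    nlinarith [s1, mul_pos (mul_pos ht0 (pow_pos two_pos n : (0 : ℝ) < 2 ^ n)) hA0]
  have k2 : (∑ a ∈ A, ∑ z ∈ P, depthSum (win T f a) z) / (960 * t * P.card) ≤ (A.card : ℝ) / 3 := by
    rw [div_le_iff₀ (by positivity)]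
    nlinarith [s2, mul_pos (mul_pos ht0 hP0) hA0]
  have k3 : (∑ a ∈ A, ∑ z ∈ P, ∑ y ∈ near (win T f a) z, deepInd y) / (384 * t / (n : ℝ) ^ 3 * P.card)
      ≤ (A.card : ℝ) / 3 := by
    rw [div_le_iff₀ (by positivity)]
    have e3 : (A.card : ℝ) / 3 * (384 * t / (n : ℝ) ^ 3 * P.card)
        = 2 * (64 * t / (n : ℝ) ^ 3 * P.card * A.card) := by ring
    have : 0 ≤ 64 * t / (n : ℝ) ^ 3 * P.card * A.card := by positivity
    linarith
  linarith

/-- Small depth sums and few deep translates leave half of the probes good. -/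
lemma half_good (hn6 : 6 ≤ n) (P Xw : Finset (E n)) (hPpos : 0 < P.card)
    (hS1 : (∑ z ∈ P, depthSum Xw z) / (960 * tlevel n * P.card) ≤ 1)
    (hD1 : (∑ z ∈ P, ∑ y ∈ near Xw z, deepInd y) /
      (384 * tlevel n / (n : ℝ) ^ 3 * P.card) ≤ 1) :
    P.card ≤ 2 * (P.filter (GoodProbe Xw)).card := by
  have hn0 : 0 < n := by omega
  have hP0 : (0 : ℝ) < P.card := Nat.cast_pos.2 hPpos
  have hnear : ∀ z, ∀ y ∈ near Xw z, ‖y‖ ≤ 1 := fun z y hy => by
    simp only [near, mem_filter] at hy; exact hy.2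
  have hSz : ∀ z, 0 ≤ depthSum Xw z := fun z =>
    sum_nonneg fun y hy => by linarith [depth_nonneg (hnear z y hy)]
  set S := ∑ z ∈ P, depthSum Xw z with hS
  set D := ∑ z ∈ P, ∑ y ∈ near Xw z, deepInd y with hD
  set t := tlevel n with ht
  have ht0 : 0 < t := tlevel_pos (by omega)
  have hS' := (div_le_one (by positivity)).1 hS1
  have hD' := (div_le_one (by positivity)).1
    hD1
  set B1 := P.filter fun z => S0 n < depthSum Xw z with hB1
  set B2 := P.filter fun z => ∃ y ∈ near Xw z, 3 * Real.log n < depth y with hB2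
  have b1 : 4 * (B1.card : ℝ) ≤ P.card := by
    have h1 : (B1.card : ℝ) * S0 n ≤ S := by
      rw [← nsmul_eq_mul]
      refine (card_nsmul_le_sum _ _ _ fun z hz => (mem_filter.1 hz).2.le).trans ?_
      exact sum_le_sum_of_subset_of_nonneg (filter_subset _ _) fun z _ _ => hSz z
    rw [S0, ← ht] at h1
    nlinarith [h1.trans hS']
  have b2 : 4 * (B2.card : ℝ) ≤ P.card := by
    have h1 : (B2.card : ℝ) ≤ D := by
      refine le_trans ?_ (sum_le_sum_of_subset_of_nonneg (s := B2) (filter_subset _ P)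
        fun z _ _ => sum_nonneg fun y _ => deepInd_nonneg y)
      rw [← mul_one (B2.card : ℝ), ← nsmul_eq_mul]
      refine card_nsmul_le_sum _ _ _ fun z hz => ?_
      obtain ⟨y, hy, hy'⟩ := (mem_filter.1 hz).2
      refine le_trans ?_ (single_le_sum (fun y _ => deepInd_nonneg y) hy)
      simp [deepInd, hy']
    have := mul_le_mul_of_nonneg_right (tlevel_div_le (n := n) (by omega)) hP0.le
    rw [← ht] at this
    linarith
  have hsub : P ⊆ P.filter (GoodProbe Xw) ∪ (B1 ∪ B2) := fun z hz => by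
    by_cases h : GoodProbe Xw z
    · exact mem_union_left _ (mem_filter.2 ⟨hz, h⟩)
    · refine mem_union_right _ ?_
      simp only [GoodProbe, not_and_or, not_le, not_forall] at h
      rcases h with h | ⟨y, hy, hy'⟩
      · exact mem_union_left _ (mem_filter.2 ⟨hz, h⟩)
      · exact mem_union_right _ (mem_filter.2 ⟨hz, y, hy, hy'⟩)
  have hc : (P.card : ℝ) ≤ (P.filter (GoodProbe Xw)).card + (B1.card + B2.card) := by
    exact_mod_cast (card_le_card hsub).trans
      ((card_union_le _ _).trans (Nat.add_le_add_left (card_union_le _ _) _))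
  have : (P.card : ℝ) ≤ ((2 * (P.filter (GoodProbe Xw)).card : ℕ) : ℝ) := by
    push_cast; linarith
  exact_mod_cast this

/-- Every probe is covered from the window. -/
lemma covered {Slot : Type} {rep : Slot → E n} (hn6 : 6 ≤ n) (hrep : ∀ s, ‖rep s‖ ≤ rho)
    (w : Finset Slot) (P : Finset (E n)) (hP : IsProbeSet P) (X : Set (E n))
    (hcov : (1 + delta n)⁻¹ • body0 rep w + X = Set.univ) (f : E n → E n)
    (hfe : ∀ c, ‖c - f c‖ ≤ eta n * √n) (T : Finset (E n)) (a : E n) {R : ℝ}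
    (haR : ∀ i, |a i| ≤ R) (hT : ∀ c ∈ X, (∀ i, |c i| ≤ R + 3) → c ∈ T) {z : E n} (hz : z ∈ P) :
    ∃ c ∈ win T f a, z - c ∈ body0 rep w := by
  obtain ⟨k, hk, c, hc, hkc⟩ := Set.mem_add.1 (hcov.ge (Set.mem_univ (z + a)))
  have hy : z - (f c - a) ∈ body0 rep w := by
    have : z - (f c - a) = k + (c - f c) := by
      rw [sub_sub_eq_add_sub, ← hkc]; abel
    rw [this]
    exact rounded_mem hn6 hrep w hk (hfe c)
  have hy1 : ‖z - (f c - a)‖ ≤ 1 := hy.1
  have hz1 : ‖z‖ ≤ 1 := ((hP z).1 hz).2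
  have hw2 : ‖f c - a‖ ≤ 2 := by
    have := norm_sub_le z (z - (f c - a))
    rw [sub_sub_cancel] at this
    linarith
  refine ⟨f c - a, mem_filter.2 ⟨mem_image.2 ⟨c, ?_, rfl⟩, hw2⟩, hy⟩
  refine hT c hc fun i => ?_
  have h1 : |(c - f c) i| ≤ eta n * √n := (PiLp.norm_apply_le _ i).trans (hfe c)
  have h2 : |(f c - a) i| ≤ 2 := (PiLp.norm_apply_le _ i).trans hw2
  have h3 : |a i| ≤ R := haR i
  have h4 := eta_sqrt_le_small hn6
  simp only [PiLp.sub_apply] at h1 h2
  rw [abs_le] at h1 h2 h3 ⊢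
  constructor <;> linarith

end WindowAux

open WindowAux

/-- A covering of density below `tlevel n` gives a window of few centres. -/
theorem exists_window : ∃ n₀ : ℕ, ∀ n, n₀ ≤ n → ∀ {Slot : Type} [Fintype Slot]
    (rep : Slot → E n) (P : Finset (E n)) (w : Finset Slot), IsProbeSet P →
    (∀ s, ‖rep s‖ ≤ rho) → P.card ≤ 2 * (P.filter (· ∈ body0 rep w)).card →
    ∀ X : Set (E n), (∀ R : ℝ, (X ∩ {x | ∀ i, |x i| ≤ R}).Finite) →
      (1 + delta n)⁻¹ • body0 rep w + X = Set.univ →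
      volume ((1 + delta n)⁻¹ • body0 rep w) * limsup (fun R : ℝ =>
          ((X ∩ {x | ∀ i, |x i| ≤ R}).encard : ℝ≥0∞) / ENNReal.ofReal ((2 * R) ^ n)) atTop
        < ENNReal.ofReal (tlevel n) →
      ∃ Xw : Finset (E n), (∀ c ∈ Xw, c ∈ grid n ∧ ‖c‖ ≤ 2) ∧ (Xw.card : ℝ) ≤ T0 n ∧
        P.card ≤ 2 * (P.filter (GoodProbe Xw)).card ∧
        ∀ z ∈ P, GoodProbe Xw z → ∃ c ∈ Xw, z - c ∈ body0 rep w := by
  obtain ⟨n1, hbody⟩ := body_of_thick
  obtain ⟨n2, hball⟩ := card_ball_two_le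
  obtain ⟨n3, hsum⟩ := sum_depth_le
  obtain ⟨n4, hdeep⟩ := card_deep_le
  obtain ⟨n5, hvol⟩ := grid_vol_le
  refine ⟨n1 + n2 + n3 + n4 + n5 + 6, ?_⟩
  intro n hn Slot _ rep P w hP hrep hthick X hfin hcov hdens
  have hn6 : 6 ≤ n := by omega
  have hn0 : 0 < n := by omega
  obtain ⟨hKc, -, -, hKvol⟩ := hbody n (by omega) P hP rep hrep w hthick
  have ht0 : 0 < tlevel n := tlevel_pos (by omega)
  obtain ⟨M, T, hT, hTA⟩ := exists_count hn6 P hP (hvol n (by omega) P hP) _ X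
    hKc.measure_lt_top.ne hKvol hfin ht0 hdens
  choose f hfg hfe using fun c : E n => exists_round c
  obtain ⟨G, hG⟩ := exists_gridBall (n := n) 2
  have hA : ∀ a ∈ shifts n M, a ∈ grid n := fun a ha => (mem_shifts ha).1
  have hPpos : 0 < P.card := card_pos.2 ⟨0, (hP 0).2 ⟨grid_zero, by simp⟩⟩
  have hA0 : (0 : ℝ) < (shifts n M).card := by rw [card_shifts hn0]; positivity
  obtain ⟨a, ha, hsc⟩ := exists_shift hn0 ht0 T f (shifts n M) P hPpos hA0
    (avg_card T f hfg _ P G hA hG (hball n (by omega) P hP G hG).2 hTA)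
    (avg_depth T f hfg _ P hA hP (hsum n (by omega) P hP) hTA)
    (avg_deep T f hfg _ P hA hP (hdeep n (by omega) P hP) hTA)
  have hnear : ∀ z, ∀ y ∈ near (win T f a) z, ‖y‖ ≤ 1 := fun z y hy => by
    simp only [near, mem_filter] at hy; exact hy.2
  have hq1 : 0 ≤ ((win T f a).card : ℝ) / (384 * tlevel n * 2 ^ n) := by positivity
  have hq2 : 0 ≤ (∑ z ∈ P, depthSum (win T f a) z) / (960 * tlevel n * P.card) :=
    div_nonneg (sum_nonneg fun z _ => sum_nonneg fun y hy => by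
      linarith [depth_nonneg (hnear z y hy)]) (by positivity)
  have hq3 : 0 ≤ (∑ z ∈ P, ∑ y ∈ near (win T f a) z, deepInd y) /
      (384 * tlevel n / (n : ℝ) ^ 3 * P.card) :=
    div_nonneg (sum_nonneg fun z _ => sum_nonneg fun y _ => deepInd_nonneg y) (by positivity)
  refine ⟨win T f a, fun c hc => ?_, ?_, half_good hn6 P _ hPpos (by linarith) (by linarith),
    fun z hz _ => covered hn6 hrep w P hP X hcov f hfe T a (mem_shifts ha).2 hT hz⟩
  · obtain ⟨hc, hc2⟩ := mem_filter.1 hc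
    obtain ⟨d, -, rfl⟩ := mem_image.1 hc
    exact ⟨grid_sub (hfg d) (hA a ha), hc2⟩
  · have h := (div_le_one (by positivity)).1
      (show ((win T f a).card : ℝ) / (384 * tlevel n * 2 ^ n) ≤ 1 by linarith)
    simpa [T0] using h

end Vale.Agent.P230
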